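import Mathlib

/-!
# Coordinates and stable coordinates
-/

open MvPolynomial

namespace Vale.Agent.P295

/-- `f` is sent to a variable by some algebra automorphism. -/
def IsCoordinate {σ : Type} (f : MvPolynomial σ ℂ) : Prop :=
  ∃ (e : MvPolynomial σ ℂ ≃ₐ[ℂ] MvPolynomial σ ℂ) (i : σ), e f = X i

/-- `f` becomes a coordinate after adjoining finitely many new variables, at least one. -/
def IsStableCoordinate {n : ℕ} (f : MvPolynomial (Fin n) ℂ) : Prop :=
  ∃ m : ℕ, 1 ≤ m ∧ IsCoordinate (rename (Sum.inl : Fin n → Fin n ⊕ Fin m) f)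

end Vale.Agent.P295
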