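import Vale.Agent.P295.Quadratic

/-!
P295: normal forms of quadratic polynomials over the complex numbers, as polynomial identities.
-/

namespace Vale.Agent.P295

open MvPolynomial Matrix

variable {τ : Type} [Fintype τ] [DecidableEq τ]

lemma quadratic_formula {g : MvPolynomial τ ℂ} (hd : g.totalDegree ≤ 2) :
    ∃ (c0 : ℂ) (c : τ → ℂ) (M : Matrix τ τ ℂ), Mᵀ = M ∧
      ∀ z : τ → ℂ, eval z g = c0 + c ⬝ᵥ z + z ⬝ᵥ M *ᵥ z := by
  set Q : τ → τ → ℂ := fun j l => coeff 0 (pderiv l (pderiv j g)) with hQ
  set c : τ → ℂ := fun j => coeff 0 (pderiv j g) with hc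
  have hsym : ∀ j l, Q j l = Q l j := fun j l => by simp only [Q, pderiv_comm l j]
  have h2 : ∀ j l, pderiv l (pderiv j g) = C (Q j l) := fun j l =>
    eq_C_of_pderiv_eq_zero fun i => pderiv_three hd i l j
  have h1 : ∀ j, pderiv j g = C (c j) + ∑ l, C (Q j l) * X l := fun j => by
    have hz := eq_C_of_pderiv_eq_zero (g := pderiv j g - ∑ l, C (Q j l) * X l) fun i => by
      rw [map_sub, h2, map_sum, Finset.sum_eq_single i]
      · simp
      · intro l _ hl
        simp [pderiv_X_of_ne hl]
      · simp
    simp only [coeff_sub, coeff_sum, coeff_C_mul, coeff_zero_X, mul_zero, Finset.sum_const_zero,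
      sub_zero] at hz
    exact eq_add_of_sub_eq hz
  set h := g - ∑ j, C (c j) * X j - ∑ j, ∑ l, C (Q j l / 2) * (X j * X l) with hh
  have hh0 : ∀ i, pderiv i h = 0 := by
    intro i
    have e1 : pderiv i (∑ j, C (c j) * X j) = C (c i) := by
      rw [map_sum, Finset.sum_eq_single i]
      · simp
      · intro l _ hl
        simp [pderiv_X_of_ne hl]
      · simp
    have e2 : pderiv i (∑ j, ∑ l, C (Q j l / 2) * (X j * X l)) = ∑ l, C (Q i l) * X l := by
      rw [map_sum]
      simp_rw [map_sum, pderiv_C_mul, pderiv_mul, pderiv_X, mul_add,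
        Finset.sum_add_distrib]
      simp only [Pi.single_apply, ite_mul, mul_ite, one_mul, zero_mul, mul_one, mul_zero,
        Finset.sum_ite_irrel, Finset.sum_const_zero, Finset.sum_ite_eq',
        Finset.mem_univ, if_true]
      rw [← Finset.sum_add_distrib]
      refine Finset.sum_congr rfl fun l _ => ?_
      rw [← add_mul, ← C_add, hsym l i, add_halves]
    rw [hh, map_sub, map_sub, h1, e1, e2]
    ring
  refine ⟨coeff 0 h, c, Matrix.of fun j l => Q j l / 2, ?_, fun z => ?_⟩
  · ext j l
    show Q l j / 2 = Q j l / 2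
    rw [hsym]
  · have := congrArg (eval z) (eq_C_of_pderiv_eq_zero hh0)
    rw [eval_C, hh, map_sub, map_sub] at this
    simp only [map_sum, map_mul, eval_C, eval_X] at this
    simp only [dotProduct, mulVec, Matrix.of_apply, Finset.mul_sum]
    rw [show ∑ j, ∑ l, z j * (Q j l / 2 * z l) = ∑ j, ∑ l, Q j l / 2 * (z j * z l) from
      Finset.sum_congr rfl fun j _ => Finset.sum_congr rfl fun l _ => by ring]
    linear_combination this

/-- Substituting a translation along `v`, with a new variable `none` as parameter. -/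
noncomputable def shiftVars (v : τ → ℂ) : τ → MvPolynomial (Option τ) ℂ :=
  fun l => X (some l) + C (v l) * X none

/-- A quadratic polynomial either is translation invariant up to a nonzero constant along some
vector, or is a sum of squares plus a constant after an invertible affine substitution. -/
theorem quadratic_normal_form {g : MvPolynomial τ ℂ} (hd : g.totalDegree ≤ 2) :
    (∃ (v : τ → ℂ) (α : ℂ), α ≠ 0 ∧
      bind₁ (shiftVars v) g = rename some g + C α * X none) ∨
    ∃ (T S : τ → MvPolynomial τ ℂ) (U : Finset τ) (c : ℂ),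
      bind₁ T g = ∑ j ∈ U, X j ^ 2 + C c ∧ (∀ j, bind₁ T (S j) = X j) ∧
        (U = Finset.univ → ∀ v, bind₁ (shiftVars v) g = rename some g → v = 0) := by
  classical
  obtain ⟨c0, c, M, hM, hg⟩ := quadratic_formula hd
  have hMs : ∀ x y : τ → ℂ, x ⬝ᵥ M *ᵥ y = y ⬝ᵥ M *ᵥ x := fun x y => by
    conv_rhs => rw [dotProduct_comm, ← hM, mulVec_transpose, ← dotProduct_mulVec]
  have hev : ∀ {ρ : Type} (z : ρ → ℂ) (T : τ → MvPolynomial ρ ℂ) (p : MvPolynomial τ ℂ),
      eval z (bind₁ T p) = eval (fun j => eval z (T j)) p := fun z T p =>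
    eval₂Hom_bind₁ (RingHom.id ℂ) z T p
  by_cases hr : ∃ p, M *ᵥ p = (-(1 / 2) : ℂ) • c
  · refine Or.inr ?_
    obtain ⟨p, hp⟩ := hr
    have hloc : ∀ z : τ → ℂ, eval (p + z) g = eval p g + z ⬝ᵥ M *ᵥ z := fun z => by
      rw [hg, hg]
      simp only [dotProduct_add, mulVec_add, add_dotProduct]
      rw [hMs p z, hp, dotProduct_smul, dotProduct_smul, dotProduct_comm c z, smul_eq_mul,
        smul_eq_mul]
      ring
    set B : QuadraticMap ℂ (τ → ℂ) ℂ := M.toQuadraticForm' with hB
    have hBz : ∀ z, B z = z ⬝ᵥ M *ᵥ z := fun z => by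
      simp [hB, toQuadraticForm', LinearMap.BilinMap.toQuadraticMap_apply,
        toLinearMap₂'_apply']
    obtain ⟨w, ⟨Φ⟩⟩ := QuadraticForm.equivalent_weightedSumSquares B
    have hcard : Fintype.card τ = Module.finrank ℂ (τ → ℂ) := (Module.finrank_pi ℂ).symm
    let e : τ ≃ Fin (Module.finrank ℂ (τ → ℂ)) :=
      (Fintype.equivFin τ).trans (finCongr hcard)
    choose sq hsq using fun l => IsAlgClosed.exists_eq_mul_self (w (e l))
    set d : τ → ℂ := fun l => if sq l = 0 then 1 else sq l with hdd
    have hd0 : ∀ l, d l ≠ 0 := fun l => by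
      by_cases h : sq l = 0 <;> simp [d, h]
    let L : (τ → ℂ) ≃ₗ[ℂ] (τ → ℂ) :=
      (Φ.toLinearEquiv.trans (LinearEquiv.funCongrLeft ℂ ℂ e)).trans
        (LinearEquiv.piCongrRight fun l => LinearEquiv.smulOfNeZero ℂ ℂ (d l) (hd0 l))
    have hL : ∀ z l, L z l = d l * Φ z (e l) := fun z l => rfl
    set U : Finset τ := Finset.univ.filter fun l => sq l ≠ 0 with hU
    have hsum : ∀ z, B z = ∑ l ∈ U, L z l ^ 2 := by
      intro z
      rw [← Φ.map_app z, QuadraticMap.weightedSumSquares_apply, ← e.sum_comp, hU,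
        Finset.sum_filter]
      refine Finset.sum_congr rfl fun l _ => ?_
      rw [hL, smul_eq_mul, hsq l]
      by_cases h : sq l = 0
      · simp [h]
      · simp only [ne_eq, h, not_false_eq_true, if_true, d, if_false]
        ring
    let lin : ((τ → ℂ) →ₗ[ℂ] (τ → ℂ)) → τ → MvPolynomial τ ℂ := fun K j =>
      ∑ l, C (K (Pi.single l 1) j) * X l
    have hlin : ∀ (K : (τ → ℂ) →ₗ[ℂ] (τ → ℂ)) z j, eval z (lin K j) = K z j := fun K z j => by
      conv_rhs => rw [pi_eq_sum_univ' z, map_sum, Finset.sum_apply]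
      simp only [lin, map_sum, map_mul, eval_C, eval_X, map_smul, Pi.smul_apply, smul_eq_mul]
      exact Finset.sum_congr rfl fun l _ => mul_comm _ _
    let T : τ → MvPolynomial τ ℂ := fun j => C (p j) + lin L.symm.toLinearMap j
    let S : τ → MvPolynomial τ ℂ := fun j =>
      bind₁ (fun l => X l - C (p l)) (lin L.toLinearMap j)
    have hT : ∀ z, (fun j => eval z (T j)) = p + L.symm z := fun z => by
      funext j
      simp [T, hlin]
    refine ⟨T, S, U, eval p g, MvPolynomial.funext fun z => ?_,
      fun j => MvPolynomial.funext fun z => ?_, fun hUuniv v hv => ?_⟩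
    · rw [hev, hT, hloc, ← hBz, hsum]
      simp [add_comm]
    · rw [hev, hT, hev, hlin]
      simp
    · have hinv : ∀ z, B (z + v) = B z := by
        intro z
        have h1 := congrArg (eval fun o : Option τ => o.elim 1 (p + z)) hv
        rw [hev, eval_rename] at h1
        have e1 : (fun j => eval (fun o : Option τ => o.elim 1 (p + z)) (shiftVars v j))
            = p + (z + v) := by
          funext j
          simp [shiftVars, add_assoc]
        rw [e1, show (fun o : Option τ => o.elim 1 (p + z)) ∘ some = p + z from rfl, hloc, hloc,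
          ← hBz, ← hBz] at h1
        exact add_left_cancel h1
      refine L.map_eq_zero_iff.1 (funext fun k => ?_)
      have h0 := hinv 0
      have h1 := hinv (L.symm (Pi.single k 1))
      rw [hsum, hsum, hUuniv] at h0 h1
      simp only [map_add, LinearEquiv.apply_symm_apply, Pi.add_apply, map_zero, Pi.zero_apply,
        zero_add, zero_pow two_ne_zero, Finset.sum_const_zero, add_sq, Finset.sum_add_distrib]
        at h0 h1
      rw [h0, add_zero, add_eq_left, Finset.sum_eq_single k (fun j _ hj => by simp [hj])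
        (by simp)] at h1
      simpa using h1
  · refine Or.inl ?_
    have hnr : (-(1 / 2) : ℂ) • c ∉ LinearMap.range M.mulVecLin := by
      rintro ⟨p, hp⟩
      exact hr ⟨p, hp⟩
    obtain ⟨φ, hφc, hφM⟩ := Submodule.exists_dual_map_eq_bot_of_notMem hnr inferInstance
    set v : τ → ℂ := fun j => φ (Pi.single j 1) with hv
    have hφ : ∀ x : τ → ℂ, φ x = x ⬝ᵥ v := fun x => by
      conv_lhs => rw [pi_eq_sum_univ' x, map_sum]
      exact Finset.sum_congr rfl fun j _ => by simp [hv]
    have hMv : M *ᵥ v = 0 := by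
      funext l
      have h3 : φ (M.mulVecLin (Pi.single l 1)) ∈ (LinearMap.range M.mulVecLin).map φ :=
        Submodule.mem_map_of_mem (LinearMap.mem_range_self _ _)
      rw [hφM, Submodule.mem_bot, hφ, mulVecLin_apply, dotProduct_comm, hMs,
        single_one_dotProduct] at h3
      exact h3
    refine ⟨v, c ⬝ᵥ v, ?_, MvPolynomial.funext fun z => ?_⟩
    · intro h0
      exact hφc (by rw [map_smul, hφ, h0, smul_zero])
    · rw [hev, map_add, eval_rename, map_mul, eval_C, eval_X,
        show (fun j => eval z (shiftVars v j)) = z ∘ some + z none • v by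
          funext j
          simp [shiftVars, mul_comm], hg, hg]
      simp only [dotProduct_add, mulVec_add, mulVec_smul, add_dotProduct, smul_dotProduct,
        dotProduct_smul, hMv, smul_zero, dotProduct_zero, smul_eq_mul]
      rw [hMs v, hMv, dotProduct_zero]
      ring

end Vale.Agent.P295
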