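import Mathlib

/-!
P295: spreading out to finite fields.
-/

namespace Vale.Agent.P295

open MvPolynomial

lemma isJacobsonRing_int : IsJacobsonRing ℤ := by
  rw [isJacobsonRing_iff_prime_eq]
  intro I hI
  by_cases h : I = ⊥
  · subst h
    refine le_antisymm (fun x hx => ?_) Ideal.le_jacobson
    rw [Ideal.mem_bot]
    by_contra hx0
    obtain ⟨p, hp, hpp⟩ := Nat.exists_infinite_primes (x.natAbs + 1)
    have hm : (Ideal.span {(p : ℤ)}).IsMaximal :=
      PrincipalIdealRing.isMaximal_of_irreducible (Nat.prime_iff_prime_int.1 hpp).irreducible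
    have : x ∈ Ideal.span {(p : ℤ)} := Ideal.mem_sInf.1 hx ⟨bot_le, hm⟩
    rw [Ideal.mem_span_singleton, Int.natCast_dvd] at this
    have := Nat.le_of_dvd (Int.natAbs_pos.2 hx0) this
    omega
  · exact Ideal.jacobson_eq_self_of_isMaximal (H := hI.isMaximal h)

lemma finite_of_fg_int_field (F : Type*) [Field F] {A : Type*} [CommRing A]
    [hA : Algebra.FiniteType ℤ A] (f : A →+* F) (hf : Function.Surjective f) : Finite F := by
  have : Algebra.FiniteType ℤ F := hA.of_surjective f.toIntAlgHom hf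
  have := isJacobsonRing_int
  have hfin : Module.Finite ℤ F := finite_of_finite_type_of_isJacobsonRing ℤ F
  obtain ⟨p, hp⟩ := CharP.exists F
  rcases CharP.char_is_prime_or_zero F p with hpr | h0
  · have : Fact p.Prime := ⟨hpr⟩
    let : Algebra (ZMod p) F := ZMod.algebra F p
    have : Module.Finite (ZMod p) F := Module.Finite.of_restrictScalars_finite ℤ (ZMod p) F
    exact Module.finite_of_finite (ZMod p)
  · subst h0
    have : CharZero F := CharP.charP_to_charZero F
    have hinj : Function.Injective (algebraMap ℤ F) := (algebraMap ℤ F).injective_int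
    exact absurd (isField_of_isIntegral_of_isField hinj (Field.toIsField F)) Int.not_isField

/-- The ring generated by finitely many complex numbers and `1 / N!` has a finite residue field
of characteristic larger than `N`. -/
lemma exists_residue_field (s : Finset ℂ) (N : ℕ) :
    ∃ A : Subalgebra ℤ ℂ, ↑s ⊆ (A : Set ℂ) ∧ ∃ m : Ideal A, m.IsMaximal ∧
      Finite (A ⧸ m) ∧ ∀ p : ℕ, 0 < p → p ≤ N → (p : A ⧸ m) ≠ 0 := by
  classical
  set c : ℂ := ((N.factorial : ℕ) : ℂ)⁻¹ with hc
  let A := Algebra.adjoin ℤ ((insert c s : Finset ℂ) : Set ℂ)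
  have hft : Algebra.FiniteType ℤ A :=
    (Subalgebra.fg_iff_finiteType A).1 ⟨insert c s, rfl⟩
  have hcA : c ∈ A := Algebra.subset_adjoin (by simp)
  refine ⟨A, fun x hx => Algebra.subset_adjoin (by simp [hx]), ?_⟩
  obtain ⟨m, hm⟩ := Ideal.exists_maximal A
  refine ⟨m, hm, ?_, ?_⟩
  · exact @finite_of_fg_int_field (A ⧸ m) (Ideal.Quotient.field m) A _ hft (Ideal.Quotient.mk m)
      Ideal.Quotient.mk_surjective
  · intro p hp hpN h0
    obtain ⟨d, hd⟩ := Nat.dvd_factorial hp hpN
    have h1 : ((N.factorial : ℕ) : A) * ⟨c, hcA⟩ = 1 := Subtype.ext (by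
      push_cast
      exact mul_inv_cancel₀ (Nat.cast_ne_zero.2 (Nat.factorial_ne_zero N)))
    have h2 := congrArg (Ideal.Quotient.mk m) h1
    rw [map_mul, map_natCast, map_one, hd, Nat.cast_mul, h0, zero_mul, zero_mul] at h2
    have := Ideal.Quotient.nontrivial_iff.2 hm.ne_top
    exact zero_ne_one h2

/-- A polynomial with coefficients in a subalgebra comes from that subalgebra. -/
lemma exists_lift {σ : Type*} (A : Subalgebra ℤ ℂ) (g : MvPolynomial σ ℂ)
    (h : ∀ d ∈ g.support, g.coeff d ∈ A) :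
    ∃ gA : MvPolynomial σ A, map A.val.toRingHom gA = g := by
  refine ⟨∑ d ∈ g.support.attach, monomial d.1 ⟨g.coeff d.1, h d.1 d.2⟩, ?_⟩
  rw [map_sum]
  simp only [map_monomial]
  conv_rhs => rw [g.as_sum, ← Finset.sum_attach]
  rfl

lemma val_injective (A : Subalgebra ℤ ℂ) (σ : Type*) :
    Function.Injective (map (σ := σ) A.val.toRingHom) :=
  map_injective _ Subtype.val_injective

/-- Evaluation of a substituted polynomial. -/
lemma ev_bind₁ {σ τ R S : Type*} [CommRing R] [CommRing S] (φ : R →+* S) (p : τ → S)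
    (T : σ → MvPolynomial τ R) (g : MvPolynomial σ R) :
    eval₂ φ p (bind₁ T g) = eval₂ φ (fun j => eval₂ φ p (T j)) g := by
  exact eval₂Hom_bind₁ φ p T g

/-- The character sums of a coordinate vanish over finite fields. -/
lemma char_sum_coordinate {σ : Type*} [Fintype σ] [DecidableEq σ] {R : Type*} [CommRing R]
    {F : Type*} [Field F] [Fintype F] (φ : R →+* F) (ψ : AddChar F ℂ) (hψ : ψ.IsPrimitive)
    (g : MvPolynomial σ R) (T S : σ → MvPolynomial σ R) (k : σ)
    (hg : bind₁ T g = X k) (hS : ∀ j, bind₁ T (S j) = X j) {t : F} (ht : t ≠ 0) :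
    ∑ q : σ → F, ψ (t * eval₂ φ q g) = 0 := by
  let Φ : (σ → F) → (σ → F) := fun p j => eval₂ φ p (T j)
  have hinj : Function.Injective Φ := by
    intro p p' h
    funext j
    have e := fun p : σ → F => congrArg (eval₂ φ p) (hS j)
    simp only [ev_bind₁, eval₂_X] at e
    rw [← e p, ← e p']
    exact congrArg (fun q => eval₂ φ q (S j)) h
  rw [← (Finite.injective_iff_bijective.1 hinj).sum_comp (fun q => ψ (t * eval₂ φ q g))]
  have e : ∀ p : σ → F, ψ (t * eval₂ φ (Φ p) g)
      = ∏ j, (if j = k then ψ (t * p j) else 1) := by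
    intro p
    rw [← ev_bind₁, hg, eval₂_X]
    simp
  simp_rw [e]
  rw [← Fintype.prod_sum (fun j (x : F) => if j = k then ψ (t * x) else 1)]
  refine Finset.prod_eq_zero (Finset.mem_univ k) ?_
  classical
  simp only [if_pos]
  simp_rw [mul_comm t]
  rw [AddChar.sum_mulShift t hψ, if_neg ht]
  simp

/-- Forgetting variables that do not occur. -/
lemma sum_rename_inl {σ τ R F : Type*} [Fintype σ] [Fintype τ] [DecidableEq σ] [DecidableEq τ]
    [CommRing R] [Field F] [Fintype F]
    (φ : R →+* F) (ψ : AddChar F ℂ) (g : MvPolynomial σ R) (t : F)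
    (h : ∑ q : σ ⊕ τ → F, ψ (t * eval₂ φ q (rename Sum.inl g)) = 0) :
    ∑ p : σ → F, ψ (t * eval₂ φ p g) = 0 := by
  rw [← (Equiv.sumArrowEquivProdArrow σ τ F).symm.sum_comp, Fintype.sum_prod_type] at h
  simp only [eval₂_rename] at h
  have e : ∀ (p : σ → F) (p' : τ → F),
      ((Equiv.sumArrowEquivProdArrow σ τ F).symm (p, p')) ∘ Sum.inl = p := fun p p' => rfl
  simp only [e, Finset.sum_const, Finset.card_univ, nsmul_eq_mul, ← Finset.mul_sum] at h
  exact (mul_eq_zero.1 h).resolve_left (Nat.cast_ne_zero.2 Fintype.card_ne_zero)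

end Vale.Agent.P295
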