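import Vale.Agent.P295.CharSum
import Vale.Agent.P295.Spread
import Vale.Agent.P295.Normal

/-!
P295: if `a(x) y + B(x, z)` is a stable coordinate, `B` of degree at most two in `z`, then at
every root `r` of `a` the quadratic `B(r, z)` is translation invariant up to a nonzero constant.
-/

namespace Vale.Agent.P295

open MvPolynomial

variable {τ : Type}

/-- `a(x) y + B(x, z)`. -/
noncomputable def shape {R : Type*} [CommRing R] (a : Polynomial R)
    (B : MvPolynomial τ (Polynomial R)) : MvPolynomial (Option (Option τ)) R :=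
  Polynomial.eval₂ C (X none) a * X (some none)
    + eval₂ (Polynomial.eval₂RingHom C (X none)) (fun l => X (some (some l))) B

lemma map_shape {R S : Type*} [CommRing R] [CommRing S] (φ : R →+* S) (a : Polynomial R)
    (B : MvPolynomial τ (Polynomial R)) :
    map φ (shape a B) = shape (a.map φ) (map (Polynomial.mapRingHom φ) B) := by
  have hp : ∀ p : Polynomial R,
      map φ (Polynomial.eval₂ C (X none : MvPolynomial (Option (Option τ)) R) p)
        = Polynomial.eval₂ C (X none) (p.map φ) := by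
    intro p
    induction p using Polynomial.induction_on' with
    | add p q hp hq => simp [Polynomial.eval₂_add, hp, hq]
    | monomial k c => simp [Polynomial.eval₂_monomial]
  rw [shape, shape, map_add, map_mul, map_X, hp]
  congr 1
  induction B using MvPolynomial.induction_on with
  | C c => simp [hp]
  | add p q hp hq => simp [hp, hq]
  | mul_X p l hp => simp [hp]

lemma eval₂_shape {R S : Type*} [CommRing R] [CommRing S] (φ : R →+* S) (a : Polynomial R)
    (B : MvPolynomial τ (Polynomial R)) (p : Option (Option τ) → S) :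
    eval₂ φ p (shape a B) = a.eval₂ φ (p none) * p (some none)
      + eval₂ (Polynomial.eval₂RingHom φ (p none)) (fun l => p (some (some l))) B := by
  have hp : ∀ q : Polynomial R, eval₂ φ p (Polynomial.eval₂ C (X none) q)
      = q.eval₂ φ (p none) := by
    intro q
    induction q using Polynomial.induction_on' with
    | add q q' hq hq' => simp [Polynomial.eval₂_add, hq, hq']
    | monomial k c => simp [Polynomial.eval₂_monomial]
  rw [shape, eval₂_add, eval₂_mul, eval₂_X, hp]
  congr 1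
  induction B using MvPolynomial.induction_on with
  | C c => simp [hp]
  | add q q' hq hq' => simp [hq, hq']
  | mul_X q l hq => simp [hq]

lemma exists_poly_lift (A : Subalgebra ℤ ℂ) (g : Polynomial ℂ) (h : ∀ k, g.coeff k ∈ A) :
    ∃ gA : Polynomial A, gA.map A.val.toRingHom = g := by
  refine ⟨∑ k ∈ Finset.range (g.natDegree + 1), Polynomial.monomial k ⟨g.coeff k, h k⟩, ?_⟩
  rw [Polynomial.map_sum]
  conv_rhs => rw [g.as_sum_range]
  refine Finset.sum_congr rfl fun k _ => ?_
  rw [Polynomial.map_monomial]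
  rfl

lemma exists_lift₂ (A : Subalgebra ℤ ℂ) (B : MvPolynomial τ (Polynomial ℂ))
    (h : ∀ d k, (B.coeff d).coeff k ∈ A) :
    ∃ BA : MvPolynomial τ (Polynomial A),
      map (Polynomial.mapRingHom A.val.toRingHom) BA = B := by
  choose L hL using fun d => exists_poly_lift A (B.coeff d) (h d)
  refine ⟨∑ d ∈ B.support, monomial d (L d), ?_⟩
  rw [map_sum]
  conv_rhs => rw [B.as_sum]
  refine Finset.sum_congr rfl fun d _ => ?_
  rw [map_monomial, Polynomial.coe_mapRingHom, hL]

variable [Fintype τ]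

lemma sum_option (F : Type*) [Fintype F] [DecidableEq τ] (h : (Option (Option τ) → F) → ℂ) :
    ∑ p, h p = ∑ x : F, ∑ y : F, ∑ z : τ → F,
      h (fun o => o.elim x fun o' => o'.elim y z) := by
  let e : F × F × (τ → F) ≃ (Option (Option τ) → F) :=
    { toFun := fun w o => o.elim w.1 fun o' => o'.elim w.2.1 w.2.2
      invFun := fun p => (p none, p (some none), fun l => p (some (some l)))
      left_inv := fun w => rfl
      right_inv := fun p => by funext o; rcases o with _ | _ | l <;> rfl }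
  rw [← e.sum_comp, Fintype.sum_prod_type]
  refine Finset.sum_congr rfl fun x _ => ?_
  rw [Fintype.sum_prod_type]
  rfl

section FiniteSums

variable {R F : Type*} [CommRing R] [Field F] [Fintype F] [DecidableEq F] [DecidableEq τ]
  (φ : R →+* F) (ψ : AddChar F ℂ)

omit [DecidableEq F] in
/-- A translation invariant polynomial has vanishing character sums. -/
lemma sum_shift_eq_zero (hψ : ψ.IsPrimitive) {t : F} (ht : t ≠ 0) (b : MvPolynomial τ R)
    (v : τ → R) (α : R) (hα : φ α ≠ 0)
    (hid : bind₁ (fun l => X (some l) + C (v l) * X none) b = rename some b + C α * X none) :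
    ∑ z : τ → F, ψ (t * eval₂ φ z b) = 0 := by
  obtain ⟨s0, hs0⟩ := AddChar.ne_one_iff.1 (show ψ ≠ 1 by
    simpa [AddChar.mulShift_one] using hψ (one_ne_zero (α := F)))
  set s := s0 / (t * φ α) with hs
  have hshift : ∀ z : τ → F, ψ (t * eval₂ φ (fun l => z l + φ (v l) * s) b)
      = ψ s0 * ψ (t * eval₂ φ z b) := by
    intro z
    have h1 := congrArg (eval₂ φ (fun o => o.elim s z)) hid
    rw [ev_bind₁, eval₂_add, eval₂_rename, eval₂_mul, eval₂_C, eval₂_X] at h1
    simp only [eval₂_add, eval₂_mul, eval₂_C, eval₂_X, Option.elim, Function.comp_def] at h1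
    rw [h1, mul_add, AddChar.map_add_eq_mul, mul_comm]
    congr 2
    rw [hs]
    field_simp
  have h3 := Equiv.sum_comp (Equiv.addRight (fun l => φ (v l) * s) : (τ → F) ≃ (τ → F))
    (fun z => ψ (t * eval₂ φ z b))
  simp only [Equiv.coe_addRight, Pi.add_def, hshift, ← Finset.mul_sum] at h3
  exact (mul_left_eq_self₀.1 h3).resolve_left hs0

omit [DecidableEq F] in
/-- Transport to a sum of squares. -/
lemma sum_normal (t : F) (b : MvPolynomial τ R) (T S : τ → MvPolynomial τ R) (U : Finset τ)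
    (c : R) (h1 : bind₁ T b = ∑ j ∈ U, X j ^ 2 + C c) (h2 : ∀ j, bind₁ T (S j) = X j) :
    ∑ z : τ → F, ψ (t * eval₂ φ z b)
      = ∑ z : τ → F, ψ (t * (∑ j ∈ U, z j ^ 2 + φ c)) := by
  let Φ : (τ → F) → (τ → F) := fun z j => eval₂ φ z (T j)
  have hinj : Function.Injective Φ := fun z z' h => funext fun j => by
    have h3 := fun z : τ → F => congrArg (eval₂ φ z) (h2 j)
    simp only [ev_bind₁, eval₂_X] at h3
    rw [← h3 z, ← h3 z']
    exact congrArg (fun w => eval₂ φ w (S j)) h
  rw [← (Finite.injective_iff_bijective.1 hinj).sum_comp]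
  refine Finset.sum_congr rfl fun z _ => ?_
  congr 2
  rw [← ev_bind₁, h1]
  simp [eval₂_sum]

/-- Summing over the variable occurring linearly. -/
lemma sum_over_roots (hψ : ψ.IsPrimitive) {t : F} (ht : t ≠ 0) (a : Polynomial R)
    (B : MvPolynomial τ (Polynomial R)) (roots : Finset F)
    (hroot : ∀ x, a.eval₂ φ x = 0 ↔ x ∈ roots)
    (h : ∑ p, ψ (t * eval₂ φ p (shape a B)) = 0) :
    ∑ x ∈ roots, ∑ z : τ → F, ψ (t * eval₂ (Polynomial.eval₂RingHom φ x) z B) = 0 := by
  rw [sum_option] at h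
  simp only [eval₂_shape, Option.elim] at h
  have hx : ∀ x : F, ∑ y : F, ∑ z : τ → F,
      ψ (t * (a.eval₂ φ x * y + eval₂ (Polynomial.eval₂RingHom φ x) z B))
      = (if x ∈ roots then (Fintype.card F : ℂ) else 0)
        * ∑ z : τ → F, ψ (t * eval₂ (Polynomial.eval₂RingHom φ x) z B) := by
    intro x
    simp_rw [mul_add, AddChar.map_add_eq_mul, ← Finset.mul_sum, ← Finset.sum_mul]
    congr 1
    have e1 : ∀ y, t * (a.eval₂ φ x * y) = y * (t * a.eval₂ φ x) := fun y => by ring
    simp_rw [e1]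
    rw [AddChar.sum_mulShift _ hψ]
    simp [ht, hroot]
  rw [Finset.sum_congr rfl fun x _ => hx x] at h
  simp only [ite_mul, zero_mul, Finset.sum_ite_mem, Finset.univ_inter, ← Finset.mul_sum] at h
  exact (mul_eq_zero.1 h).resolve_left (Nat.cast_ne_zero.2 Fintype.card_ne_zero)

omit [Fintype F] [DecidableEq F] [DecidableEq τ] [Fintype τ] in
/-- Evaluation at a point coming from the ring. -/
lemma eval₂_at_root (r : R) (z : τ → F) (B : MvPolynomial τ (Polynomial R)) :
    eval₂ (Polynomial.eval₂RingHom φ (φ r)) z B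
      = eval₂ φ z (map (Polynomial.evalRingHom r) B) := by
  rw [eval₂_map]
  congr 1
  exact RingHom.ext fun p => Polynomial.eval₂_at_apply φ r

end FiniteSums

/-- Translation data over a ring. -/
def ShiftData {R : Type*} [CommRing R] (b : MvPolynomial τ R) : Prop :=
  ∃ (v : τ → R) (α : R), IsUnit α ∧
    bind₁ (fun l => X (some l) + C (v l) * X none) b = rename some b + C α * X none

/-- Sum-of-squares data over a ring. -/
def SquaresData {R : Type*} [CommRing R] (b : MvPolynomial τ R) : Prop :=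
  ∃ (T S : τ → MvPolynomial τ R) (U : Finset τ) (c : R),
    bind₁ T b = ∑ j ∈ U, X j ^ 2 + C c ∧ ∀ j, bind₁ T (S j) = X j

/-- The contradiction over a finite field. -/
lemma no_squares_root [DecidableEq τ] {R F κ : Type*} [CommRing R] [Field F] [Fintype F]
    [DecidableEq F] [DecidableEq κ] (φ : R →+* F) (ψ : AddChar F ℂ) (hψ : ψ.IsPrimitive)
    (h2 : (2 : F) ≠ 0)
    (a : Polynomial R) (B : MvPolynomial τ (Polynomial R)) (I : Finset κ) (ρ : κ → R)
    (hroot : ∀ x, a.eval₂ φ x = 0 ↔ x ∈ I.image (φ ∘ ρ))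
    (hsum : ∀ t : F, t ≠ 0 → ∑ p, ψ (t * eval₂ φ p (shape a B)) = 0)
    (hq : (5 * I.card) ^ 2 ≤ Fintype.card F)
    (hdich : ∀ i ∈ I, ShiftData (map (Polynomial.evalRingHom (ρ i)) B) ∨
      SquaresData (map (Polynomial.evalRingHom (ρ i)) B))
    {i0 : κ} (hi0 : i0 ∈ I) (h0 : SquaresData (map (Polynomial.evalRingHom (ρ i0)) B)) :
    False := by
  classical
  let Z : F → F → ℂ := fun t x =>
    ∑ z : τ → F, ψ (t * eval₂ (Polynomial.eval₂RingHom φ x) z B)
  have hgood : ∀ i, ShiftData (map (Polynomial.evalRingHom (ρ i)) B) →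
      ∀ t : F, t ≠ 0 → Z t (φ (ρ i)) = 0 := by
    rintro i ⟨v, α, hα, hid⟩ t ht
    simp only [Z, eval₂_at_root]
    exact sum_shift_eq_zero φ ψ hψ ht _ v α (hα.map φ).ne_zero hid
  have hbadx : ∀ i, SquaresData (map (Polynomial.evalRingHom (ρ i)) B) →
      ∃ (U : Finset τ) (c : F), ∀ t : F,
        Z t (φ (ρ i)) = ∑ z : τ → F, ψ (t * (∑ j ∈ U, z j ^ 2 + c)) := by
    rintro i ⟨T, S, U, c, hT, hS⟩
    refine ⟨U, φ c, fun t => ?_⟩
    simp only [Z, eval₂_at_root]
    exact sum_normal φ ψ t _ T S U c hT hS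
  by_cases hgx : ∃ i, ShiftData (map (Polynomial.evalRingHom (ρ i)) B) ∧ φ (ρ i) = φ (ρ i0)
  · obtain ⟨i, hi, hii⟩ := hgx
    obtain ⟨U, c, hU⟩ := hbadx i0 h0
    refine false_of_sum_squares_char_sum_zero ψ hψ h2 ({i0} : Finset κ) (by simp)
      (fun _ => U) (fun _ => c) ?_ fun t ht => ?_
    · have : 1 ≤ I.card := Finset.card_pos.2 ⟨i0, hi0⟩
      exact le_trans (by rw [Finset.card_singleton]; gcongr) hq
    · rw [Finset.sum_singleton, ← hU, ← hii]
      exact hgood i hi t ht
  set crit := (I.image (φ ∘ ρ)).filter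
    (fun x => ¬ ∃ i, ShiftData (map (Polynomial.evalRingHom (ρ i)) B) ∧ φ (ρ i) = x) with hcrit
  have hx0 : φ (ρ i0) ∈ crit :=
    Finset.mem_filter.2 ⟨Finset.mem_image_of_mem _ hi0, hgx⟩
  have hn : ∀ x : {x // x ∈ crit}, ∃ (U : Finset τ) (c : F), ∀ t : F,
      Z t x.1 = ∑ z : τ → F, ψ (t * (∑ j ∈ U, z j ^ 2 + c)) := by
    intro x
    obtain ⟨hx, hne⟩ := Finset.mem_filter.1 x.2
    obtain ⟨i, hi, hix⟩ := Finset.mem_image.1 hx
    rw [← hix]
    exact hbadx i ((hdich i hi).resolve_left fun h => hne ⟨i, h, hix⟩)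
  choose U c hU using hn
  refine false_of_sum_squares_char_sum_zero ψ hψ h2 crit.attach
    (by simpa using ⟨_, hx0⟩) U c ?_ fun t ht => ?_
  · refine le_trans ?_ hq
    gcongr
    rw [Finset.card_attach]
    exact le_trans (Finset.card_filter_le _ _) Finset.card_image_le
  · rw [← Finset.sum_congr rfl fun x _ => hU x t, Finset.sum_attach crit (fun x => Z t x),
      ← sum_over_roots φ ψ hψ ht a B _ hroot (hsum t ht)]
    refine Finset.sum_subset (Finset.filter_subset _ _) fun x hx hxc => ?_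
    obtain ⟨i, hi, hix⟩ : ∃ i, ShiftData (map (Polynomial.evalRingHom (ρ i)) B) ∧ φ (ρ i) = x := by
      by_contra hne
      exact hxc (Finset.mem_filter.2 ⟨hx, hne⟩)
    rw [← hix]
    exact hgood i hi t ht

section Lifting

variable (A : Subalgebra ℤ ℂ)

omit [Fintype τ] in
lemma exists_lift_of_coeffs {σ : Type} (g : MvPolynomial σ ℂ) (h : ∀ x ∈ g.coeffs, x ∈ A) :
    ∃ gA : MvPolynomial σ A, map A.val.toRingHom gA = g :=
  exists_lift A g fun d hd => h _ (coeff_mem_coeffs d (mem_support_iff.1 hd))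

omit [Fintype τ] in
lemma map_evalRingHom_lift (BA : MvPolynomial τ (Polynomial A)) (r : A) :
    map A.val.toRingHom (map (Polynomial.evalRingHom r) BA)
      = map (Polynomial.evalRingHom (r : ℂ))
          (map (Polynomial.mapRingHom A.val.toRingHom) BA) := by
  rw [map_map, map_map]
  have : A.val.toRingHom.comp (Polynomial.evalRingHom r)
      = (Polynomial.evalRingHom (r : ℂ)).comp (Polynomial.mapRingHom A.val.toRingHom) :=
    RingHom.ext fun p => (Polynomial.eval_map_apply A.val.toRingHom r).symm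
  rw [this]

omit [Fintype τ] in
lemma shiftData_lift (b : MvPolynomial τ A) (v : τ → ℂ) (α : ℂ) (hα : α ≠ 0)
    (hv : ∀ j, v j ∈ A) (ha : α ∈ A) (hai : α⁻¹ ∈ A)
    (h : bind₁ (shiftVars v) (map A.val.toRingHom b)
      = rename some (map A.val.toRingHom b) + C α * X none) : ShiftData b := by
  refine ⟨fun j => ⟨v j, hv j⟩, ⟨α, ha⟩,
    IsUnit.of_mul_eq_one _ (show (⟨α, ha⟩ : A) * ⟨α⁻¹, hai⟩ = 1 from
      Subtype.ext (mul_inv_cancel₀ hα)), ?_⟩
  apply val_injective A
  rw [map_bind₁, map_add, map_rename, map_mul, map_C, map_X]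
  simp only [map_add, map_mul, map_C, map_X]
  exact h

omit [Fintype τ] in
lemma squaresData_lift (b : MvPolynomial τ A) (T S : τ → MvPolynomial τ ℂ) (U : Finset τ) (c : ℂ)
    (hT : ∀ j, ∀ x ∈ (T j).coeffs, x ∈ A) (hS : ∀ j, ∀ x ∈ (S j).coeffs, x ∈ A) (hc : c ∈ A)
    (h : bind₁ T (map A.val.toRingHom b) = ∑ j ∈ U, X j ^ 2 + C c)
    (h' : ∀ j, bind₁ T (S j) = X j) : SquaresData b := by
  choose TA hTA using fun j => exists_lift_of_coeffs A (T j) (hT j)
  choose SA hSA using fun j => exists_lift_of_coeffs A (S j) (hS j)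
  refine ⟨TA, SA, U, ⟨c, hc⟩, ?_, fun j => ?_⟩
  · apply val_injective A
    rw [map_bind₁, funext hTA, h]
    simp
  · apply val_injective A
    rw [map_bind₁, funext hTA, hSA, h', map_X]

omit [Fintype τ] in
lemma factor_lift {a : Polynomial ℂ} (lc : A) (hlc : (lc : ℂ) = a.leadingCoeff)
    (ρ : {r // r ∈ a.roots.toFinset} → A) (hρ : ∀ r, (ρ r : ℂ) = r.1) :
    (Polynomial.C lc * ∏ r ∈ a.roots.toFinset.attach,
      (Polynomial.X - Polynomial.C (ρ r)) ^ a.roots.count r.1).map A.val.toRingHom = a := by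
  simp only [Polynomial.map_mul, Polynomial.map_C, Polynomial.map_prod, Polynomial.map_pow,
    Polynomial.map_sub, Polynomial.map_X]
  show Polynomial.C (lc : ℂ) * ∏ r ∈ a.roots.toFinset.attach,
    (Polynomial.X - Polynomial.C (ρ r : ℂ)) ^ a.roots.count r.1 = a
  simp only [hlc, hρ]
  rw [Finset.prod_attach a.roots.toFinset
      (fun r => (Polynomial.X - Polynomial.C r) ^ a.roots.count r),
    ← Finset.prod_multiset_map_count]
  exact (Polynomial.Splits.eq_prod_roots (IsAlgClosed.splits a)).symm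

lemma char_sum_shape {F : Type*} [Field F] [Fintype F] [DecidableEq τ] {m : ℕ} (φ : A →+* F)
    (ψ : AddChar F ℂ) (hψ : ψ.IsPrimitive) (aA : Polynomial A)
    (BA : MvPolynomial τ (Polynomial A))
    (e : MvPolynomial (Option (Option τ) ⊕ Fin m) ℂ ≃ₐ[ℂ]
      MvPolynomial (Option (Option τ) ⊕ Fin m) ℂ) (k : Option (Option τ) ⊕ Fin m)
    (h1 : ∀ j, ∀ x ∈ (e (X j)).coeffs, x ∈ A) (h2 : ∀ j, ∀ x ∈ (e.symm (X j)).coeffs, x ∈ A)
    (hk : e (rename Sum.inl (shape (aA.map A.val.toRingHom)
      (map (Polynomial.mapRingHom A.val.toRingHom) BA))) = X k)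
    {t : F} (ht : t ≠ 0) : ∑ p, ψ (t * eval₂ φ p (shape aA BA)) = 0 := by
  classical
  choose TA hTA using fun j => exists_lift_of_coeffs A (e (X j)) (h1 j)
  choose SA hSA using fun j => exists_lift_of_coeffs A (e.symm (X j)) (h2 j)
  have he : ∀ g, e g = bind₁ (fun j => e (X j)) g := fun g =>
    DFunLike.congr_fun (aeval_unique e.toAlgHom) g
  have hgA : bind₁ TA (rename Sum.inl (shape aA BA)) = X k := by
    apply val_injective A
    rw [map_bind₁, funext hTA, map_rename, map_shape, map_X, ← he, hk]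
  have hSA' : ∀ j, bind₁ TA (SA j) = X j := fun j => by
    apply val_injective A
    rw [map_bind₁, funext hTA, hSA, map_X, ← he, e.apply_symm_apply]
  exact sum_rename_inl φ ψ _ t (char_sum_coordinate φ ψ hψ _ TA SA k hgA hSA' ht)

end Lifting

theorem root_translation [DecidableEq τ] {a : Polynomial ℂ} (ha : a ≠ 0)
    {B : MvPolynomial τ (Polynomial ℂ)} (hB : B.totalDegree ≤ 2) {m : ℕ}
    (hs : IsCoordinate
      (rename (Sum.inl : Option (Option τ) → Option (Option τ) ⊕ Fin m) (shape a B)))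
    {r0 : ℂ} (hr0 : a.IsRoot r0) :
    ∃ (v : τ → ℂ) (α : ℂ), α ≠ 0 ∧
      bind₁ (shiftVars v) (map (Polynomial.evalRingHom r0) B)
        = rename some (map (Polynomial.evalRingHom r0) B) + C α * X none := by
  classical
  by_contra hbad
  set Br : ℂ → MvPolynomial τ ℂ := fun r => map (Polynomial.evalRingHom r) B with hBr
  let Good : ℂ → Prop := fun r => ∃ (v : τ → ℂ) (α : ℂ), α ≠ 0 ∧
    bind₁ (shiftVars v) (Br r) = rename some (Br r) + C α * X none
  have hBrdeg : ∀ r, (Br r).totalDegree ≤ 2 := fun r =>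
    le_trans (Finset.sup_mono (support_map_subset _ _)) hB
  have hcrit : ∀ r, ¬ Good r → ∃ (T S : τ → MvPolynomial τ ℂ) (U : Finset τ) (c : ℂ),
      bind₁ T (Br r) = ∑ j ∈ U, X j ^ 2 + C c ∧ ∀ j, bind₁ T (S j) = X j := fun r hr =>
    let ⟨T, S, U, c, h1, h2, _⟩ := (quadratic_normal_form (hBrdeg r)).resolve_left hr
    ⟨T, S, U, c, h1, h2⟩
  choose T S U c hT hS using hcrit
  have hgood : ∀ r, Good r → ∃ (v : τ → ℂ) (α : ℂ), α ≠ 0 ∧
    bind₁ (shiftVars v) (Br r) = rename some (Br r) + C α * X none := fun r h => h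
  choose v α hα hv using hgood
  obtain ⟨e, k, hk⟩ := hs
  set R := a.roots.toFinset with hR
  let cf : {r // r ∈ R} → Finset ℂ := fun r =>
    if h : Good r.1 then
      Finset.univ.image (v r.1 h) ∪ {α r.1 h, (α r.1 h)⁻¹}
    else
      insert (c r.1 h) (Finset.univ.biUnion (fun j => (T r.1 h j).coeffs) ∪
        Finset.univ.biUnion (fun j => (S r.1 h j).coeffs))
  let data : Finset ℂ := insert a.leadingCoeff⁻¹ (insert a.leadingCoeff (R ∪
    B.support.biUnion (fun d => (B.coeff d).coeffs) ∪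
    Finset.univ.biUnion (fun j => (e (X j)).coeffs) ∪
    Finset.univ.biUnion (fun j => (e.symm (X j)).coeffs) ∪ R.attach.biUnion cf))
  obtain ⟨A, hA, mI, hmI, hfin, hchar⟩ := exists_residue_field data (2 + (5 * R.card) ^ 2)
  have mem : ∀ x ∈ data, x ∈ A := fun x hx => hA (Finset.mem_coe.2 hx)
  let := Ideal.Quotient.field mI
  let := Fintype.ofFinite (A ⧸ mI)
  have h2 : (2 : A ⧸ mI) ≠ 0 := by
    simpa using hchar 2 two_pos (by omega)
  have hq : (5 * R.card) ^ 2 ≤ Fintype.card (A ⧸ mI) := by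
    have := Nat.cast_card_eq_zero (R := A ⧸ mI)
    by_contra hlt
    exact hchar _ Fintype.card_pos (by omega) this
  obtain ⟨BA, hBA⟩ := exists_lift₂ A B fun d j => by
    by_cases h0 : (B.coeff d).coeff j = 0
    · rw [h0]; exact zero_mem _
    · refine mem _ ?_
      have hd : d ∈ B.support := mem_support_iff.2 fun h => h0 (by simp [h])
      simp only [data, Finset.mem_insert, Finset.mem_union, Finset.mem_biUnion]
      exact Or.inr (Or.inr (Or.inl (Or.inl (Or.inl (Or.inr
        ⟨d, hd, Polynomial.coeff_mem_coeffs h0⟩)))))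
  let ρ : {r // r ∈ R} → A := fun r => ⟨r.1, mem _ (by
    simp only [data, Finset.mem_insert, Finset.mem_union]
    exact Or.inr (Or.inr (Or.inl (Or.inl (Or.inl (Or.inl r.2))))))⟩
  let lc : A := ⟨a.leadingCoeff, mem _ (by simp [data])⟩
  have hlc : IsUnit lc :=
    IsUnit.of_mul_eq_one _ (show lc * ⟨a.leadingCoeff⁻¹, mem _ (by simp [data])⟩ = 1 from
      Subtype.ext (mul_inv_cancel₀ (Polynomial.leadingCoeff_ne_zero.2 ha)))
  let aA : Polynomial A := Polynomial.C lc *
    ∏ r ∈ R.attach, (Polynomial.X - Polynomial.C (ρ r)) ^ a.roots.count r.1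
  have haA : aA.map A.val.toRingHom = a := factor_lift A lc rfl ρ fun r => rfl
  have hin : ∀ r, cf r ⊆ data := fun r x hx => by
    simp only [data, Finset.mem_insert, Finset.mem_union, Finset.mem_biUnion]
    exact Or.inr (Or.inr (Or.inr ⟨r, Finset.mem_attach _ _, hx⟩))
  have hmap : ∀ r, map A.val.toRingHom (map (Polynomial.evalRingHom (ρ r)) BA) = Br r.1 :=
    fun r => by rw [map_evalRingHom_lift, hBA]
  have hsq : ∀ r : {r // r ∈ R}, ¬ Good r.1 →
      SquaresData (map (Polynomial.evalRingHom (ρ r)) BA) := by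
    intro r hg
    have hcf : cf r = _ := dif_neg hg
    refine squaresData_lift A _ (T r.1 hg) (S r.1 hg) (U r.1 hg) (c r.1 hg)
      (fun j x hx => mem _ (hin r ?_)) (fun j x hx => mem _ (hin r ?_)) (mem _ (hin r ?_))
      (by rw [hmap]; exact hT r.1 hg) (hS r.1 hg) <;>
      simp only [hcf, Finset.mem_insert, Finset.mem_union, Finset.mem_biUnion]
    · exact Or.inr (Or.inl ⟨j, Finset.mem_univ _, hx⟩)
    · exact Or.inr (Or.inr ⟨j, Finset.mem_univ _, hx⟩)
    · exact Or.inl trivial
  have hroot : ∀ x : A ⧸ mI, aA.eval₂ (Ideal.Quotient.mk mI) x = 0 ↔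
      x ∈ R.attach.image (Ideal.Quotient.mk mI ∘ ρ) := by
    intro x
    have hlc0 : Ideal.Quotient.mk mI lc ≠ 0 := (hlc.map _).ne_zero
    simp only [aA, Polynomial.eval₂_mul, Polynomial.eval₂_C, Polynomial.eval₂_finsetProd,
      Polynomial.eval₂_pow, Polynomial.eval₂_sub, Polynomial.eval₂_X, mul_eq_zero, hlc0, false_or,
      Finset.prod_eq_zero_iff, pow_eq_zero_iff', sub_eq_zero, Finset.mem_image,
      Function.comp_apply]
    constructor
    · rintro ⟨r, hr, hxr, -⟩
      exact ⟨r, hr, hxr.symm⟩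
    · rintro ⟨r, hr, hxr⟩
      exact ⟨r, hr, hxr.symm, (Multiset.count_pos.2 (Multiset.mem_toFinset.1 r.2)).ne'⟩
  have hdich : ∀ r ∈ R.attach, ShiftData (map (Polynomial.evalRingHom (ρ r)) BA) ∨
      SquaresData (map (Polynomial.evalRingHom (ρ r)) BA) := by
    intro r _
    by_cases hg : Good r.1
    · left
      have hcf : cf r = _ := dif_pos hg
      refine shiftData_lift A _ (v r.1 hg) (α r.1 hg) (hα r.1 hg)
        (fun j => mem _ (hin r ?_)) (mem _ (hin r ?_)) (mem _ (hin r ?_))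
        (by rw [hmap]; exact hv r.1 hg) <;>
        simp [hcf]
    · exact Or.inr (hsq r hg)
  refine no_squares_root (Ideal.Quotient.mk mI)
    (AddChar.FiniteField.primitiveChar_to_Complex (A ⧸ mI))
    (AddChar.FiniteField.primitiveChar_to_Complex_isPrimitive _) h2 aA BA R.attach ρ hroot
    (fun t ht => char_sum_shape A _ _
      (AddChar.FiniteField.primitiveChar_to_Complex_isPrimitive _) aA BA e k
      (fun j x hx => mem _ ?_) (fun j x hx => mem _ ?_) ?_ ht)
    (by simpa using hq) hdich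
    (i0 := ⟨r0, Multiset.mem_toFinset.2 ((Polynomial.mem_roots ha).2 hr0)⟩)
    (Finset.mem_attach _ _) (hsq _ hbad)
  · simp only [data, Finset.mem_insert, Finset.mem_union, Finset.mem_biUnion]
    exact Or.inr (Or.inr (Or.inl (Or.inl (Or.inr ⟨j, Finset.mem_univ _, hx⟩))))
  · simp only [data, Finset.mem_insert, Finset.mem_union, Finset.mem_biUnion]
    exact Or.inr (Or.inr (Or.inl (Or.inr ⟨j, Finset.mem_univ _, hx⟩)))
  · rw [haA, hBA]; exact hk

end Vale.Agent.P295
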