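import Vale.Agent.P295.Invert
import Vale.Agent.P295.Normal
import Vale.Agent.P295.Roots

/-!
P295: if every quadratic `B(r, z)` at a root of `a` is translation invariant up to a nonzero
constant, then `a(x) y + B(x, z)` is a coordinate.
-/

namespace Vale.Agent.P295

open MvPolynomial

variable {τ : Type}

lemma isCoordinate_of_map {σ : Type} {f : MvPolynomial σ ℂ}
    (E : MvPolynomial σ ℂ ≃ₐ[ℂ] MvPolynomial σ ℂ) (h : IsCoordinate (E f)) : IsCoordinate f := by
  obtain ⟨e, i, he⟩ := h
  exact ⟨E.trans e, i, he⟩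

lemma dvd_pow_of_vanish {a p : Polynomial ℂ} (ha : a ≠ 0)
    (hp : ∀ r, a.IsRoot r → p.eval r = 0) : a ∣ p ^ a.roots.card := by
  rw [Polynomial.Splits.eq_prod_roots (IsAlgClosed.splits a)]
  refine (IsUnit.mul_left_dvd (Polynomial.isUnit_C.2
    (isUnit_iff_ne_zero.2 (Polynomial.leadingCoeff_ne_zero.2 ha)))).2 ?_
  rw [← Polynomial.Splits.eq_prod_roots (IsAlgClosed.splits a)]
  have : ∀ s : Multiset ℂ, (∀ r ∈ s, p.eval r = 0) →
      (s.map fun r => Polynomial.X - Polynomial.C r).prod ∣ p ^ s.card := by
    intro s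
    induction s using Multiset.induction_on with
    | empty => simp
    | cons r s ih =>
      intro h
      rw [Multiset.map_cons, Multiset.prod_cons, Multiset.card_cons, pow_succ']
      exact mul_dvd_mul (Polynomial.dvd_iff_isRoot.2 (h r (Multiset.mem_cons_self r s)))
        (ih fun x hx => h x (Multiset.mem_cons_of_mem hx))
  exact this a.roots fun r hr => hp r ((Polynomial.mem_roots ha).1 hr)

lemma isNilpotent_mk_mul {S : Type} [CommRing S] (I : Ideal S) {x : S} (y : S)
    (hx : IsNilpotent (Ideal.Quotient.mk I x)) : IsNilpotent (Ideal.Quotient.mk I (x * y)) := by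
  rw [map_mul]
  exact (Commute.all _ _).isNilpotent_mul_right hx

lemma isUnit_mk_of_sub {S : Type} [CommRing S] (I : Ideal S) {x u : S}
    (hu : IsUnit (Ideal.Quotient.mk I u)) (hx : IsNilpotent (Ideal.Quotient.mk I (x - u))) :
    IsUnit (Ideal.Quotient.mk I x) := by
  rw [show x = u + (x - u) by ring, map_add]
  exact IsNilpotent.isUnit_add_left_of_commute hx hu (Commute.all _ _)

lemma isUnit_mk_of_mul {S : Type} [CommRing S] (I : Ideal S) {x y : S} (h : x * y - 1 ∈ I) :
    IsUnit (Ideal.Quotient.mk I x) := by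
  refine IsUnit.of_mul_eq_one (Ideal.Quotient.mk I y) ?_
  rw [← map_mul, ← map_one (Ideal.Quotient.mk I), Ideal.Quotient.eq]
  exact h

lemma isUnit_mk_C {ρ : Type} {a L : Polynomial ℂ} (h : IsCoprime L a) :
    IsUnit (Ideal.Quotient.mk
      (Ideal.span {(C a : MvPolynomial ρ (Polynomial ℂ))}) (C L)) := by
  obtain ⟨p, q, hpq⟩ := h
  refine isUnit_mk_of_mul _ (y := C p) (Ideal.mem_span_singleton.2 ?_)
  rw [← C_mul, ← C_1, ← C_sub]
  exact map_dvd C ⟨-q, by linear_combination hpq⟩

lemma isNilpotent_mk_of_vanish {ρ : Type} {a : Polynomial ℂ} (ha : a ≠ 0)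
    (g : MvPolynomial ρ (Polynomial ℂ))
    (hg : ∀ r, a.IsRoot r → map (Polynomial.evalRingHom r) g = 0) :
    IsNilpotent (Ideal.Quotient.mk
      (Ideal.span {(C a : MvPolynomial ρ (Polynomial ℂ))}) g) := by
  rw [g.as_sum, map_sum]
  refine isNilpotent_sum
    (R := MvPolynomial ρ (Polynomial ℂ) ⧸ Ideal.span {(C a : MvPolynomial ρ (Polynomial ℂ))})
    fun d _ => ?_
  obtain ⟨t, ht⟩ := dvd_pow_of_vanish ha (p := g.coeff d) fun r hr => by
    have := congrArg (coeff d) (hg r hr)
    rwa [coeff_map, coeff_zero] at this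
  rw [← mul_one (g.coeff d), ← C_mul_monomial]
  refine isNilpotent_mk_mul _ _ ⟨a.roots.card, ?_⟩
  rw [← map_pow, ← C_pow, ht, C_mul, map_mul,
    (Ideal.Quotient.eq_zero_iff_mem (I := Ideal.span {(C a : MvPolynomial ρ (Polynomial ℂ))})).2
      (Ideal.mem_span_singleton_self (C a)), zero_mul]

variable [Fintype τ] [DecidableEq τ]

/-- The straightening change of the `z` variables. -/
noncomputable def straighten (l0 : τ) (ℓ : τ → ℂ) (V : τ → Polynomial ℂ) :
    MvPolynomial τ (Polynomial ℂ) →ₐ[Polynomial ℂ] MvPolynomial τ (Polynomial ℂ) :=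
  aeval fun l => if l = l0 then C (V l) * X l0
      - ∑ k ∈ Finset.univ.erase l0, C (Polynomial.C (ℓ k / ℓ l0)) * X k
    else X l + C (V l) * X l0

/-- Its inverse. -/
noncomputable def unstraighten (l0 : τ) (ℓ : τ → ℂ) (V : τ → Polynomial ℂ) :
    MvPolynomial τ (Polynomial ℂ) →ₐ[Polynomial ℂ] MvPolynomial τ (Polynomial ℂ) :=
  aeval fun l => if l = l0 then ∑ k, C (Polynomial.C (ℓ k)) * X k
    else X l - C (V l) * ∑ k, C (Polynomial.C (ℓ k)) * X k

lemma unstraighten_straighten (l0 : τ) (ℓ : τ → ℂ) (V : τ → Polynomial ℂ) (hl : ℓ l0 ≠ 0)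
    (hV : ∑ k, Polynomial.C (ℓ k) * V k = 1) :
    (straighten l0 ℓ V).comp (unstraighten l0 ℓ V) = AlgHom.id _ _ ∧
    (unstraighten l0 ℓ V).comp (straighten l0 ℓ V) = AlgHom.id _ _ := by
  have hsum : ∀ (w : τ → MvPolynomial τ (Polynomial ℂ)),
      ∑ k, C (Polynomial.C (ℓ k)) * w k = C (Polynomial.C (ℓ l0)) * w l0
        + ∑ k ∈ Finset.univ.erase l0, C (Polynomial.C (ℓ k)) * w k := fun w =>
    (Finset.add_sum_erase _ _ (Finset.mem_univ l0)).symm
  have hdiv : ∀ k, (C (Polynomial.C (ℓ l0)) * C (Polynomial.C (ℓ k / ℓ l0)) :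
      MvPolynomial τ (Polynomial ℂ)) = C (Polynomial.C (ℓ k)) := fun k => by
    rw [← C_mul, ← Polynomial.C_mul, mul_div_cancel₀ _ hl]
  have hV' : ∑ k, C (Polynomial.C (ℓ k)) * (C (V k) : MvPolynomial τ (Polynomial ℂ)) = 1 := by
    simp_rw [← C_mul, ← map_sum, hV, C_1]
  have hT : straighten l0 ℓ V (∑ k, C (Polynomial.C (ℓ k)) * X k) = X l0 := by
    rw [map_sum]
    simp_rw [map_mul, straighten, aeval_C, aeval_X, MvPolynomial.algebraMap_eq]
    rw [hsum, if_pos rfl]
    have e3 : ∀ k ∈ Finset.univ.erase l0, C (Polynomial.C (ℓ k)) *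
        (if k = l0 then C (V k) * X l0
            - ∑ i ∈ Finset.univ.erase l0, C (Polynomial.C (ℓ i / ℓ l0)) * X i
          else X k + C (V k) * X l0)
        = C (Polynomial.C (ℓ k)) * X k
          + C (Polynomial.C (ℓ k)) * C (V k) * (X l0 : MvPolynomial τ (Polynomial ℂ)) :=
      fun k hk => by rw [if_neg (Finset.ne_of_mem_erase hk)]; ring
    rw [Finset.sum_congr rfl e3, mul_sub, Finset.mul_sum]
    simp_rw [Finset.sum_add_distrib, ← mul_assoc, hdiv, ← Finset.sum_mul]
    have := hsum (fun k => (C (V k) : MvPolynomial τ (Polynomial ℂ)))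
    rw [hV'] at this
    linear_combination (-(X l0 : MvPolynomial τ (Polynomial ℂ))) * this
  refine ⟨algHom_ext fun l => ?_, algHom_ext fun l => ?_⟩
  · rw [AlgHom.comp_apply, AlgHom.id_apply, unstraighten, aeval_X]
    by_cases h : l = l0
    · rw [if_pos h, hT, h]
    · rw [if_neg h, map_sub, map_mul, hT]
      simp [straighten, h]
  · rw [AlgHom.comp_apply, AlgHom.id_apply, straighten, aeval_X]
    by_cases h : l = l0
    · subst h
      simp only [if_true, map_sub, map_mul, map_sum, unstraighten, aeval_C, aeval_X,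
        MvPolynomial.algebraMap_eq]
      have e : ∀ k ∈ Finset.univ.erase l, C (Polynomial.C (ℓ k / ℓ l)) *
          (if k = l then ∑ i, C (Polynomial.C (ℓ i)) * X i
            else X k - C (V k) * ∑ i, C (Polynomial.C (ℓ i)) * X i)
          = C (Polynomial.C (ℓ l)⁻¹) * (C (Polynomial.C (ℓ k)) * X k
            - C (Polynomial.C (ℓ k)) * C (V k)
              * ∑ i, (C (Polynomial.C (ℓ i)) * X i : MvPolynomial τ (Polynomial ℂ))) := by
        intro k hk
        rw [if_neg (Finset.ne_of_mem_erase hk), div_eq_inv_mul, Polynomial.C_mul, C_mul]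
        ring
      rw [Finset.sum_congr rfl e, ← Finset.mul_sum, Finset.sum_sub_distrib, ← Finset.sum_mul]
      have h1 := hsum (fun k => (C (V k) : MvPolynomial τ (Polynomial ℂ)))
      have h2 := hsum (fun k => (X k : MvPolynomial τ (Polynomial ℂ)))
      have hinv : (C (Polynomial.C (ℓ l)⁻¹) * C (Polynomial.C (ℓ l)) :
          MvPolynomial τ (Polynomial ℂ)) = 1 := by
        rw [← C_mul, ← Polynomial.C_mul, inv_mul_cancel₀ hl, Polynomial.C_1, C_1]
      rw [hV'] at h1
      linear_combination (C (Polynomial.C (ℓ l)⁻¹)) * h2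
        - (C (Polynomial.C (ℓ l)⁻¹) * ∑ i, (C (Polynomial.C (ℓ i)) * X i)) * h1
        + (X l - C (V l) * ∑ i, (C (Polynomial.C (ℓ i)) * X i)) * hinv
    · simp only [if_neg h, map_add, map_mul, unstraighten, aeval_C, aeval_X, if_true,
        MvPolynomial.algebraMap_eq]
      ring

/-- The embedding of `MvPolynomial τ ℂ[X]` used by `shape`. -/
noncomputable def emb (τ : Type) :
    MvPolynomial τ (Polynomial ℂ) →+* MvPolynomial (Option (Option τ)) ℂ :=
  eval₂Hom (Polynomial.eval₂RingHom C (X none)) fun l => X (some (some l))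

omit [Fintype τ] [DecidableEq τ] in
lemma shape_eq (a : Polynomial ℂ) (B : MvPolynomial τ (Polynomial ℂ)) :
    shape a B = emb τ (C a) * X (some none) + emb τ B := by
  simp [shape, emb]

/-- Extend a change of `z` variables to all variables. -/
noncomputable def liftAut (θ : MvPolynomial τ (Polynomial ℂ) →ₐ[Polynomial ℂ]
    MvPolynomial τ (Polynomial ℂ)) :
    MvPolynomial (Option (Option τ)) ℂ →ₐ[ℂ] MvPolynomial (Option (Option τ)) ℂ :=
  aeval fun o => match o with
    | none => X none
    | some none => X (some none)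
    | some (some l) => emb τ (θ (X l))

omit [Fintype τ] [DecidableEq τ] in
lemma liftAut_emb (θ : MvPolynomial τ (Polynomial ℂ) →ₐ[Polynomial ℂ]
    MvPolynomial τ (Polynomial ℂ)) (B : MvPolynomial τ (Polynomial ℂ)) :
    liftAut θ (emb τ B) = emb τ (θ B) := by
  induction B using MvPolynomial.induction_on with
  | C c =>
    rw [θ.commutes c |> fun h => (show θ (C c) = C c from h), emb, eval₂Hom_C]
    induction c using Polynomial.induction_on' with
    | add p q hp hq => simp only [map_add, hp, hq]
    | monomial j c => simp [liftAut, Polynomial.eval₂_monomial]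
  | add p q hp hq => simp [hp, hq]
  | mul_X p l hp =>
    rw [map_mul, map_mul, hp, map_mul θ, map_mul]
    simp [liftAut, emb]

omit [Fintype τ] [DecidableEq τ] in
lemma liftAut_shape (θ : MvPolynomial τ (Polynomial ℂ) →ₐ[Polynomial ℂ]
    MvPolynomial τ (Polynomial ℂ)) (a : Polynomial ℂ) (B : MvPolynomial τ (Polynomial ℂ)) :
    liftAut θ (shape a B) = shape a (θ B) := by
  rw [shape_eq, shape_eq, map_add, map_mul, liftAut_emb, liftAut_emb,
    show θ (C a) = C a from θ.commutes a]
  simp [liftAut]

omit [Fintype τ] [DecidableEq τ] in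
lemma liftAut_comp (θ η : MvPolynomial τ (Polynomial ℂ) →ₐ[Polynomial ℂ]
    MvPolynomial τ (Polynomial ℂ)) (h : θ.comp η = AlgHom.id _ _) :
    (liftAut θ).comp (liftAut η) = AlgHom.id _ _ := by
  refine algHom_ext fun o => ?_
  rcases o with _ | _ | l
  · simp [liftAut]
  · simp [liftAut]
  · rw [AlgHom.comp_apply, show liftAut η (X (some (some l))) = emb τ (η (X l)) by simp [liftAut],
      liftAut_emb, ← AlgHom.comp_apply, h]
    simp [emb]

/-- Collect powers of the distinguished variable `l0`. -/
noncomputable def collect (l0 : τ) :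
    MvPolynomial τ (Polynomial ℂ) →+* Polynomial (MvPolynomial {l // l ≠ l0} (Polynomial ℂ)) :=
  eval₂Hom (Polynomial.C.comp C) fun l =>
    if h : l = l0 then Polynomial.X else Polynomial.C (X ⟨l, h⟩)

lemma natDegree_collect_le (l0 : τ) (B : MvPolynomial τ (Polynomial ℂ)) :
    (collect l0 B).natDegree ≤ B.totalDegree := by
  rw [collect, coe_eval₂Hom, eval₂_eq']
  refine Polynomial.natDegree_sum_le_of_forall_le _ _ fun d hd => ?_
  refine (Polynomial.natDegree_C_mul_le _ _).trans ?_
  refine (Polynomial.natDegree_prod_le _ _).trans ?_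
  refine le_trans ?_ (le_totalDegree hd)
  rw [Finsupp.sum_fintype _ _ (fun _ => rfl)]
  refine Finset.sum_le_sum fun l _ => ?_
  refine Polynomial.natDegree_pow_le.trans ?_
  by_cases h : l = l0 <;> simp [h]

/-- Regard all variables as two variables over the ring of the remaining ones. -/
noncomputable def toK (l0 : τ) : MvPolynomial (Option (Option τ)) ℂ →ₐ[ℂ]
    MvPolynomial (Fin 2) (MvPolynomial {l // l ≠ l0} (Polynomial ℂ)) :=
  aeval fun o => match o with
    | none => C (C Polynomial.X)
    | some none => X 0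
    | some (some l) => if h : l = l0 then X 1 else C (X ⟨l, h⟩)

/-- The scalars of `toK`, back. -/
noncomputable def scal (l0 : τ) :
    MvPolynomial {l // l ≠ l0} (Polynomial ℂ) →+* MvPolynomial (Option (Option τ)) ℂ :=
  eval₂Hom (Polynomial.eval₂RingHom C (X none)) fun l => X (some (some l.1))

/-- The inverse of `toK`. -/
noncomputable def fromK (l0 : τ) :
    MvPolynomial (Fin 2) (MvPolynomial {l // l ≠ l0} (Polynomial ℂ)) →+*
      MvPolynomial (Option (Option τ)) ℂ :=
  eval₂Hom (scal l0) ![X (some none), X (some (some l0))]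

omit [Fintype τ] in
lemma toK_base (l0 : τ) (p : Polynomial ℂ) :
    toK l0 (Polynomial.eval₂RingHom C (X none) p) = C (C p) := by
  induction p using Polynomial.induction_on' with
  | add p q hp hq => simp only [map_add, hp, hq]
  | monomial j r =>
    rw [Polynomial.coe_eval₂RingHom, Polynomial.eval₂_monomial,
      ← Polynomial.C_mul_X_pow_eq_monomial, C_mul, C_mul, C_pow, C_pow, map_mul, map_pow]
    simp only [toK, aeval_C, aeval_X]
    rfl

omit [Fintype τ] in
lemma fromK_toK (l0 : τ) (p : MvPolynomial (Option (Option τ)) ℂ) :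
    fromK l0 (toK l0 p) = p := by
  induction p using MvPolynomial.induction_on with
  | C r =>
    rw [show (C r : MvPolynomial (Option (Option τ)) ℂ)
      = Polynomial.eval₂RingHom C (X none) (Polynomial.C r) by simp, toK_base]
    simp [fromK, scal]
  | add p q hp hq => simp only [map_add, hp, hq]
  | mul_X p o hp =>
    have : fromK l0 (toK l0 (X o)) = X o := by
      rcases o with _ | _ | l
      · simp [toK, fromK, scal]
      · simp [toK, fromK]
      · by_cases h : l = l0 <;> simp [toK, fromK, scal, h]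
    rw [map_mul, map_mul, hp, this]

omit [Fintype τ] in
lemma toK_scal (l0 : τ) (k : MvPolynomial {l // l ≠ l0} (Polynomial ℂ)) :
    toK l0 (scal l0 k) = C k := by
  induction k using MvPolynomial.induction_on with
  | C r => rw [scal, eval₂Hom_C, toK_base]
  | add k k' hk hk' => simp only [map_add, hk, hk']
  | mul_X k l hk =>
    have : toK l0 (scal l0 (X l)) = C (X l) := by simp [toK, scal, l.2]
    rw [map_mul, map_mul, hk, this, C_mul]

omit [Fintype τ] in
lemma toK_fromK (l0 : τ) (p : MvPolynomial (Fin 2) (MvPolynomial {l // l ≠ l0} (Polynomial ℂ))) :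
    toK l0 (fromK l0 p) = p := by
  induction p using MvPolynomial.induction_on with
  | C k => rw [fromK, eval₂Hom_C, toK_scal]
  | add p q hp hq => simp only [map_add, hp, hq]
  | mul_X p i hp =>
    have : toK l0 (fromK l0 (X i)) = X i := by fin_cases i <;> simp [toK, fromK]
    rw [map_mul, map_mul, hp, this]

omit [Fintype τ] in
lemma toK_emb (l0 : τ) (B : MvPolynomial τ (Polynomial ℂ)) :
    toK l0 (emb τ B) = Polynomial.eval₂ C (X 1) (collect l0 B) := by
  induction B using MvPolynomial.induction_on with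
  | C r =>
    rw [emb, eval₂Hom_C, toK_base, collect, eval₂Hom_C, RingHom.comp_apply, Polynomial.eval₂_C]
  | add p q hp hq => simp only [map_add, hp, hq, Polynomial.eval₂_add]
  | mul_X p l hp =>
    have : toK l0 (emb τ (X l)) = Polynomial.eval₂ C (X 1) (collect l0 (X l)) := by
      by_cases h : l = l0 <;> simp [toK, emb, collect, h]
    rw [map_mul, map_mul, hp, map_mul, Polynomial.eval₂_mul, this]

lemma exists_coordinate_system (l0 : τ) {a : Polynomial ℂ} (ha : a ≠ 0)
    {B : MvPolynomial τ (Polynomial ℂ)} (hdeg : B.totalDegree ≤ 2)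
    (h1 : IsUnit (Ideal.Quotient.mk (Ideal.span {(C a : MvPolynomial {l // l ≠ l0} (Polynomial ℂ))})
      ((collect l0 B).coeff 1)))
    (h2 : IsNilpotent (Ideal.Quotient.mk
      (Ideal.span {(C a : MvPolynomial {l // l ≠ l0} (Polynomial ℂ))})
      ((collect l0 B).coeff 2))) :
    IsCoordinate (shape a B) := by
  set K := MvPolynomial {l // l ≠ l0} (Polynomial ℂ) with hK
  set c := collect l0 B with hc
  obtain ⟨e, he⟩ := exists_algEquiv_linear
    (K := MvPolynomial {l // l ≠ l0} (Polynomial ℂ)) (a := C a) (c0 := (collect l0 B).coeff 0)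
    (c1 := (collect l0 B).coeff 1) (c2 := (collect l0 B).coeff 2) (by simpa using ha) h1 h2
  let Ξ : MvPolynomial (Option (Option τ)) ℂ ≃ₐ[ℂ]
      MvPolynomial (Fin 2) (MvPolynomial {l // l ≠ l0} (Polynomial ℂ)) :=
    { toK l0 with invFun := fromK l0, left_inv := fromK_toK l0, right_inv := toK_fromK l0 }
  refine ⟨(Ξ.trans (e.restrictScalars ℂ)).trans Ξ.symm, some none, ?_⟩
  show fromK l0 (e (toK l0 (shape a B))) = _
  have hB : toK l0 (emb τ B) = C ((collect l0 B).coeff 0) + C ((collect l0 B).coeff 1) * X 1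
      + C ((collect l0 B).coeff 2) * X 1 ^ 2 := by
    rw [toK_emb, Polynomial.eval₂_eq_sum_range' C (Nat.lt_succ_of_le
      ((natDegree_collect_le l0 B).trans hdeg)) (X 1)]
    simp [Finset.sum_range_succ]
  rw [shape_eq, map_add, map_mul, hB, show toK l0 (emb τ (C a)) = C (C a) by
      rw [emb, eval₂Hom_C, toK_base],
    show toK l0 (X (some none)) = X 0 by simp [toK], he]
  simp [fromK]

/-- The construction. -/
theorem isCoordinate_shape {a : Polynomial ℂ} (ha : a ≠ 0)
    {B : MvPolynomial τ (Polynomial ℂ)} (hdeg : B.totalDegree ≤ 2)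
    (h : ∀ r, a.IsRoot r → ∃ (v : τ → ℂ) (α : ℂ), α ≠ 0 ∧
      bind₁ (shiftVars v) (map (Polynomial.evalRingHom r) B)
        = rename some (map (Polynomial.evalRingHom r) B) + C α * X none) :
    IsCoordinate (shape a B) := by
  classical
  set R := a.roots.toFinset with hR
  by_cases hR0 : R = ∅
  · have hcard : a.natDegree = 0 := by
      rw [(IsAlgClosed.splits a).natDegree_eq_card_roots]
      simpa [hR] using hR0
    obtain ⟨c, rfl⟩ : ∃ c, a = Polynomial.C c := ⟨_, Polynomial.eq_C_of_natDegree_eq_zero hcard⟩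
    refine isCoordinate_of_pderiv_eq_C (i := some none) (a := c) (by simpa using ha) ?_
    have hz : ∀ B' : MvPolynomial τ (Polynomial ℂ),
        pderiv (some none) (emb τ B') = 0 := by
      intro B'
      induction B' using MvPolynomial.induction_on with
      | C p =>
        rw [emb, eval₂Hom_C]
        induction p using Polynomial.induction_on' with
        | add p q hp hq => simp only [map_add, hp, hq, add_zero]
        | monomial j r => simp [Polynomial.eval₂_monomial]
      | add p q hp hq => simp [hp, hq]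
      | mul_X p l hp =>
        rw [map_mul, pderiv_mul, hp]
        simp [emb]
    rw [shape_eq, map_add, hz, add_zero, pderiv_mul, hz]
    simp [emb]
  choose v α hα hv using fun r : {r // r ∈ R} =>
    h r.1 ((Polynomial.mem_roots ha).1 (Multiset.mem_toFinset.1 r.2))
  have hv0 : ∀ r, v r ≠ 0 := by
    intro r h0
    have h3 := hv r
    have hshift : shiftVars (v r) = fun l => X (some l) := by
      funext l
      simp [shiftVars, h0]
    rw [hshift] at h3
    have h4 : bind₁ (fun l => (X (some l) : MvPolynomial (Option τ) ℂ))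
        (map (Polynomial.evalRingHom r.1) B) = rename some (map (Polynomial.evalRingHom r.1) B) :=
      DFunLike.congr_fun (algHom_ext fun l => by simp) _
    rw [h4] at h3
    have : C (α r) * (X none : MvPolynomial (Option τ) ℂ) = 0 := by
      linear_combination -h3
    simp [hα r] at this
  have hprod : (∏ r : {r // r ∈ R}, ∑ l, C (v r l) * X l : MvPolynomial τ ℂ) ≠ 0 := by
    rw [Finset.prod_ne_zero_iff]
    intro r _ h0
    refine hv0 r (funext fun l => ?_)
    have := congrArg (coeff (Finsupp.single l 1)) h0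
    simpa [coeff_sum, coeff_C_mul, coeff_X, Finsupp.single_left_inj, Finset.sum_ite_eq'] using this
  obtain ⟨ℓ, hℓ⟩ : ∃ ℓ : τ → ℂ, ∀ r, ∑ l, ℓ l * v r l ≠ 0 := by
    by_contra hne
    push Not at hne
    refine hprod (MvPolynomial.funext fun z => ?_)
    obtain ⟨r, hr⟩ := hne z
    rw [map_zero, map_prod]
    refine Finset.prod_eq_zero (Finset.mem_univ r) ?_
    rw [← hr, map_sum]
    exact Finset.sum_congr rfl fun l _ => by simp [mul_comm]
  obtain ⟨r1, hr1⟩ := Finset.nonempty_iff_ne_empty.2 hR0
  obtain ⟨l0, hl0⟩ : ∃ l0, ℓ l0 ≠ 0 := by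
    by_contra hne
    push Not at hne
    exact hℓ ⟨r1, hr1⟩ (by simp [hne])
  set s : {r // r ∈ R} → ℂ := fun r => ∑ l, ℓ l * v r l with hs
  let W : τ → Polynomial ℂ := fun l =>
    Lagrange.interpolate R id fun r => if hr : r ∈ R then v ⟨r, hr⟩ l / s ⟨r, hr⟩ else 0
  let dev : Polynomial ℂ := ∑ k, Polynomial.C (ℓ k) * W k - 1
  let V : τ → Polynomial ℂ := fun l => if l = l0 then W l - Polynomial.C (ℓ l0)⁻¹ * dev else W l
  have hV : ∑ k, Polynomial.C (ℓ k) * V k = 1 := by
    have e : ∀ k, Polynomial.C (ℓ k) * V k = Polynomial.C (ℓ k) * W k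
        - if k = l0 then dev else 0 := by
      intro k
      by_cases hk : k = l0
      · subst hk
        simp only [V, ↓reduceIte, mul_sub, ← mul_assoc, ← Polynomial.C_mul,
          mul_inv_cancel₀ hl0, Polynomial.C_1, one_mul]
      · simp [V, hk]
    simp [e, Finset.sum_sub_distrib, dev]
  have hW : ∀ (r : {r // r ∈ R}) l, (W l).eval r.1 = v r l / s r := fun r l => by
    rw [show r.1 = id r.1 from rfl, Lagrange.eval_interpolate_at_node _ Function.injective_id.injOn
      r.2, dif_pos r.2]
  have hdev : ∀ r : {r // r ∈ R}, dev.eval r.1 = 0 := by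
    intro r
    simp only [dev, Polynomial.eval_sub, Polynomial.eval_finsetSum, Polynomial.eval_mul,
      Polynomial.eval_C, hW, Polynomial.eval_one, mul_div_assoc', ← Finset.sum_div]
    rw [show ∑ l, ℓ l * v r l = s r from rfl, div_self (hℓ r), sub_self]
  have hVr : ∀ (r : {r // r ∈ R}) l, (V l).eval r.1 = v r l / s r := by
    intro r l
    by_cases hl : l = l0 <;> simp [V, hl, hdev, hW]
  obtain ⟨hid1, hid2⟩ := unstraighten_straighten l0 ℓ V hl0 hV
  let E : MvPolynomial (Option (Option τ)) ℂ ≃ₐ[ℂ] MvPolynomial (Option (Option τ)) ℂ :=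
    AlgEquiv.ofAlgHom (liftAut (straighten l0 ℓ V)) (liftAut (unstraighten l0 ℓ V))
      (liftAut_comp _ _ hid1) (liftAut_comp _ _ hid2)
  refine isCoordinate_of_map E ?_
  show IsCoordinate (liftAut _ (shape a B))
  rw [liftAut_shape]
  set B' := straighten l0 ℓ V B with hB'
  let u : τ → MvPolynomial {l // l ≠ l0} ℂ := fun l =>
    if h : l = l0 then -∑ k : {k // k ≠ l0}, C (ℓ k.1 / ℓ l0) * X k else X ⟨l, h⟩
  have hspec : ∀ r : {r // r ∈ R},
      (collect l0 B').map (map (Polynomial.evalRingHom r.1))
        = Polynomial.C (aeval u (map (Polynomial.evalRingHom r.1) B))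
          + Polynomial.C (C (α r / s r)) * Polynomial.X := by
    intro r
    let Λ : MvPolynomial (Option τ) ℂ →ₐ[ℂ] Polynomial (MvPolynomial {l // l ≠ l0} ℂ) :=
      aeval fun o => o.elim (Polynomial.C (C (s r)⁻¹) * Polynomial.X) fun l => Polynomial.C (u l)
    have h3 := congrArg Λ (hv r)
    have h4 : ∀ g : MvPolynomial τ ℂ, Λ (rename some g) = Polynomial.C (aeval u g) := by
      intro g
      induction g using MvPolynomial.induction_on with
      | C x => simp [Λ]
      | add p q hp hq => simp [hp, hq]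
      | mul_X p l hp =>
        rw [map_mul, map_mul, hp]
        simp [Λ]
    rw [map_add, map_mul, h4] at h3
    have h5 : (Polynomial.mapRingHom (map (Polynomial.evalRingHom r.1))).comp
        ((collect l0).comp (straighten l0 ℓ V).toRingHom)
        = (Λ.toRingHom.comp (bind₁ (shiftVars (v r))).toRingHom).comp
          (map (Polynomial.evalRingHom r.1)) := by
      refine MvPolynomial.ringHom_ext (fun p => ?_) fun l => ?_
      · simp [straighten, collect, Λ]
      · by_cases hl : l = l0
        · subst hl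
          simp only [RingHom.comp_apply, AlgHom.toRingHom_eq_coe, RingHom.coe_coe, straighten,
            aeval_X, ↓reduceIte, map_X, bind₁_X_right, shiftVars]
          rw [map_sub, map_sum, map_mul]
          have e : ∀ k ∈ Finset.univ.erase l,
              (Polynomial.mapRingHom (map (Polynomial.evalRingHom r.1)))
                (collect l (C (Polynomial.C (ℓ k / ℓ l)) * X k))
              = Polynomial.C (if h : k = l then 0 else C (ℓ k / ℓ l) * X ⟨k, h⟩) := by
            intro k hk
            simp [collect, Finset.ne_of_mem_erase hk]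
          rw [map_sub, map_sum, map_mul, Finset.sum_congr rfl e, ← map_sum]
          have e2 : ∑ k ∈ Finset.univ.erase l,
              (if h : k = l then 0 else C (ℓ k / ℓ l) * X ⟨k, h⟩ :
                MvPolynomial {k // k ≠ l} ℂ)
              = ∑ k : {k // k ≠ l}, C (ℓ k.1 / ℓ l) * X k := by
            rw [Finset.sum_subtype (Finset.univ.erase l) (p := fun k => k ≠ l) (by simp)]
            exact Finset.sum_congr rfl fun k _ => by simp [k.2]
          rw [e2]
          simp [collect, Λ, u, hVr, div_eq_mul_inv]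
          ring
        · simp [straighten, collect, Λ, u, hl, shiftVars, hVr, div_eq_mul_inv]
          ring
    have h6 := DFunLike.congr_fun h5 B
    simp only [RingHom.comp_apply, AlgHom.toRingHom_eq_coe, RingHom.coe_coe,
      Polynomial.coe_mapRingHom] at h6
    rw [hB', h6, h3]
    simp [Λ, div_eq_mul_inv]
    ring
  have hroots : ∀ r, a.IsRoot r → r ∈ R := fun r hr =>
    Multiset.mem_toFinset.2 ((Polynomial.mem_roots ha).2 hr)
  have hdeg' : B'.totalDegree ≤ 2 := by
    refine le_trans ?_ hdeg
    rw [hB', straighten, B.as_sum, map_sum]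
    refine (totalDegree_finsetSum _ _).trans (Finset.sup_le fun d hd => ?_)
    rw [aeval_monomial, ← B.as_sum]
    refine (totalDegree_mul _ _).trans ?_
    rw [MvPolynomial.algebraMap_eq, totalDegree_C, zero_add, Finsupp.prod]
    refine (totalDegree_finsetProd _ _).trans (le_trans ?_ (le_totalDegree hd))
    refine Finset.sum_le_sum fun l _ => ?_
    refine (totalDegree_pow _ _).trans ?_
    refine Nat.le_trans (Nat.mul_le_mul_left _ (?_ : _ ≤ 1)) (by simp)
    by_cases hl : l = l0
    · rw [if_pos hl]
      refine (totalDegree_sub _ _).trans (max_le ?_ ?_)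
      · exact (totalDegree_mul _ _).trans (by simp)
      · exact (totalDegree_finsetSum _ _).trans
          (Finset.sup_le fun k _ => (totalDegree_mul _ _).trans (by simp))
    · rw [if_neg hl]
      exact (totalDegree_add _ _).trans
        (max_le (by simp) ((totalDegree_mul _ _).trans (by simp)))
  refine exists_coordinate_system l0 ha hdeg' ?_ ?_
  · let L : Polynomial ℂ :=
      Lagrange.interpolate R id fun r => if hr : r ∈ R then α ⟨r, hr⟩ / s ⟨r, hr⟩ else 0
    have hL : ∀ r : {r // r ∈ R}, L.eval r.1 = α r / s r := fun r => by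
      rw [show r.1 = id r.1 from rfl, Lagrange.eval_interpolate_at_node _
        Function.injective_id.injOn r.2, dif_pos r.2]
    have hcop : IsCoprime L a := by
      rw [Polynomial.Splits.eq_prod_roots (IsAlgClosed.splits a),
        isCoprime_mul_unit_left_right (Polynomial.isUnit_C.2
          (isUnit_iff_ne_zero.2 (Polynomial.leadingCoeff_ne_zero.2 ha)))]
      have : ∀ m : Multiset ℂ, (∀ x ∈ m, L.eval x ≠ 0) →
          IsCoprime L (m.map fun x => Polynomial.X - Polynomial.C x).prod := by
        intro m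
        induction m using Multiset.induction_on with
        | empty => intro _; simpa using isCoprime_one_right
        | cons x m ih =>
          intro hx
          rw [Multiset.map_cons, Multiset.prod_cons]
          refine IsCoprime.mul_right (IsCoprime.symm ?_)
            (ih fun y hy => hx y (Multiset.mem_cons_of_mem hy))
          exact (Polynomial.irreducible_X_sub_C x).coprime_iff_not_dvd.2 fun hd =>
            hx x (Multiset.mem_cons_self x m) (Polynomial.dvd_iff_isRoot.1 hd)
      refine this _ fun x hx => ?_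
      have hxR : x ∈ R := hroots x ((Polynomial.mem_roots ha).1 hx)
      rw [show x = (⟨x, hxR⟩ : {r // r ∈ R}).1 from rfl, hL]
      exact div_ne_zero (hα _) (hℓ _)
    refine isUnit_mk_of_sub _ (isUnit_mk_C hcop) ?_
    refine isNilpotent_mk_of_vanish ha _ fun r hr => ?_
    have := congrArg (fun p => Polynomial.coeff p 1) (hspec ⟨r, hroots r hr⟩)
    simp only [Polynomial.coeff_map, Polynomial.coeff_add, Polynomial.coeff_C_mul,
      Polynomial.coeff_X_one, Polynomial.coeff_C, one_ne_zero, if_false, zero_add, mul_one] at this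
    rw [map_sub, this, map_C, Polynomial.coe_evalRingHom, hL ⟨r, hroots r hr⟩, sub_self]
  · refine isNilpotent_mk_of_vanish ha _ fun r hr => ?_
    have := congrArg (fun p => Polynomial.coeff p 2) (hspec ⟨r, hroots r hr⟩)
    simpa [Polynomial.coeff_map, Polynomial.coeff_C, Polynomial.coeff_X] using this

end Vale.Agent.P295
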