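import Vale.Agent.P295.Defs
import Vale.Agent.P295.Construct

/-!
P295: a stable coordinate of the form `a(x) y + b(x, z)`, with `b` of degree at most two in `z`,
is a coordinate, in every number of variables.
-/

namespace Vale.Agent.P295

open MvPolynomial

lemma isCoordinate_rename_equiv {σ ρ : Type} (g : σ ≃ ρ) {f : MvPolynomial σ ℂ}
    (h : IsCoordinate f) : IsCoordinate (rename g f) := by
  obtain ⟨e, k, hk⟩ := h
  refine ⟨((renameEquiv ℂ g).symm.trans e).trans (renameEquiv ℂ g), g k, ?_⟩
  rw [AlgEquiv.trans_apply, AlgEquiv.trans_apply, ← renameEquiv_apply ℂ g f,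
    AlgEquiv.symm_apply_apply, hk, renameEquiv_apply, rename_X]

/-- The variables of `Fin n`, with `i` and `j` singled out. -/
def splitEquiv {n : ℕ} {i j : Fin n} (hij : i ≠ j) :
    Option (Option {l : Fin n // l ≠ i ∧ l ≠ j}) ≃ Fin n where
  toFun o := o.elim i fun o' => o'.elim j Subtype.val
  invFun l := if hi : l = i then none else if hj : l = j then some none
    else some (some ⟨l, hi, hj⟩)
  left_inv o := by
    rcases o with _ | _ | ⟨l, hi, hj⟩
    · simp
    · simp [hij.symm]
    · simp [hi, hj]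
  right_inv l := by
    by_cases hi : l = i
    · simp [hi]
    · by_cases hj : l = j <;> simp [hi, hj, hij.symm]

/-- The coefficient of `z` monomials, as polynomials in `x`. -/
noncomputable def splitPoly {n : ℕ} (i j : Fin n) :
    MvPolynomial (Fin n) ℂ →ₐ[ℂ]
      MvPolynomial {l : Fin n // l ≠ i ∧ l ≠ j} (Polynomial ℂ) :=
  aeval fun l => if hi : l = i then C Polynomial.X else if hj : l = j then 0 else X ⟨l, hi, hj⟩

lemma rename_shape_splitPoly {n : ℕ} {i j : Fin n} (hij : i ≠ j) (a : Polynomial ℂ)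
    {b : MvPolynomial (Fin n) ℂ} (hb : ∀ d ∈ b.support, d j = 0) :
    rename (splitEquiv hij) (shape a (splitPoly i j b))
      = Polynomial.aeval (X i : MvPolynomial (Fin n) ℂ) a * X j + b := by
  have hemb : rename (splitEquiv hij) (emb _ (splitPoly i j b)) = b := by
    refine hom_congr_vars
      (f₁ := (rename (splitEquiv hij)).toRingHom.comp ((emb _).comp (splitPoly i j).toRingHom))
      (f₂ := RingHom.id (MvPolynomial (Fin n) ℂ)) (RingHom.ext fun c => ?_)
      (fun l hl _ => ?_) rfl
    · simp [splitPoly, emb, MvPolynomial.algebraMap_apply]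
    · obtain ⟨d, hd, hld⟩ := (mem_vars_iff_mem_support l).1 hl
      have hj : l ≠ j := fun h => (Finsupp.mem_support_iff.1 hld) (h ▸ hb d hd)
      by_cases hi : l = i <;> simp [splitPoly, emb, splitEquiv, hi, hj]
  have ha : ∀ p : Polynomial ℂ,
      rename (splitEquiv hij) (Polynomial.eval₂RingHom C (X none) p)
        = Polynomial.aeval (X i : MvPolynomial (Fin n) ℂ) p := by
    intro p
    induction p using Polynomial.induction_on' with
    | add p q hp hq => simp only [map_add, hp, hq]
    | monomial k c => simp [Polynomial.eval₂_monomial, Polynomial.aeval_monomial, splitEquiv]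
  rw [shape_eq, map_add, map_mul, hemb, emb, eval₂Hom_C, ha]
  simp [splitEquiv]

lemma totalDegree_splitPoly_le {n : ℕ} (i j : Fin n) {b : MvPolynomial (Fin n) ℂ}
    (hb : ∀ d ∈ b.support, (∑ l ∈ Finset.univ.erase i, d l) ≤ 2) :
    (splitPoly i j b).totalDegree ≤ 2 := by
  rw [b.as_sum, map_sum]
  refine (totalDegree_finsetSum _ _).trans (Finset.sup_le fun d hd => ?_)
  rw [splitPoly, aeval_monomial]
  refine (totalDegree_mul _ _).trans ?_
  rw [MvPolynomial.algebraMap_apply, totalDegree_C, zero_add]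
  refine (totalDegree_finsetProd _ _).trans (le_trans ?_ (hb d hd))
  rw [Finset.sum_subset (Finset.subset_univ d.support) fun l _ hl => by
      simp [Finsupp.notMem_support_iff.1 hl],
    ← Finset.add_sum_erase _ _ (Finset.mem_univ i)]
  have h0 : ∀ (c : Polynomial ℂ) (k : ℕ),
      ((C c : MvPolynomial {l : Fin n // l ≠ i ∧ l ≠ j} (Polynomial ℂ)) ^ k).totalDegree = 0 :=
    fun c k => by rw [← C_pow, totalDegree_C]
  beta_reduce
  rw [dif_pos rfl, h0, zero_add]
  refine Finset.sum_le_sum fun l hl => (totalDegree_pow _ _).trans ?_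
  refine le_trans (Nat.mul_le_mul_left _ (?_ : _ ≤ 1)) (by simp)
  rw [dif_neg (Finset.ne_of_mem_erase hl)]
  split_ifs <;> simp

theorem isCoordinate_linear_quadratic {n : ℕ} {i j : Fin n} (hij : i ≠ j) {a : Polynomial ℂ}
    (ha : a ≠ 0) {b : MvPolynomial (Fin n) ℂ}
    (hb : ∀ d ∈ b.support, d j = 0 ∧ (∑ l ∈ Finset.univ.erase i, d l) ≤ 2)
    (hs : IsStableCoordinate (Polynomial.aeval (X i : MvPolynomial (Fin n) ℂ) a * X j + b)) :
    IsCoordinate (Polynomial.aeval (X i : MvPolynomial (Fin n) ℂ) a * X j + b) := by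
  rw [← rename_shape_splitPoly hij a fun d hd => (hb d hd).1] at hs ⊢
  obtain ⟨m, -, hm⟩ := hs
  have hm' := isCoordinate_rename_equiv
    (Equiv.sumCongr (splitEquiv hij).symm (Equiv.refl (Fin m))) hm
  rw [rename_rename, rename_rename] at hm'
  have hfun : (Equiv.sumCongr (splitEquiv hij).symm (Equiv.refl (Fin m)) ∘ Sum.inl) ∘
      splitEquiv hij = Sum.inl := by
    funext o
    simp
  rw [hfun] at hm'
  have hdeg := totalDegree_splitPoly_le i j fun d hd => (hb d hd).2
  exact isCoordinate_rename_equiv _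
    (isCoordinate_shape ha hdeg fun r hr => root_translation ha hdeg hm' hr)

end Vale.Agent.P295
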