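import Vale.Agent.P295.Nondeg
import Vale.Agent.P295.Linear

/-!
P295: a stable coordinate of degree at most two in all variables but one is a coordinate.
-/

namespace Vale.Agent.P295

open MvPolynomial Matrix

section Extend

variable {σ κ : Type}

/-- An endomorphism acting on the left summand of the variables. -/
noncomputable def extendLeft (θ : MvPolynomial σ ℂ →ₐ[ℂ] MvPolynomial σ ℂ) :
    MvPolynomial (σ ⊕ κ) ℂ →ₐ[ℂ] MvPolynomial (σ ⊕ κ) ℂ :=
  aeval (Sum.elim (fun o => rename Sum.inl (θ (X o))) fun j => X (Sum.inr j))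

lemma extendLeft_rename (θ : MvPolynomial σ ℂ →ₐ[ℂ] MvPolynomial σ ℂ) (g : MvPolynomial σ ℂ) :
    extendLeft (κ := κ) θ (rename Sum.inl g) = rename Sum.inl (θ g) :=
  DFunLike.congr_fun (f := (extendLeft θ).comp (rename Sum.inl))
    (g := (rename Sum.inl).comp θ) (algHom_ext fun o => by simp [extendLeft]) g

lemma extendLeft_comp (θ η : MvPolynomial σ ℂ →ₐ[ℂ] MvPolynomial σ ℂ)
    (h : θ.comp η = AlgHom.id _ _) :
    (extendLeft (κ := κ) θ).comp (extendLeft η) = AlgHom.id _ _ := by
  refine algHom_ext fun o => ?_
  rcases o with o | j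
  · rw [AlgHom.comp_apply,
      show extendLeft (κ := κ) η (X (Sum.inl o)) = rename Sum.inl (η (X o)) by simp [extendLeft],
      extendLeft_rename]
    show rename Sum.inl ((θ.comp η) (X o)) = _
    rw [h]
    simp
  · simp [extendLeft]

/-- An automorphism acting on the left summand of the variables. -/
noncomputable def extendEquiv (E : MvPolynomial σ ℂ ≃ₐ[ℂ] MvPolynomial σ ℂ) :
    MvPolynomial (σ ⊕ κ) ℂ ≃ₐ[ℂ] MvPolynomial (σ ⊕ κ) ℂ :=
  AlgEquiv.ofAlgHom (extendLeft E.toAlgHom) (extendLeft E.symm.toAlgHom)
    (extendLeft_comp _ _ (AlgHom.ext E.apply_symm_apply))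
    (extendLeft_comp _ _ (AlgHom.ext E.symm_apply_apply))

lemma extendEquiv_rename (E : MvPolynomial σ ℂ ≃ₐ[ℂ] MvPolynomial σ ℂ) (g : MvPolynomial σ ℂ) :
    extendEquiv (κ := κ) E (rename Sum.inl g) = rename Sum.inl (E g) :=
  extendLeft_rename _ g

lemma isCoordinate_rename_inl {f : MvPolynomial σ ℂ} (h : IsCoordinate f) :
    IsCoordinate (rename (Sum.inl : σ → σ ⊕ κ) f) := by
  obtain ⟨e, i, he⟩ := h
  exact ⟨extendEquiv e, Sum.inl i, by rw [extendEquiv_rename, he, rename_X]⟩

lemma isCoordinate_inl_map (E : MvPolynomial σ ℂ ≃ₐ[ℂ] MvPolynomial σ ℂ) {f : MvPolynomial σ ℂ}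
    (h : IsCoordinate (rename (Sum.inl : σ → σ ⊕ κ) f)) :
    IsCoordinate (rename (Sum.inl : σ → σ ⊕ κ) (E f)) := by
  refine isCoordinate_of_map (extendEquiv E.symm) ?_
  rwa [extendEquiv_rename, E.symm_apply_apply]

end Extend

variable {τ : Type} [Fintype τ] [DecidableEq τ]

omit [DecidableEq τ] in
lemma totalDegree_quadPoly_le {R : Type} [CommRing R] [Nontrivial R] (c : R) (l : τ → R)
    (M : Matrix τ τ R) : (quadPoly c l M).totalDegree ≤ 2 := by
  refine (totalDegree_add _ _).trans (max_le ((totalDegree_add _ _).trans (max_le ?_ ?_)) ?_)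
  · simp
  · refine (totalDegree_finsetSum _ _).trans (Finset.sup_le fun j _ => ?_)
    exact (totalDegree_mul _ _).trans (by simp)
  · refine (totalDegree_finsetSum _ _).trans (Finset.sup_le fun j _ => ?_)
    refine (totalDegree_finsetSum _ _).trans (Finset.sup_le fun k _ => ?_)
    refine (totalDegree_mul _ _).trans (Nat.add_le_add (b := 1) (d := 1) ?_ (by simp))
    exact (totalDegree_mul _ _).trans (by simp)

/-- A direction absent from the quadratic part splits off. -/
lemma quadPoly_split {R : Type} [CommRing R] (l0 : τ) (c : R) (l : τ → R) (M : Matrix τ τ R)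
    (hrow : ∀ k, M l0 k = 0) (hcol : ∀ j, M j l0 = 0) :
    quadPoly c l M = rename Subtype.val (quadPoly c (fun x : {x // x ≠ l0} => l x)
      (M.submatrix Subtype.val Subtype.val)) + C (l l0) * X l0 := by
  have hsum : ∀ f : τ → MvPolynomial τ R, ∑ j, f j = f l0 + ∑ j : {x // x ≠ l0}, f j :=
    fun f => Fintype.sum_eq_add_sum_subtype_ne f l0
  have hin : ∀ j, (∑ k, C (M j k) * X j * X k : MvPolynomial τ R)
      = ∑ k : {x // x ≠ l0}, C (M j k) * X j * X k.1 := fun j => by
    rw [hsum]
    simp [hcol]
  simp only [quadPoly, map_add, map_sum, map_mul, rename_C, rename_X, Matrix.submatrix_apply]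
  rw [hsum (fun j => C (l j) * X j), hsum (fun j => ∑ k, C (M j k) * X j * X k)]
  simp only [hin, hrow, C_0, zero_mul, Finset.sum_const_zero, zero_add]
  ring

omit [Fintype τ] in
lemma rename_emb_eq_body (l0 : τ) (B : MvPolynomial {x // x ≠ l0} (Polynomial ℂ)) :
    rename (Equiv.optionCongr (Equiv.optionSubtypeNe l0)) (emb _ B)
      = body (rename Subtype.val B) := by
  refine DFunLike.congr_fun
    (f := (rename (Equiv.optionCongr (Equiv.optionSubtypeNe l0))).toRingHom.comp (emb _))
    (g := body.comp (rename Subtype.val).toRingHom)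
    (MvPolynomial.ringHom_ext (fun q => ?_) fun x => ?_) B
  · induction q using Polynomial.induction_on' with
    | add q q' hq hq' => simp only [map_add, hq, hq']
    | monomial k c => simp [body, emb, Polynomial.eval₂_monomial]
  · simp [body, emb]

omit [Fintype τ] [DecidableEq τ] in
lemma body_rename {l0 : τ} (B : MvPolynomial {x // x ≠ l0} (Polynomial ℂ)) :
    body (rename Subtype.val B) = rename (Option.map Subtype.val) (body B) := by
  refine DFunLike.congr_fun
    (f := body.comp (rename Subtype.val).toRingHom)
    (g := (rename (Option.map Subtype.val)).toRingHom.comp body)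
    (MvPolynomial.ringHom_ext (fun q => ?_) fun x => ?_) B
  · induction q using Polynomial.induction_on' with
    | add q q' hq hq' => simp only [map_add, hq, hq']
    | monomial k c => simp [body, Polynomial.eval₂_monomial]
  · simp [body]

/-- One variable moved among the added ones. -/
def moveEquiv (l0 : τ) (m : ℕ) :
    Option τ ⊕ Fin m ≃ Option {x : τ // x ≠ l0} ⊕ Fin (m + 1) where
  toFun := Sum.elim (fun o => o.elim (Sum.inl none) fun x =>
    if h : x = l0 then Sum.inr (Fin.last m) else Sum.inl (some ⟨x, h⟩))
    fun j => Sum.inr j.castSucc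
  invFun := Sum.elim (fun o => Sum.inl (o.map Subtype.val))
    fun j => Fin.lastCases (Sum.inl (some l0)) Sum.inr j
  left_inv s := by
    rcases s with (_ | x) | j
    · simp
    · by_cases h : x = l0 <;> simp [h]
    · simp
  right_inv s := by
    rcases s with (_ | x) | j
    · simp
    · simp [x.2]
    · refine Fin.lastCases ?_ (fun j => ?_) j <;> simp

theorem isCoordinate_body_aux : ∀ (k : ℕ) (τ : Type) [Fintype τ] [DecidableEq τ],
    Fintype.card τ = k → ∀ B : MvPolynomial τ (Polynomial ℂ), B.totalDegree ≤ 2 → ∀ m : ℕ,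
      IsCoordinate (rename (Sum.inl : Option τ → Option τ ⊕ Fin m) (body B)) →
      IsCoordinate (body B) := by
  intro k
  induction k using Nat.strong_induction_on with
  | _ k ih =>
    intro τ _ _ hk B hB m hs
    have h2 : Polynomial.C (1 / 2 : ℂ) + Polynomial.C (1 / 2) = 1 := by
      rw [← Polynomial.C_add, ← Polynomial.C_1]
      norm_num
    obtain ⟨c, l, M, hM, rfl⟩ := exists_quadPoly h2 hB
    by_cases hdet : M.det = 0
    · obtain ⟨v, hv, hMv⟩ := Matrix.exists_mulVec_eq_zero_iff.2 hdet
      obtain ⟨g, w, φ, hg, rfl, hφ⟩ := exists_unimodular v hv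
      rw [mulVec_smul] at hMv
      have hMw : M *ᵥ w = 0 := (smul_eq_zero.1 hMv).resolve_left hg
      obtain ⟨P, l0, hP, hcol, -⟩ := exists_completion w φ hφ
      set M' := Pᵀ * M * P with hM'
      set l' := Pᵀ *ᵥ l with hl'
      have hB' : bodyAut (affSub P 0) (body (quadPoly c l M)) = body (quadPoly c l' M') := by
        rw [bodyAut_body, affSub_quadPoly _ _ _ _ hM]
        simp [hM', hl']
      have hMcol : ∀ j, M' j l0 = 0 := fun j => by
        have : ∀ i, (M * P) i l0 = 0 := fun i => by
          have := congrFun hMw i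
          rw [← hcol] at this
          exact this
        rw [hM', Matrix.mul_assoc, Matrix.mul_apply]
        simp [this]
      have hsym : M'ᵀ = M' := by
        rw [hM', transpose_mul, transpose_mul, transpose_transpose, hM, Matrix.mul_assoc]
      have hMrow : ∀ j, M' l0 j = 0 := fun j => by
        rw [← hsym]
        exact hMcol j
      have hs' := isCoordinate_inl_map (affEquiv P 0 hP) hs
      refine isCoordinate_of_map (affEquiv P 0 hP) ?_
      change IsCoordinate (rename Sum.inl (bodyAut (affSub P 0) _)) at hs'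
      show IsCoordinate (bodyAut (affSub P 0) _)
      rw [hB', quadPoly_split l0 c l' M' hMrow hMcol] at hs' ⊢
      set B0 := quadPoly c (fun x : {x // x ≠ l0} => l' x) (M'.submatrix Subtype.val Subtype.val)
      by_cases ha : l' l0 = 0
      · rw [ha, C_0, zero_mul, add_zero, body_rename] at hs' ⊢
        have hcard : Fintype.card {x // x ≠ l0} < k :=
          hk ▸ Fintype.card_subtype_lt (x := l0) (by simp)
        have h1 := isCoordinate_rename_equiv (moveEquiv l0 m) hs'
        rw [rename_rename, rename_rename] at h1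
        have hfun : (moveEquiv l0 m ∘ Sum.inl) ∘ Option.map Subtype.val = Sum.inl := by
          funext o
          rcases o with _ | x <;> simp [moveEquiv]
          simp [x.2]
        rw [hfun] at h1
        have h3 := isCoordinate_rename_equiv
          ((moveEquiv l0 0).symm.trans (Equiv.sumEmpty (Option τ) (Fin 0)))
          (isCoordinate_rename_inl (κ := Fin (0 + 1))
            (ih _ hcard _ rfl B0 (totalDegree_quadPoly_le _ _ _) (m + 1) h1))
        rw [rename_rename] at h3
        have hfun' : ((moveEquiv l0 0).symm.trans (Equiv.sumEmpty (Option τ) (Fin 0))) ∘ Sum.inl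
            = Option.map Subtype.val := by
          funext o
          rcases o with _ | x <;> simp [moveEquiv]
        rw [hfun'] at h3
        exact h3
      · have hshape : body (rename Subtype.val B0 + C (l' l0) * X l0)
            = rename (Equiv.optionCongr (Equiv.optionSubtypeNe l0)) (shape (l' l0) B0) := by
          rw [shape_eq, map_add, map_add, map_mul, map_mul, rename_emb_eq_body, rename_emb_eq_body,
            rename_C, add_comm]
          simp [body]
        rw [hshape] at hs' ⊢
        have hdeg : B0.totalDegree ≤ 2 := totalDegree_quadPoly_le _ _ _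
        have h1 := isCoordinate_rename_equiv
          (Equiv.sumCongr (Equiv.optionCongr (Equiv.optionSubtypeNe l0)).symm
            (Equiv.refl (Fin m))) hs'
        rw [rename_rename, rename_rename] at h1
        have hfun : (Equiv.sumCongr (Equiv.optionCongr (Equiv.optionSubtypeNe l0)).symm
            (Equiv.refl (Fin m)) ∘ Sum.inl) ∘ Equiv.optionCongr (Equiv.optionSubtypeNe l0)
              = Sum.inl := by
          funext o
          exact congrArg Sum.inl
            ((Equiv.optionCongr (Equiv.optionSubtypeNe l0)).symm_apply_apply o)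
        rw [hfun] at h1
        exact isCoordinate_rename_equiv _
          (isCoordinate_shape ha hdeg fun r hr => root_translation ha hdeg h1 hr)
    · exact isCoordinate_nondeg hM hdet hs

/-- A stable coordinate of degree at most two in all variables but one is a coordinate. -/
theorem isCoordinate_all_but_one {n : ℕ} (i : Fin n) {f : MvPolynomial (Fin n) ℂ}
    (hf : ∀ d ∈ f.support, (∑ l ∈ Finset.univ.erase i, d l) ≤ 2)
    (hs : IsStableCoordinate f) : IsCoordinate f := by
  set e : Option {l // l ≠ i} ≃ Fin n := Equiv.optionSubtypeNe i with he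
  set B : MvPolynomial {l // l ≠ i} (Polynomial ℂ) :=
    aeval (fun l => if h : l = i then C Polynomial.X else X ⟨l, h⟩) f with hB
  have hback : rename e (body B) = f := by
    refine DFunLike.congr_fun
      (f := ((rename e).toRingHom.comp body).comp
        (aeval (fun l => if h : l = i then C Polynomial.X else X ⟨l, h⟩ :
          Fin n → MvPolynomial {l // l ≠ i} (Polynomial ℂ))).toRingHom)
      (g := RingHom.id (MvPolynomial (Fin n) ℂ))
      (MvPolynomial.ringHom_ext (fun c => ?_) fun l => ?_) f
    · simp [body, MvPolynomial.algebraMap_apply]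
    · by_cases h : l = i <;> simp [body, e, h]
  have hdeg : B.totalDegree ≤ 2 := by
    rw [hB, f.as_sum, map_sum]
    refine (totalDegree_finsetSum _ _).trans (Finset.sup_le fun d hd => ?_)
    rw [aeval_monomial]
    refine (totalDegree_mul _ _).trans ?_
    rw [MvPolynomial.algebraMap_apply, totalDegree_C, zero_add]
    refine (totalDegree_finsetProd _ _).trans (le_trans ?_ (hf d hd))
    rw [Finset.sum_subset (Finset.subset_univ d.support) fun l _ hl => by
        simp [Finsupp.notMem_support_iff.1 hl],
      ← Finset.add_sum_erase _ _ (Finset.mem_univ i)]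
    have h0 : ∀ (c : Polynomial ℂ) (k : ℕ),
        ((C c : MvPolynomial {l // l ≠ i} (Polynomial ℂ)) ^ k).totalDegree = 0 :=
      fun c k => by rw [← C_pow, totalDegree_C]
    beta_reduce
    rw [dif_pos rfl, h0, zero_add]
    refine Finset.sum_le_sum fun l hl => (totalDegree_pow _ _).trans ?_
    rw [dif_neg (Finset.ne_of_mem_erase hl), totalDegree_X, mul_one]
  obtain ⟨m, -, hm⟩ := hs
  rw [← hback] at hm ⊢
  have h1 := isCoordinate_rename_equiv (Equiv.sumCongr e.symm (Equiv.refl (Fin m))) hm
  rw [rename_rename, rename_rename] at h1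
  have hfun : (Equiv.sumCongr e.symm (Equiv.refl (Fin m)) ∘ Sum.inl) ∘ e = Sum.inl := by
    funext o
    simp
  rw [hfun] at h1
  exact isCoordinate_rename_equiv e (isCoordinate_body_aux _ _ rfl B hdeg m h1)

end Vale.Agent.P295
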