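import Mathlib

/-!
P295: character sums over a finite field.

Finitely many polynomials of the shape `(sum of squares of some of the variables) + c` cannot
have character sums adding up to zero for every nontrivial additive character, once the field
is large compared with their number.
-/

namespace Vale.Agent.P295

open Finset ComplexConjugate

variable {F : Type*} [Field F] [Fintype F]

/-- Sum of a character over `t x^2`. -/
noncomputable def sqSum (ψ : AddChar F ℂ) (t : F) : ℂ := ∑ x, ψ (t * x ^ 2)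

lemma conj_char (ψ : AddChar F ℂ) (a : F) : conj (ψ a) = ψ (-a) :=
  (AddChar.map_neg_eq_conj ψ a).symm

lemma norm_sqSum (ψ : AddChar F ℂ) (hψ : ψ.IsPrimitive) (h2 : (2 : F) ≠ 0) {t : F}
    (ht : t ≠ 0) : ‖sqSum ψ t‖ = Real.sqrt (Fintype.card F) := by
  classical
  have key : sqSum ψ t * conj (sqSum ψ t) = (Fintype.card F : ℂ) := by
    rw [sqSum, map_sum, Finset.sum_mul_sum]
    simp_rw [conj_char, ← AddChar.map_add_eq_mul]
    let e : F × F ≃ F × F :=
      { toFun := fun p => (p.1 - p.2, p.1 + p.2)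
        invFun := fun p => ((p.1 + p.2) / 2, (p.2 - p.1) / 2)
        left_inv := fun p => by ext <;> field_simp <;> ring
        right_inv := fun p => by ext <;> field_simp <;> ring }
    rw [← Finset.sum_product', Finset.univ_product_univ,
      Fintype.sum_equiv e (fun p => ψ (t * p.1 ^ 2 + -(t * p.2 ^ 2)))
        (fun p => ψ (p.2 * (t * p.1))) (fun p => by
          show _ = ψ ((p.1 + p.2) * (t * (p.1 - p.2)))
          congr 1
          ring),
      Fintype.sum_prod_type]
    simp only [AddChar.sum_mulShift _ hψ, mul_eq_zero, ht, false_or]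
    simp
  rw [← Complex.norm_natCast (Fintype.card F), ← key, norm_mul, Complex.norm_conj,
    Real.sqrt_mul_self (norm_nonneg _)]

lemma sqSum_sq_mul (ψ : AddChar F ℂ) (u : F) {s : F} (hs : s ≠ 0) :
    sqSum ψ (s ^ 2 * u) = sqSum ψ u := by
  refine Fintype.sum_equiv (Equiv.mulLeft₀ s hs) _ _ fun x => ?_
  simp only [Equiv.mulLeft₀_apply]
  ring_nf

lemma sum_squares {τ : Type*} [Fintype τ] [DecidableEq τ] (ψ : AddChar F ℂ) (t c : F)
    (S : Finset τ) :
    ∑ z : τ → F, ψ (t * (∑ j ∈ S, z j ^ 2 + c))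
      = ψ (t * c) * (sqSum ψ t ^ S.card * (Fintype.card F : ℂ) ^ (Fintype.card τ - S.card)) := by
  have h : ∀ z : τ → F, ψ (t * (∑ j ∈ S, z j ^ 2 + c))
      = ψ (t * c) * ∏ j, (if j ∈ S then ψ (t * z j ^ 2) else 1) := by
    intro z
    rw [mul_add, AddChar.map_add_eq_mul, mul_comm, Finset.mul_sum, Fintype.prod_ite_mem]
    congr 1
    induction S using Finset.induction_on with
    | empty => simp
    | insert a S ha ih =>
      rw [Finset.sum_insert ha, Finset.prod_insert ha, AddChar.map_add_eq_mul, ih]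
  simp_rw [h]
  rw [← Finset.mul_sum, ← Fintype.prod_sum (fun j (x : F) => if j ∈ S then ψ (t * x ^ 2) else 1),
    ← Finset.prod_mul_prod_compl S]
  congr 2
  · rw [← Finset.prod_const]
    exact Finset.prod_congr rfl fun j hj => by simp [hj, sqSum]
  · rw [← Finset.card_compl, ← Finset.prod_const]
    refine Finset.prod_congr rfl fun j hj => ?_
    simp [Finset.mem_compl.1 hj]

/-- The main estimate. -/
theorem false_of_sum_squares_char_sum_zero {τ ι : Type*} [Fintype τ] [DecidableEq τ]
    (ψ : AddChar F ℂ) (hψ : ψ.IsPrimitive) (h2 : (2 : F) ≠ 0)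
    (s : Finset ι) (hs : s.Nonempty) (S : ι → Finset τ) (c : ι → F)
    (hq : (5 * s.card) ^ 2 ≤ Fintype.card F)
    (h : ∀ t : F, t ≠ 0 → ∑ i ∈ s, ∑ z : τ → F, ψ (t * (∑ j ∈ S i, z j ^ 2 + c i)) = 0) :
    False := by
  classical
  set G : ℂ := sqSum ψ 1 with hG
  set q : ℝ := (Fintype.card F : ℝ) with hqdef
  set r : ℝ := Real.sqrt q with hr
  set w : ι → ℂ := fun i => G ^ (S i).card * (Fintype.card F : ℂ) ^ (Fintype.card τ - (S i).card)
    with hw
  have hqpos : 0 < q := by rw [hqdef]; exact_mod_cast Fintype.card_pos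
  have hr0 : 0 < r := Real.sqrt_pos.2 hqpos
  have hrr : r * r = q := Real.mul_self_sqrt hqpos.le
  have hGn : ‖G‖ = r := by rw [hG, norm_sqSum ψ hψ h2 one_ne_zero]
  have hwn : ∀ i, ‖w i‖ = r ^ (S i).card * (r * r) ^ (Fintype.card τ - (S i).card) := by
    intro i
    rw [hw, norm_mul, norm_pow, norm_pow, hGn, Complex.norm_natCast, hrr]
  obtain ⟨i0, hi0, hmin⟩ := Finset.exists_min_image s (fun i => (S i).card) hs
  set ρ := (S i0).card with hρ
  set M : ℝ := r ^ ρ * (r * r) ^ (Fintype.card τ - ρ) with hM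
  have hM0 : 0 < M := by positivity
  have hr1 : (5 : ℝ) * s.card ≤ r := by
    rw [hr]
    refine Real.le_sqrt_of_sq_le ?_
    rw [hqdef]
    exact_mod_cast hq
  have hcard : (1 : ℝ) ≤ s.card := by exact_mod_cast hs.card_pos
  have hwle : ∀ i ∈ s, ‖w i‖ ≤ M := by
    intro i hi
    rw [hwn, hM]
    obtain ⟨e, he⟩ := Nat.exists_eq_add_of_le (hmin i hi)
    have he2 : Fintype.card τ - ρ = Fintype.card τ - (S i).card + e := by
      have := Finset.card_le_univ (S i)
      omega
    rw [he2, he, pow_add, pow_add, mul_assoc,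
      mul_comm ((r * r) ^ _) ((r * r) ^ e), ← mul_assoc, ← mul_assoc]
    gcongr
    nlinarith
  have hwsmall : ∀ i ∈ s, ρ < (S i).card → ‖w i‖ ≤ M / r := by
    intro i hi hlt
    rw [le_div_iff₀ hr0, hwn, hM]
    obtain ⟨e, he⟩ := Nat.exists_eq_add_of_lt hlt
    have he2 : Fintype.card τ - ρ = Fintype.card τ - (S i).card + (e + 1) := by
      have := Finset.card_le_univ (S i)
      omega
    rw [he2, he, hρ, add_assoc, pow_add r, pow_add (r * r)]
    have h1 : r ^ (e + 1) * r ≤ (r * r) ^ (e + 1) := by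
      rw [mul_pow]
      gcongr
      exact le_self_pow₀ (by linarith) (by omega)
    generalize Fintype.card τ - ((S i0).card + (e + 1)) = a
    have h3 := mul_le_mul_of_nonneg_left h1
      (show 0 ≤ r ^ (S i0).card * (r * r) ^ a by positivity)
    linarith
  set v := c i0 with hv
  set g := s.filter (fun i => c i = v) with hg
  set A : ℂ := ∑ i ∈ g, w i with hA
  have hT : ∀ x : F, x ≠ 0 → ∑ i ∈ s, w i * ψ (x ^ 2 * c i) = 0 := by
    intro x hx
    rw [← h (x ^ 2) (pow_ne_zero 2 hx)]
    refine Finset.sum_congr rfl fun i _ => ?_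
    have hs1 : sqSum ψ (x ^ 2) = G := by
      rw [hG, ← sqSum_sq_mul ψ 1 hx, mul_one]
    rw [sum_squares, hs1, hw]
    ring
  have hzero : ∑ i ∈ s, w i * ∑ x ∈ Finset.univ.erase (0 : F), ψ (x ^ 2 * (c i - v)) = 0 := by
    simp_rw [Finset.mul_sum]
    rw [Finset.sum_comm]
    refine Finset.sum_eq_zero fun x hx => ?_
    have : ∀ i ∈ s, w i * ψ (x ^ 2 * (c i - v)) = w i * ψ (x ^ 2 * c i) * ψ (-(x ^ 2 * v)) := by
      intro i _
      rw [mul_assoc (w i), ← AddChar.map_add_eq_mul, mul_sub, sub_eq_add_neg]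
    rw [Finset.sum_congr rfl this, ← Finset.sum_mul, hT x (Finset.ne_of_mem_erase hx), zero_mul]
  rw [← Finset.sum_filter_add_sum_filter_not s (fun i => c i = v)] at hzero
  have hdiag : ∑ i ∈ g, w i * ∑ x ∈ Finset.univ.erase (0 : F), ψ (x ^ 2 * (c i - v))
      = A * ((q - 1 : ℝ) : ℂ) := by
    rw [hA, Finset.sum_mul]
    refine Finset.sum_congr rfl fun i hi => ?_
    rw [(Finset.mem_filter.1 hi).2, sub_self]
    simp [hqdef, Finset.card_erase_of_mem, Nat.cast_sub Fintype.card_pos]
  rw [← hg, hdiag] at hzero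
  have hoff : ‖∑ i ∈ s.filter (fun i => ¬ c i = v),
      w i * ∑ x ∈ Finset.univ.erase (0 : F), ψ (x ^ 2 * (c i - v))‖ ≤ s.card * (M * (r + 1)) := by
    refine (norm_sum_le_of_le _ (n := fun _ => M * (r + 1)) fun i hi => ?_).trans ?_
    · rw [norm_mul]
      obtain ⟨his, hne⟩ := Finset.mem_filter.1 hi
      refine mul_le_mul (hwle i his) ?_ (norm_nonneg _) hM0.le
      rw [Finset.sum_erase_eq_sub (Finset.mem_univ _)]
      refine (norm_sub_le _ _).trans ?_
      gcongr
      · rw [hr, hqdef, ← norm_sqSum ψ hψ h2 (sub_ne_zero.2 hne)]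
        exact le_of_eq (congrArg _ (Finset.sum_congr rfl fun x _ => by rw [mul_comm]))
      · simp
    · rw [Finset.sum_const, nsmul_eq_mul]
      gcongr
      exact Finset.filter_subset _ _
  have hA1 : M - s.card * (M / r) ≤ ‖A‖ := by
    rw [hA, ← Finset.sum_filter_add_sum_filter_not g (fun i => (S i).card = ρ)]
    refine le_trans ?_ (norm_sub_le_norm_add _ _)
    gcongr
    · have hi0g : i0 ∈ g.filter (fun i => (S i).card = ρ) := by simp [hg, hi0, hv, hρ]
      have e : ∀ i ∈ g.filter (fun i => (S i).card = ρ), w i = w i0 := by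
        intro i hi
        simp only [hw, (Finset.mem_filter.1 hi).2, hρ]
      rw [Finset.sum_congr rfl e, Finset.sum_const, nsmul_eq_mul, norm_mul, Complex.norm_natCast,
        hwn i0]
      refine le_mul_of_one_le_left hM0.le ?_
      exact_mod_cast Finset.card_pos.2 ⟨i0, hi0g⟩
    · refine (norm_sum_le_of_le _ (n := fun _ => M / r) fun i hi => ?_).trans ?_
      · obtain ⟨hig, hne⟩ := Finset.mem_filter.1 hi
        obtain ⟨his, -⟩ := Finset.mem_filter.1 hig
        exact hwsmall i his (lt_of_le_of_ne (hmin i his) (Ne.symm hne))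
      · rw [Finset.sum_const, nsmul_eq_mul]
        gcongr
        exact (Finset.filter_subset _ _).trans (Finset.filter_subset _ _)
  have hAle : ‖A‖ * (q - 1) ≤ s.card * (M * (r + 1)) := by
    rw [eq_neg_of_add_eq_zero_right hzero, norm_neg, norm_mul, Complex.norm_real,
      Real.norm_of_nonneg (by nlinarith)] at hoff
    exact hoff
  have h4 : (4 : ℝ) / 5 * M ≤ ‖A‖ := by
    refine le_trans ?_ hA1
    have : (s.card : ℝ) * (M / r) ≤ M / 5 := by
      rw [← mul_div_assoc, div_le_iff₀ hr0]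
      nlinarith
    linarith
  have h5 : 4 / 5 * M * (q - 1) ≤ s.card * (M * (r + 1)) :=
    le_trans (mul_le_mul_of_nonneg_right h4 (by nlinarith)) hAle
  have h6 : 4 / 5 * (r * r - 1) ≤ s.card * (r + 1) := by
    rw [← hrr] at h5
    exact le_of_mul_le_mul_left (by nlinarith) hM0
  nlinarith

end Vale.Agent.P295
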