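import Vale.Agent.P295.FibreLift

/-!
P295: for a stable coordinate `B(x, z)` with nondegenerate quadratic part, no fibre of
`N / (4 D)` has fewer points off the zeros of `D` than a general one.
-/

namespace Vale.Agent.P295

open MvPolynomial Matrix

variable {τ : Type} [Fintype τ] [DecidableEq τ]

/-- `4 D c - l · adj(M) l`, with `D = det M`. -/
noncomputable def squareNum {R : Type*} [CommRing R] (c : R) (l : τ → R) (M : Matrix τ τ R) : R :=
  4 * M.det * c - l ⬝ᵥ M.adjugate *ᵥ l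

lemma map_squareNum {R S : Type*} [CommRing R] [CommRing S] (f : R →+* S) (c : R) (l : τ → R)
    (M : Matrix τ τ R) : f (squareNum c l M) = squareNum (f c) (f ∘ l) (M.map f) := by
  rw [squareNum, squareNum, map_sub, map_mul, map_mul, map_ofNat, f.map_det, f.map_dotProduct,
    show M.map f = f.mapMatrix M from rfl, ← f.map_adjugate]
  congr 2
  funext j
  exact f.map_mulVec M.adjugate l j

lemma sum_pairs {F : Type*} [Fintype F] (h : (Option τ → F) → ℂ) :
    ∑ p, h p = ∑ x : F, ∑ z : τ → F, h (fun o => o.elim x z) := by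
  let e : F × (τ → F) ≃ (Option τ → F) :=
    { toFun := fun w o => o.elim w.1 w.2
      invFun := fun p => (p none, fun l => p (some l))
      left_inv := fun w => rfl
      right_inv := fun p => by funext o; rcases o with _ | l <;> rfl }
  rw [← e.sum_comp, Fintype.sum_prod_type]
  rfl

variable {A : Subalgebra ℤ ℂ} {F : Type*} [Field F] [Fintype F] [DecidableEq F]

omit [DecidableEq τ] [Fintype F] [DecidableEq F] in
lemma fibre_at_root (φ : A →+* F) (c0A : Polynomial A) (lA : τ → Polynomial A)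
    (MA : Matrix τ τ (Polynomial A)) (a : A) (z : τ → F) :
    Polynomial.eval₂RingHom φ (φ a) c0A + (Polynomial.eval₂RingHom φ (φ a) ∘ lA) ⬝ᵥ z
        + z ⬝ᵥ MA.map (Polynomial.eval₂RingHom φ (φ a)) *ᵥ z
      = eval₂ φ z (quadPoly (c0A.eval a) (fun j => (lA j).eval a) (MA.map (Polynomial.eval a))) := by
  rw [eval₂_quadPoly]
  simp [Function.comp_def, Matrix.map_map, Polynomial.eval₂_at_apply,
    show Polynomial.eval₂ φ (φ a) = fun p => φ (Polynomial.eval a p) from
      funext fun p => Polynomial.eval₂_at_apply φ a]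

omit [DecidableEq τ] in
lemma map_root_fibre (c0A : Polynomial A) (lA : τ → Polynomial A)
    (MA : Matrix τ τ (Polynomial A)) {c0 : Polynomial ℂ} {l : τ → Polynomial ℂ}
    {M : Matrix τ τ (Polynomial ℂ)} (hc : c0A.map A.val.toRingHom = c0)
    (hl : ∀ j, (lA j).map A.val.toRingHom = l j)
    (hM : ∀ i j, (MA i j).map A.val.toRingHom = M i j) (a : A) {r : ℂ} (ha : (a : ℂ) = r) :
    map A.val.toRingHom
        (quadPoly (c0A.eval a) (fun j => (lA j).eval a) (MA.map (Polynomial.eval a)))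
      = quadPoly (c0.eval r) (fun j => (l j).eval r) (M.map (Polynomial.eval r)) := by
  have h : ∀ p : Polynomial A, A.val.toRingHom (p.eval a) = (p.map A.val.toRingHom).eval r :=
    fun p => by rw [← ha]; exact (Polynomial.eval_map_apply A.val.toRingHom a).symm
  rw [map_quadPoly, h, hc]
  congr 1
  · funext j
    rw [Function.comp_apply, h, hl]
  · refine Matrix.ext fun i j => ?_
    rw [Matrix.map_apply, Matrix.map_apply, Matrix.map_apply, h, hM]

lemma card_fibre (φ : A →+* F) (h4 : (4 : F) ≠ 0) (DA NA : Polynomial A)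
    {N D : Polynomial ℂ} (hD0 : D ≠ 0) (hD : DA.map A.val.toRingHom = D)
    (hN : NA.map A.val.toRingHom = N) {y : ℂ} (hy : y ∈ A)
    (hp0 : N - Polynomial.C y * (Polynomial.C 4 * D) ≠ 0) (Pts : Finset ℂ)
    (hR : D.roots.toFinset ⊆ Pts)
    (hS : (N - Polynomial.C y * (Polynomial.C 4 * D)).roots.toFinset ⊆ Pts)
    (hPts : ∀ a ∈ Pts, a ∈ A) (hinj : (Pts : Set ℂ).InjOn fun z => φ (liftElt A z))
    (hlc : (N - Polynomial.C y * (Polynomial.C 4 * D)).leadingCoeff ∈ A)
    (hlci : (N - Polynomial.C y * (Polynomial.C 4 * D)).leadingCoeff⁻¹ ∈ A)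
    (hbad : ∀ x, DA.eval₂ φ x = 0 ↔ x ∈ D.roots.toFinset.image fun r => φ (liftElt A r)) :
    (Finset.univ.filter fun x => x ∉ D.roots.toFinset.image (fun r => φ (liftElt A r)) ∧
        NA.eval₂ φ x / (4 * DA.eval₂ φ x) = φ (liftElt A y)).card = goodCount N D y := by
  have hPA : (NA - Polynomial.C (liftElt A y) * (Polynomial.C 4 * DA)).map A.val.toRingHom
      = N - Polynomial.C y * (Polynomial.C 4 * D) := by
    rw [Polynomial.map_sub, Polynomial.map_mul, Polynomial.map_mul, Polynomial.map_C,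
      Polynomial.map_C, hN, hD, map_ofNat]
    simp [liftElt_val A hy]
  have hiff : ∀ x, (NA - Polynomial.C (liftElt A y) * (Polynomial.C 4 * DA)).eval₂ φ x
      = NA.eval₂ φ x - φ (liftElt A y) * (4 * DA.eval₂ φ x) := fun x => by
    simp only [Polynomial.eval₂_sub, Polynomial.eval₂_mul, Polynomial.eval₂_C, Polynomial.eval₂_ofNat, map_ofNat]
  rw [goodCount, ← Finset.card_image_of_injOn (f := fun z => φ (liftElt A z))]
  swap
  · exact hinj.mono fun z hz => hS (Finset.mem_filter.1 hz).1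
  refine congrArg Finset.card (Finset.ext fun x => ?_)
  simp only [Finset.mem_filter, Finset.mem_univ, true_and, Finset.mem_image]
  constructor
  · rintro ⟨hx, hval⟩
    have hx' : DA.eval₂ φ x ≠ 0 := fun h => hx (Finset.mem_image.1 ((hbad x).1 h))
    rw [div_eq_iff (mul_ne_zero h4 hx'), ← sub_eq_zero, ← hiff,
      eval₂_eq_zero_iff φ _ hPA hp0 (fun r hr => hPts r (hS hr)) hlc hlci x,
      Finset.mem_image] at hval
    obtain ⟨r, hr, hrx⟩ := hval
    exact ⟨r, ⟨hr, fun hroot => hx ⟨r, Multiset.mem_toFinset.2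
      ((Polynomial.mem_roots hD0).2 hroot), hrx⟩⟩, hrx⟩
  · rintro ⟨r, ⟨hr, hroot⟩, hrx⟩
    have hx : ¬ ∃ a ∈ D.roots.toFinset, φ (liftElt A a) = x := by
      rintro ⟨a, ha, hax⟩
      have har : a = r := hinj (hR ha) (hS hr) (hax.trans hrx.symm)
      subst har
      exact hroot ((Polynomial.mem_roots hD0).1 (Multiset.mem_toFinset.1 ha))
    refine ⟨hx, ?_⟩
    have hx' : DA.eval₂ φ x ≠ 0 := fun h => hx (Finset.mem_image.1 ((hbad x).1 h))
    rw [div_eq_iff (mul_ne_zero h4 hx'), ← sub_eq_zero, ← hiff,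
      eval₂_eq_zero_iff φ _ hPA hp0 (fun r hr => hPts r (hS hr)) hlc hlci x, Finset.mem_image]
    exact ⟨r, hr, hrx⟩

/-- The reduction step, all the data lifted to `A`. -/
lemma goodCount_le_of_lift (φ : A →+* F) (ψ : AddChar F ℂ) (hψ : ψ.IsPrimitive)
    (h2 : (2 : F) ≠ 0) {c0 : Polynomial ℂ} {l : τ → Polynomial ℂ} {M : Matrix τ τ (Polynomial ℂ)}
    (hMs : Mᵀ = M) (hdet : M.det ≠ 0)
    {c0A : Polynomial A} {lA : τ → Polynomial A} {MA : Matrix τ τ (Polynomial A)}
    (hc : c0A.map A.val.toRingHom = c0) (hl : ∀ j, (lA j).map A.val.toRingHom = l j)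
    (hM : ∀ i j, (MA i j).map A.val.toRingHom = M i j)
    (hsum : ∀ t, t ≠ 0 → ∑ x : F, ∑ z : τ → F,
      ψ (t * (Polynomial.eval₂RingHom φ x c0A + (Polynomial.eval₂RingHom φ x ∘ lA) ⬝ᵥ z
        + z ⬝ᵥ MA.map (Polynomial.eval₂RingHom φ x) *ᵥ z)) = 0)
    (T S : ℂ → τ → MvPolynomial τ ℂ) (U : ℂ → Finset τ) (cc : ℂ → ℂ) (Sq : Finset ℂ)
    (hSq : Sq ⊆ M.det.roots.toFinset)
    (hnf : ∀ r ∈ Sq, bind₁ (T r) (quadPoly (c0.eval r) (fun j => (l j).eval r)
        (M.map (Polynomial.eval r))) = ∑ j ∈ U r, X j ^ 2 + C (cc r) ∧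
      (∀ j, bind₁ (T r) (S r j) = X j) ∧ (U r).card < Fintype.card τ ∧
      (∀ j, ∀ x ∈ (T r j).coeffs, x ∈ A) ∧ (∀ j, ∀ x ∈ (S r j).coeffs, x ∈ A) ∧ cc r ∈ A)
    (hshift : ∀ r ∈ M.det.roots.toFinset, r ∉ Sq → ∃ (v : τ → ℂ) (α : ℂ), α ≠ 0 ∧
      bind₁ (shiftVars v) (quadPoly (c0.eval r) (fun j => (l j).eval r)
          (M.map (Polynomial.eval r)))
        = rename some (quadPoly (c0.eval r) (fun j => (l j).eval r) (M.map (Polynomial.eval r)))
          + C α * X none ∧ (∀ j, v j ∈ A) ∧ α ∈ A ∧ α⁻¹ ∈ A)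
    {y0 y1 : ℂ} (hy : y0 ≠ y1) (hy1 : ∀ r ∈ Sq, cc r ≠ y1) (hy0A : y0 ∈ A) (hy1A : y1 ∈ A)
    (hyinv : (y0 - y1)⁻¹ ∈ A) (hI : Complex.I ∈ A)
    (hsqc : ∀ r ∈ Sq, ∀ y' : ℂ, y' = y0 ∨ y' = y1 →
      sqrtC (cc r - y') ∈ A ∧ (sqrtC (cc r - y'))⁻¹ ∈ A)
    (hne : ∀ y : ℂ, squareNum c0 l M - Polynomial.C y * (Polynomial.C 4 * M.det) ≠ 0)
    (Pts : Finset ℂ) (hPR : M.det.roots.toFinset ⊆ Pts)
    (hP0 : (squareNum c0 l M
      - Polynomial.C y0 * (Polynomial.C 4 * M.det)).roots.toFinset ⊆ Pts)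
    (hP1 : (squareNum c0 l M
      - Polynomial.C y1 * (Polynomial.C 4 * M.det)).roots.toFinset ⊆ Pts)
    (hPts : ∀ a ∈ Pts, a ∈ A) (hinv : ∀ a ∈ Pts, ∀ b ∈ Pts, (a - b)⁻¹ ∈ A)
    (hsqd : ∀ a ∈ Pts, sqrtC (M.det.eval a) ∈ A ∧ (sqrtC (M.det.eval a))⁻¹ ∈ A)
    (hlead : ∀ y' : ℂ, y' = y0 ∨ y' = y1 →
      (squareNum c0 l M - Polynomial.C y' * (Polynomial.C 4 * M.det)).leadingCoeff ∈ A ∧
      (squareNum c0 l M - Polynomial.C y' * (Polynomial.C 4 * M.det)).leadingCoeff⁻¹ ∈ A)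
    (hleadD : M.det.leadingCoeff ∈ A ∧ M.det.leadingCoeff⁻¹ ∈ A)
    (hq : 3 * Pts.card < Fintype.card F) :
    goodCount (squareNum c0 l M) M.det y1 ≤ goodCount (squareNum c0 l M) M.det y0 := by
  classical
  set ρ : ℂ → F := fun z => φ (liftElt A z) with hρ
  set DA := MA.det with hDA
  set NA := squareNum c0A lA MA with hNA
  have hMmap : MA.map (Polynomial.mapRingHom A.val.toRingHom) = M := Matrix.ext hM
  have hDmap : DA.map A.val.toRingHom = M.det := by
    rw [hDA, ← Polynomial.coe_mapRingHom, RingHom.map_det]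
    exact congrArg Matrix.det hMmap
  have hNmap : NA.map A.val.toRingHom = squareNum c0 l M := by
    rw [hNA, ← Polynomial.coe_mapRingHom, map_squareNum, hMmap, Polynomial.coe_mapRingHom, hc]
    congr 1
    exact funext hl
  have hMAs : MAᵀ = MA := by
    refine Matrix.ext fun i j => Polynomial.map_injective A.val.toRingHom Subtype.val_injective ?_
    rw [transpose_apply, hM, hM]
    exact congrFun (congrFun hMs i) j
  have h4 : (4 : F) ≠ 0 := by
    rw [show (4 : F) = 2 * 2 by norm_num]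
    exact mul_ne_zero h2 h2
  have hinj : (Pts : Set ℂ).InjOn ρ := map_liftElt_injOn φ _ hPts hinv
  have hbad : ∀ x, DA.eval₂ φ x = 0 ↔ x ∈ M.det.roots.toFinset.image ρ :=
    eval₂_eq_zero_iff φ DA hDmap hdet (fun r hr => hPts r (hPR hr)) hleadD.1 hleadD.2
  let inv : F → ℂ := fun x =>
    if h : ∃ r ∈ M.det.roots.toFinset, ρ r = x then h.choose else 0
  have hinvρ : ∀ r ∈ M.det.roots.toFinset, inv (ρ r) = r := fun r hr => by
    have h : ∃ r' ∈ M.det.roots.toFinset, ρ r' = ρ r := ⟨r, hr, rfl⟩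
    simp only [inv, dif_pos h]
    exact hinj (hPR h.choose_spec.1) (hPR hr) h.choose_spec.2
  let dd : F → F := fun x => NA.eval₂ φ x / (4 * DA.eval₂ φ x)
  let ε : F → ℤ := fun x => quadraticChar F (DA.eval₂ φ x)
  have hi : ∃ i : F, i ^ 2 = -1 := ⟨φ (liftElt A Complex.I), by
    rw [← map_pow, show liftElt A Complex.I ^ 2 = -1 from Subtype.ext (by
      show (liftElt A Complex.I : ℂ) ^ 2 = -1
      rw [liftElt_val A hI, Complex.I_sq]), map_neg, map_one]⟩
  have hlift : ∀ z : ℂ, ∀ hz : z ∈ A, (liftElt A z : ℂ) = z := fun z hz => liftElt_val A hz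
  have key := card_fibre_le (u := Fintype.card τ) ψ hψ h2 hi
    (M.det.roots.toFinset.image ρ) (Sq.image ρ) (Finset.image_subset_image hSq)
    (fun x t => ∑ z : τ → F,
      ψ (t * (Polynomial.eval₂RingHom φ x c0A + (Polynomial.eval₂RingHom φ x ∘ lA) ⬝ᵥ z
        + z ⬝ᵥ MA.map (Polynomial.eval₂RingHom φ x) *ᵥ z)))
    dd (fun x => φ (liftElt A (cc (inv x)))) ε (fun x => (U (inv x)).card)
    (y0 := ρ y0) (y1 := ρ y1) hsum ?good ?sq ?zero ?ne ?c1 ?c0 ?eps ?count
  case good =>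
    intro x hx t ht
    have hd0 : DA.eval₂ φ x ≠ 0 := fun h => hx ((hbad x).1 h)
    have hdetmap : (MA.map (Polynomial.eval₂RingHom φ x)).det = DA.eval₂ φ x :=
      ((Polynomial.eval₂RingHom φ x).map_det MA).symm
    rw [sum_nondeg ψ hψ h2 _ _ _ (by rw [← transpose_map, hMAs]) (by rw [hdetmap]; exact hd0) ht]
    have hN' : Polynomial.eval₂RingHom φ x NA = squareNum _ _ _ :=
      map_squareNum (Polynomial.eval₂RingHom φ x) c0A lA MA
    simp only [squareNum, hdetmap] at hN'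
    rw [hdetmap, ← hN', Polynomial.coe_eval₂RingHom]
  case sq =>
    intro x hx
    obtain ⟨r, hr, rfl⟩ := Finset.mem_image.1 hx
    obtain ⟨hT, hS, hcard, hTA, hSA, hcA⟩ := hnf r hr
    rw [hinvρ r (hSq hr)]
    refine ⟨hcard, fun t ht => ?_⟩
    choose TA hTA' using fun j => exists_lift_of_coeffs A (T r j) (hTA j)
    choose SA hSA' using fun j => exists_lift_of_coeffs A (S r j) (hSA j)
    have hb := map_root_fibre c0A lA MA hc hl hM (liftElt A r) (hlift r (hPts r (hPR (hSq hr))))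
    show ∑ z : τ → F, _ = _
    simp_rw [show ρ r = φ (liftElt A r) from rfl, fibre_at_root]
    rw [sum_normal φ ψ t _ TA SA (U r) (liftElt A (cc r)) ?_ ?_, sum_squares, mul_assoc]
    · apply val_injective A
      rw [map_bind₁, funext hTA', hb, hT]
      simp [hlift _ hcA]
    · intro j
      apply val_injective A
      rw [map_bind₁, funext hTA', hSA', hS, map_X]
  case zero =>
    intro x hx hxs t ht
    obtain ⟨r, hr, rfl⟩ := Finset.mem_image.1 hx
    obtain ⟨v, α, hα, hid, hvA, haA, haiA⟩ :=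
      hshift r hr fun h => hxs (Finset.mem_image_of_mem _ h)
    have hb := map_root_fibre c0A lA MA hc hl hM (liftElt A r) (hlift r (hPts r (hPR hr)))
    obtain ⟨vA, αA, hαA, hidA⟩ := shiftData_lift A
      (quadPoly (c0A.eval (liftElt A r)) (fun j => (lA j).eval (liftElt A r))
        (MA.map (Polynomial.eval (liftElt A r)))) v α hα hvA haA haiA (by rw [hb]; exact hid)
    show ∑ z : τ → F, _ = _
    simp_rw [show ρ r = φ (liftElt A r) from rfl, fibre_at_root]
    exact sum_shift_eq_zero φ ψ hψ ht _ vA αA (hαA.map φ).ne_zero hidA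
  case ne =>
    intro h
    refine map_liftElt_ne_zero φ (sub_ne_zero.2 hy) (sub_mem hy0A hy1A) hyinv ?_
    rw [show liftElt A (y0 - y1) = liftElt A y0 - liftElt A y1 from Subtype.ext (by
      show (liftElt A (y0 - y1) : ℂ) = (liftElt A y0 : ℂ) - (liftElt A y1 : ℂ)
      rw [hlift _ (sub_mem hy0A hy1A), hlift _ hy0A, hlift _ hy1A]), map_sub, sub_eq_zero]
    exact h
  case c1 =>
    intro x hx
    obtain ⟨r, hr, rfl⟩ := Finset.mem_image.1 hx
    rw [hinvρ r (hSq hr)]
    obtain ⟨hs1, hs2⟩ := hsqc r hr y1 (Or.inr rfl)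
    rw [show φ (liftElt A (cc r)) - ρ y1 = φ (liftElt A (cc r) - liftElt A y1) from
      (map_sub φ _ _).symm]
    refine qchar_map_eq_one φ (sub_ne_zero.2 (hy1 r hr)) hs1 hs2 _ ?_
    show (liftElt A (cc r) : ℂ) - (liftElt A y1 : ℂ) = _
    rw [hlift _ (hnf r hr).2.2.2.2.2, hlift _ hy1A]
  case c0 =>
    intro x hx hne0
    obtain ⟨r, hr, rfl⟩ := Finset.mem_image.1 hx
    rw [hinvρ r (hSq hr)] at hne0 ⊢
    obtain ⟨hs1, hs2⟩ := hsqc r hr y0 (Or.inl rfl)
    have hne' : cc r ≠ y0 := fun h => hne0 (by rw [h])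
    rw [show φ (liftElt A (cc r)) - ρ y0 = φ (liftElt A (cc r) - liftElt A y0) from
      (map_sub φ _ _).symm]
    refine qchar_map_eq_one φ (sub_ne_zero.2 hne') hs1 hs2 _ ?_
    show (liftElt A (cc r) : ℂ) - (liftElt A y0 : ℂ) = _
    rw [hlift _ (hnf r hr).2.2.2.2.2, hlift _ hy0A]
  case eps =>
    intro x hx hxy
    have main : ∀ y' : ℂ, y' = y0 ∨ y' = y1 → y' ∈ A →
        (squareNum c0 l M - Polynomial.C y' * (Polynomial.C 4 * M.det)).roots.toFinset ⊆ Pts →
        dd x = ρ y' → ε x = 1 := by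
      intro y' hy' hy'A hsub hval
      have hd0 : DA.eval₂ φ x ≠ 0 := fun h => hx ((hbad x).1 h)
      have hPA : (NA - Polynomial.C (liftElt A y') * (Polynomial.C 4 * DA)).map A.val.toRingHom
          = squareNum c0 l M - Polynomial.C y' * (Polynomial.C 4 * M.det) := by
        rw [Polynomial.map_sub, Polynomial.map_mul, Polynomial.map_mul, Polynomial.map_C,
          Polynomial.map_C, hNmap, hDmap, map_ofNat]
        simp [hlift _ hy'A]
      have h0 : (NA - Polynomial.C (liftElt A y') * (Polynomial.C 4 * DA)).eval₂ φ x = 0 := by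
        simp only [Polynomial.eval₂_sub, Polynomial.eval₂_mul, Polynomial.eval₂_C, Polynomial.eval₂_ofNat, map_ofNat]
        rw [sub_eq_zero]
        exact (div_eq_iff (mul_ne_zero h4 hd0)).1 hval
      obtain ⟨r, hr, hrx⟩ := Finset.mem_image.1 ((eval₂_eq_zero_iff φ _ hPA (hne y')
        (fun r hr => hPts r (hsub hr)) (hlead y' hy').1 (hlead y' hy').2 x).1 h0)
      have hDr : M.det.eval r ≠ 0 := fun h => hx (Finset.mem_image.2
        ⟨r, Multiset.mem_toFinset.2 ((Polynomial.mem_roots hdet).2 h), hrx⟩)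
      have hq1 : qchar F (DA.eval₂ φ x) = 1 := by
        rw [← hrx, Polynomial.eval₂_at_apply]
        refine qchar_map_eq_one φ hDr (hsqd r (hsub hr)).1 (hsqd r (hsub hr)).2 _ ?_
        rw [← hDmap]
        conv_rhs => rw [← hlift r (hPts r (hsub hr))]
        exact (Polynomial.eval_map_apply A.val.toRingHom (liftElt A r)).symm
      rw [qchar_int] at hq1
      exact_mod_cast hq1
    rcases hxy with h | h
    · exact main y0 (Or.inl rfl) hy0A hP0 h
    · exact main y1 (Or.inr rfl) hy1A hP1 h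
  case count =>
    rw [card_fibre φ h4 DA NA hdet hDmap hNmap hy0A (hne y0) Pts hPR hP0 hPts hinj
        (hlead y0 (Or.inl rfl)).1 (hlead y0 (Or.inl rfl)).2 hbad,
      card_fibre φ h4 DA NA hdet hDmap hNmap hy1A (hne y1) Pts hPR hP1 hPts hinj
        (hlead y1 (Or.inr rfl)).1 (hlead y1 (Or.inr rfl)).2 hbad]
    have b0 : goodCount (squareNum c0 l M) M.det y0 ≤ Pts.card :=
      (Finset.card_filter_le _ _).trans (Finset.card_le_card hP0)
    have b1 : goodCount (squareNum c0 l M) M.det y1 ≤ Pts.card :=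
      (Finset.card_filter_le _ _).trans (Finset.card_le_card hP1)
    have b2 : (M.det.roots.toFinset.image ρ).card ≤ Pts.card :=
      Finset.card_image_le.trans (Finset.card_le_card hPR)
    omega
  rwa [card_fibre φ h4 DA NA hdet hDmap hNmap hy0A (hne y0) Pts hPR hP0 hPts hinj
      (hlead y0 (Or.inl rfl)).1 (hlead y0 (Or.inl rfl)).2 hbad,
    card_fibre φ h4 DA NA hdet hDmap hNmap hy1A (hne y1) Pts hPR hP1 hPts hinj
      (hlead y1 (Or.inr rfl)).1 (hlead y1 (Or.inr rfl)).2 hbad] at key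

end Vale.Agent.P295
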