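import Mathlib
import Vale.Agent.P295.Defs

/-!
P295: polynomials of degree at most two in `z` over a ring, affine substitutions, and completing
the square.
-/

namespace Vale.Agent.P295

open MvPolynomial Matrix

variable {τ : Type} [Fintype τ]

/-- `c + l · z + z · M z`. -/
noncomputable def quadPoly {R : Type*} [CommRing R] (c : R) (l : τ → R) (M : Matrix τ τ R) :
    MvPolynomial τ R :=
  C c + ∑ j, C (l j) * X j + ∑ j, ∑ k, C (M j k) * X j * X k

lemma eval₂_quadPoly {R S : Type*} [CommRing R] [CommRing S] (φ : R →+* S) (z : τ → S) (c : R)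
    (l : τ → R) (M : Matrix τ τ R) :
    eval₂ φ z (quadPoly c l M) = φ c + (φ ∘ l) ⬝ᵥ z + z ⬝ᵥ M.map φ *ᵥ z := by
  simp only [quadPoly, eval₂_add, eval₂_C, eval₂_sum, eval₂_mul, eval₂_X, dotProduct, mulVec,
    Finset.mul_sum, Function.comp_apply, Matrix.map_apply]
  congr 1
  exact Finset.sum_congr rfl fun j _ => Finset.sum_congr rfl fun k _ => by ring

lemma map_quadPoly {R S : Type*} [CommRing R] [CommRing S] (φ : R →+* S) (c : R) (l : τ → R)
    (M : Matrix τ τ R) : map φ (quadPoly c l M) = quadPoly (φ c) (φ ∘ l) (M.map φ) := by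
  simp [quadPoly]

lemma quadPoly_add {R : Type*} [CommRing R] (c c' : R) (l l' : τ → R) (M M' : Matrix τ τ R) :
    quadPoly (c + c') (l + l') (M + M') = quadPoly c l M + quadPoly c' l' M' := by
  simp only [quadPoly, Pi.add_apply, Matrix.add_apply, C_add, add_mul, Finset.sum_add_distrib]
  ring

lemma exists_quadPoly [DecidableEq τ] {R : Type*} [CommRing R] {h : R} (h2 : h + h = 1)
    {B : MvPolynomial τ R} (hB : B.totalDegree ≤ 2) :
    ∃ (c : R) (l : τ → R) (M : Matrix τ τ R), Mᵀ = M ∧ B = quadPoly c l M := by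
  have key : ∀ s : Finset (τ →₀ ℕ), (∀ d ∈ s, d.degree ≤ 2) →
      ∃ (c : R) (l : τ → R) (M : Matrix τ τ R),
        ∑ d ∈ s, monomial d (B.coeff d) = quadPoly c l M := by
    intro s
    induction s using Finset.induction_on with
    | empty => exact fun _ => ⟨0, 0, 0, by simp [quadPoly]⟩
    | insert d s hd ih =>
      intro hs
      obtain ⟨c, l, M, hM⟩ := ih fun x hx => hs x (Finset.mem_insert_of_mem hx)
      obtain ⟨c', l', M', hM'⟩ : ∃ (c : R) (l : τ → R) (M : Matrix τ τ R),
          monomial d (B.coeff d) = quadPoly c l M := by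
        have hcard := hs d (Finset.mem_insert_self d s)
        have hsum : ∀ j, d j ≤ 2 := fun j =>
          le_trans (Finsupp.le_degree j d) hcard
        rcases Nat.lt_or_ge d.degree 2 with h1 | h1
        · rcases Nat.lt_or_ge d.degree 1 with h0 | h0
          · refine ⟨B.coeff d, 0, 0, ?_⟩
            rw [(Finsupp.degree_eq_zero_iff d).1 (by omega)]
            simp [quadPoly]
          · obtain ⟨j, rfl⟩ : d ∈ Set.range fun a => Finsupp.single a 1 := by
              rw [Finsupp.range_single_one]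
              exact (show d.degree = 1 by omega)
            refine ⟨0, Pi.single j (B.coeff (Finsupp.single j 1)), 0, ?_⟩
            simp [quadPoly, Pi.single_apply, apply_ite C, ite_mul, X, C_mul_monomial]
        · obtain ⟨j, hj⟩ : ∃ j, d j ≠ 0 := by
            by_contra hne
            push Not at hne
            have : d = 0 := Finsupp.ext hne
            simp [this] at h1
          obtain ⟨e, rfl⟩ : ∃ e, d = Finsupp.single j 1 + e :=
            ⟨d - Finsupp.single j 1, (add_tsub_cancel_of_le (Finsupp.single_le_iff.2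
              (Nat.one_le_iff_ne_zero.2 hj))).symm⟩
          rw [map_add, Finsupp.degree_single] at hcard h1
          obtain ⟨k, rfl⟩ : e ∈ Set.range fun a => Finsupp.single a 1 := by
            rw [Finsupp.range_single_one]
            exact (show e.degree = 1 by omega)
          refine ⟨0, 0, Matrix.single j k (B.coeff (Finsupp.single j 1 + Finsupp.single k 1)), ?_⟩
          simp [quadPoly, Matrix.single_apply, apply_ite C, ite_mul, ite_and, X, C_mul_monomial,
            monomial_mul]
      exact ⟨c' + c, l' + l, M' + M, by rw [Finset.sum_insert hd, quadPoly_add, hM, hM']⟩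
  obtain ⟨c, l, M, hM⟩ := key B.support fun d hd => le_trans (le_totalDegree hd) hB
  refine ⟨c, l, Matrix.of fun j k => h * (M j k + M k j), ?_, ?_⟩
  · refine Matrix.ext fun j k => ?_
    simp [add_comm]
  · rw [B.as_sum, hM]
    simp only [quadPoly, add_right_inj, Matrix.of_apply, C_mul, C_add, mul_add, add_mul,
      Finset.sum_add_distrib]
    conv_rhs => arg 2; rw [Finset.sum_comm]
    simp only [← Finset.sum_add_distrib]
    refine Finset.sum_congr rfl fun j _ => Finset.sum_congr rfl fun k _ => ?_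
    have hh : (C h + C h : MvPolynomial τ R) = 1 := by rw [← C_add, h2, C_1]
    linear_combination (-(C (M j k) * X j * X k : MvPolynomial τ R)) * hh

omit [Fintype τ] in
lemma mulVec_dot {S : Type*} [CommRing S] [Fintype τ] (M : Matrix τ τ S) (x y : τ → S) :
    x ⬝ᵥ M *ᵥ y = y ⬝ᵥ Mᵀ *ᵥ x := by
  rw [dotProduct_comm, mulVec_transpose, dotProduct_comm y, dotProduct_comm,
    ← dotProduct_mulVec, dotProduct_comm]

/-- Completing the square, without denominators. -/
lemma complete_square [DecidableEq τ] {S : Type*} [CommRing S] (c : S) (l z : τ → S)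
    (M : Matrix τ τ S) (hM : Mᵀ = M) :
    4 * M.det * M.det * (c + l ⬝ᵥ z + z ⬝ᵥ M *ᵥ z)
      = ((2 * M.det) • z + M.adjugate *ᵥ l) ⬝ᵥ M *ᵥ ((2 * M.det) • z + M.adjugate *ᵥ l)
        + M.det * (4 * M.det * c - l ⬝ᵥ M.adjugate *ᵥ l) := by
  have h1 : M *ᵥ (M.adjugate *ᵥ l) = M.det • l := by
    rw [mulVec_mulVec, mul_adjugate, smul_mulVec, one_mulVec]
  simp only [mulVec_add, mulVec_smul, h1, dotProduct_add, add_dotProduct, smul_dotProduct,
    dotProduct_smul, smul_eq_mul]
  rw [mulVec_dot M (M.adjugate *ᵥ l) z, hM, h1, dotProduct_smul, smul_eq_mul,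
    dotProduct_comm z l, dotProduct_comm (M.adjugate *ᵥ l) l]
  ring

/-- Substituting `z ↦ P z + s`. -/
noncomputable def affSub {R : Type*} [CommRing R] (P : Matrix τ τ R) (s : τ → R) :
    MvPolynomial τ R →ₐ[R] MvPolynomial τ R :=
  aeval fun j => (∑ k, C (P j k) * X k) + C (s j)

lemma affSub_quadPoly {R : Type*} [CommRing R] (c : R) (l : τ → R) (M P : Matrix τ τ R)
    (hM : Mᵀ = M) (s : τ → R) :
    affSub P s (quadPoly c l M)
      = quadPoly (c + l ⬝ᵥ s + s ⬝ᵥ M *ᵥ s) (Pᵀ *ᵥ (l + (2 : R) • (M *ᵥ s))) (Pᵀ * M * P) := by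
  set φ : R →+* MvPolynomial τ R := C with hφ
  set z : τ → MvPolynomial τ R := X with hz
  have h1 : (fun j => (∑ k, C (P j k) * X k) + C (s j) : τ → MvPolynomial τ R)
      = P.map φ *ᵥ z + φ ∘ s := by
    funext j
    simp [mulVec, dotProduct, hφ, hz]
  have h2 : ∀ g : MvPolynomial τ R, eval₂ φ z g = g := fun g => eval₂_eta g
  rw [affSub, aeval_def, MvPolynomial.algebraMap_eq, h1, ← hφ, eval₂_quadPoly,
    ← h2 (quadPoly _ _ _), eval₂_quadPoly]
  have e1 : φ (l ⬝ᵥ s) = (φ ∘ l) ⬝ᵥ (φ ∘ s) := φ.map_dotProduct l s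
  have e2 : φ (s ⬝ᵥ M *ᵥ s) = (φ ∘ s) ⬝ᵥ M.map φ *ᵥ (φ ∘ s) := by
    rw [φ.map_dotProduct]
    congr 1
    funext j
    exact φ.map_mulVec M s j
  have e3 : φ ∘ (Pᵀ *ᵥ (l + (2 : R) • (M *ᵥ s)))
      = (P.map φ)ᵀ *ᵥ (φ ∘ l + (2 : MvPolynomial τ R) • (M.map φ *ᵥ (φ ∘ s))) := by
    funext j
    rw [Function.comp_apply, φ.map_mulVec, transpose_map]
    congr 1
    funext k
    simp only [Function.comp_apply, Pi.add_apply, Pi.smul_apply, map_add, smul_eq_mul, map_mul,
      φ.map_mulVec M s k]
    rw [hφ, map_ofNat]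
  have e4 : (Pᵀ * M * P).map φ = (P.map φ)ᵀ * M.map φ * P.map φ := by
    rw [Matrix.map_mul, Matrix.map_mul, transpose_map]
  have hMφ : (M.map φ)ᵀ = M.map φ := by rw [← transpose_map, hM]
  rw [map_add, map_add, e1, e2, e3, e4]
  simp only [mulVec_add, mulVec_smul, dotProduct_add, add_dotProduct, smul_dotProduct,
    smul_eq_mul, ← mulVec_mulVec, mulVec_transpose, ← dotProduct_mulVec]
  rw [show z ⬝ᵥ ((M.map φ *ᵥ (P.map φ *ᵥ z)) ᵥ* P.map φ)
      = (P.map φ *ᵥ z) ⬝ᵥ (M.map φ *ᵥ (P.map φ *ᵥ z)) by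
    rw [dotProduct_comm, ← dotProduct_mulVec, dotProduct_comm],
    mulVec_dot (M.map φ) (φ ∘ s) (P.map φ *ᵥ z), hMφ,
    dotProduct_comm (P.map φ *ᵥ z) (M.map φ *ᵥ (φ ∘ s))]
  ring

lemma affSub_inverse [DecidableEq τ] {R : Type*} [CommRing R] (P : Matrix τ τ R) (s : τ → R)
    (hP : IsUnit P.det) :
    (affSub P s).comp (affSub P⁻¹ (-(P⁻¹ *ᵥ s))) = AlgHom.id _ _ ∧
      (affSub P⁻¹ (-(P⁻¹ *ᵥ s))).comp (affSub P s) = AlgHom.id _ _ := by
  have key : ∀ (P Q : Matrix τ τ R) (s t : τ → R), Q * P = 1 → Q *ᵥ s + t = 0 →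
      (affSub P s).comp (affSub Q t) = AlgHom.id _ _ := by
    intro P Q s t hQP hst
    refine algHom_ext fun j => ?_
    simp only [AlgHom.comp_apply, AlgHom.id_apply, affSub, aeval_X, map_add, map_sum, map_mul,
      aeval_C, MvPolynomial.algebraMap_eq, mul_add, Finset.mul_sum, Finset.sum_add_distrib]
    simp only [← mul_assoc, ← C_mul]
    rw [Finset.sum_comm, add_assoc, ← map_sum, ← C_add]
    have h3 : (∑ k, Q j k * s k) + t j = 0 := congrFun hst j
    rw [h3, C_0, add_zero]
    simp only [← Finset.sum_mul, ← map_sum]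
    rw [Finset.sum_eq_single j]
    · have : (∑ k, Q j k * P k j) = 1 := by
        simpa [Matrix.mul_apply] using congrFun (congrFun hQP j) j
      rw [this, C_1, one_mul]
    · intro k _ hk
      have : (∑ i, Q j i * P i k) = 0 := by
        simpa [Matrix.mul_apply, Matrix.one_apply, Ne.symm hk] using congrFun (congrFun hQP j) k
      rw [this, C_0, zero_mul]
    · simp
  refine ⟨key _ _ _ _ (nonsing_inv_mul _ hP) (by simp), key _ _ _ _ (mul_nonsing_inv _ hP) ?_⟩
  rw [mulVec_neg, mulVec_mulVec, mul_nonsing_inv _ hP, one_mulVec, neg_add_cancel]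

/-- `B(x, z)` as a polynomial in all the variables, `x` being `none`. -/
noncomputable def body {R : Type*} [CommRing R] :
    MvPolynomial τ (Polynomial R) →+* MvPolynomial (Option τ) R :=
  eval₂Hom (Polynomial.eval₂RingHom C (X none)) fun l => X (some l)

omit [Fintype τ] in
lemma map_body {R S : Type*} [CommRing R] [CommRing S] (φ : R →+* S)
    (B : MvPolynomial τ (Polynomial R)) :
    map φ (body B) = body (map (Polynomial.mapRingHom φ) B) := by
  refine DFunLike.congr_fun (f := (map φ).comp body)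
    (g := body.comp (map (Polynomial.mapRingHom φ))) (MvPolynomial.ringHom_ext (fun p => ?_)
      fun l => ?_) B
  · induction p using Polynomial.induction_on' with
    | add p q hp hq => simp only [map_add, hp, hq]
    | monomial k c => simp [body, Polynomial.eval₂_monomial]
  · simp [body]

omit [Fintype τ] in
lemma eval₂_body {R S : Type*} [CommRing R] [CommRing S] (φ : R →+* S) (p : Option τ → S)
    (B : MvPolynomial τ (Polynomial R)) :
    eval₂ φ p (body B) = eval₂ (Polynomial.eval₂RingHom φ (p none)) (fun l => p (some l)) B := by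
  refine DFunLike.congr_fun (f := (eval₂Hom φ p).comp body)
    (g := eval₂Hom (Polynomial.eval₂RingHom φ (p none)) fun l => p (some l))
    (MvPolynomial.ringHom_ext (fun q => ?_) fun l => ?_) B
  · induction q using Polynomial.induction_on' with
    | add q q' hq hq' => simp only [map_add, hq, hq']
    | monomial k c => simp [body, Polynomial.eval₂_monomial]
  · simp [body]

/-- A change of the `z` variables acting on all variables. -/
noncomputable def bodyAut (θ : MvPolynomial τ (Polynomial ℂ) →ₐ[Polynomial ℂ]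
    MvPolynomial τ (Polynomial ℂ)) :
    MvPolynomial (Option τ) ℂ →ₐ[ℂ] MvPolynomial (Option τ) ℂ :=
  aeval fun o => o.elim (X none) fun l => body (θ (X l))

omit [Fintype τ] in
lemma bodyAut_body (θ : MvPolynomial τ (Polynomial ℂ) →ₐ[Polynomial ℂ]
    MvPolynomial τ (Polynomial ℂ)) (B : MvPolynomial τ (Polynomial ℂ)) :
    bodyAut θ (body B) = body (θ B) := by
  refine DFunLike.congr_fun (f := (bodyAut θ).toRingHom.comp body)
    (g := body.comp θ.toRingHom) (MvPolynomial.ringHom_ext (fun q => ?_) fun l => ?_) B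
  · rw [RingHom.comp_apply, RingHom.comp_apply,
      show θ.toRingHom (C q) = C q from θ.commutes q]
    induction q using Polynomial.induction_on' with
    | add q q' hq hq' => simp only [map_add, hq, hq']
    | monomial k c => simp [body, bodyAut, Polynomial.eval₂_monomial]
  · simp [body, bodyAut]

omit [Fintype τ] in
lemma bodyAut_comp (θ η : MvPolynomial τ (Polynomial ℂ) →ₐ[Polynomial ℂ]
    MvPolynomial τ (Polynomial ℂ)) (h : θ.comp η = AlgHom.id _ _) :
    (bodyAut θ).comp (bodyAut η) = AlgHom.id _ _ := by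
  refine algHom_ext fun o => ?_
  rcases o with _ | l
  · simp [bodyAut]
  · rw [AlgHom.comp_apply, show bodyAut η (X (some l)) = body (η (X l)) by simp [bodyAut],
      bodyAut_body, ← AlgHom.comp_apply, h]
    simp [body]

/-- An invertible affine change of the `z` variables as an automorphism. -/
noncomputable def affEquiv [DecidableEq τ] (P : Matrix τ τ (Polynomial ℂ))
    (s : τ → Polynomial ℂ) (hP : IsUnit P.det) :
    MvPolynomial (Option τ) ℂ ≃ₐ[ℂ] MvPolynomial (Option τ) ℂ :=
  AlgEquiv.ofAlgHom (bodyAut (affSub P s)) (bodyAut (affSub P⁻¹ (-(P⁻¹ *ᵥ s))))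
    (bodyAut_comp _ _ (affSub_inverse P s hP).1) (bodyAut_comp _ _ (affSub_inverse P s hP).2)

end Vale.Agent.P295
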