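import Vale.Agent.P295.Gauss
import Vale.Agent.P295.Quad

/-!
P295: the character sum of a nondegenerate quadratic polynomial over a finite field.
-/

namespace Vale.Agent.P295

open Matrix Finset

variable {τ : Type} [Fintype τ] [DecidableEq τ]

/-- A nondegenerate symmetric matrix is congruent to a diagonal one. -/
lemma exists_diagonal {F : Type*} [Field F] [Invertible (2 : F)] (M : Matrix τ τ F) (hM : Mᵀ = M)
    (hdet : M.det ≠ 0) :
    ∃ (P : Matrix τ τ F) (w : τ → F), P.det ≠ 0 ∧ (∀ j, w j ≠ 0) ∧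
      M = Pᵀ * Matrix.diagonal w * P := by
  set B : QuadraticForm F (τ → F) := M.toQuadraticForm' with hB
  have hBz : ∀ z, B z = z ⬝ᵥ M *ᵥ z := fun z => by
    simp [hB, toQuadraticForm', LinearMap.BilinMap.toQuadraticMap_apply, toLinearMap₂'_apply']
  have hsym : ∀ x y : τ → F, x ⬝ᵥ M *ᵥ y = y ⬝ᵥ M *ᵥ x := fun x y => by
    rw [mulVec_dot M x y, hM]
  have hass : ∀ x y, QuadraticMap.associated B x y = x ⬝ᵥ M *ᵥ y := fun x y => by
    rw [QuadraticMap.associated_apply, hBz, hBz, hBz]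
    simp only [mulVec_add, dotProduct_add, add_dotProduct, hsym y x]
    rw [show x ⬝ᵥ M *ᵥ x + x ⬝ᵥ M *ᵥ y + (x ⬝ᵥ M *ᵥ y + y ⬝ᵥ M *ᵥ y) - x ⬝ᵥ M *ᵥ x
      - y ⬝ᵥ M *ᵥ y = 2 * (x ⬝ᵥ M *ᵥ y) by ring]
    simp [(isUnit_of_invertible (2 : F)).ne_zero]
  have hsep : LinearMap.SeparatingLeft (QuadraticMap.associated B) := fun x hx => by
    refine eq_zero_of_vecMul_eq_zero hdet (funext fun j => ?_)
    have := hx (Pi.single j 1)
    rw [hass, dotProduct_mulVec, dotProduct_single, mul_one] at this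
    exact this
  obtain ⟨w, ⟨Φ⟩⟩ := QuadraticForm.equivalent_weightedSumSquares_units_of_nondegenerate' B hsep
  let e : τ ≃ Fin (Module.finrank F (τ → F)) :=
    (Fintype.equivFin τ).trans (finCongr (Module.finrank_pi F).symm)
  let L : (τ → F) ≃ₗ[F] (τ → F) := Φ.toLinearEquiv.trans (LinearEquiv.funCongrLeft F F e)
  set P := LinearMap.toMatrix' L.toLinearMap with hP
  have hPz : ∀ z, P *ᵥ z = L z := fun z => by
    rw [hP, LinearMap.toMatrix'_mulVec]
    rfl
  have hPdet : P.det ≠ 0 := by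
    rw [hP, LinearMap.det_toMatrix']
    exact (LinearEquiv.isUnit_det' L).ne_zero
  refine ⟨P, fun j => (w (e j) : F), hPdet, fun j => (w (e j)).ne_zero, ?_⟩
  set D := Pᵀ * Matrix.diagonal (fun j => (w (e j) : F)) * P with hD
  have hDsym : Dᵀ = D := by
    rw [hD, transpose_mul, transpose_mul, transpose_transpose, diagonal_transpose,
      Matrix.mul_assoc]
  have hq : ∀ z, z ⬝ᵥ M *ᵥ z = z ⬝ᵥ D *ᵥ z := by
    intro z
    rw [← hBz, ← Φ.map_app z, QuadraticMap.weightedSumSquares_apply, ← e.sum_comp, hD,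
      ← mulVec_mulVec, ← mulVec_mulVec, dotProduct_mulVec, vecMul_transpose, hPz]
    refine Finset.sum_congr rfl fun j _ => ?_
    rw [mulVec_diagonal, Units.smul_def, smul_eq_mul]
    show _ = Φ z (e j) * (_ * Φ z (e j))
    ring
  have hDsym' : ∀ x y : τ → F, x ⬝ᵥ D *ᵥ y = y ⬝ᵥ D *ᵥ x := fun x y => by
    rw [mulVec_dot D x y, hDsym]
  refine Matrix.ext fun i j => ?_
  have h2 : (2 : F) ≠ 0 := (isUnit_of_invertible 2).ne_zero
  have h := hq (Pi.single i 1 + Pi.single j 1)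
  simp only [mulVec_add, dotProduct_add, add_dotProduct, hsym (Pi.single j 1) (Pi.single i 1),
    hDsym' (Pi.single j 1) (Pi.single i 1), hq (Pi.single i 1), hq (Pi.single j 1)] at h
  have h3 : Pi.single i 1 ⬝ᵥ M *ᵥ Pi.single j 1 = Pi.single i 1 ⬝ᵥ D *ᵥ Pi.single j 1 :=
    mul_left_cancel₀ h2 (by linear_combination h)
  simpa using h3

variable {F : Type*} [Field F] [Fintype F] [DecidableEq F]

lemma sum_weighted (ψ : AddChar F ℂ) (hψ : ψ.IsPrimitive) (h2 : (2 : F) ≠ 0) (w : τ → F)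
    (hw : ∀ j, w j ≠ 0) {t : F} (ht : t ≠ 0) :
    ∑ y : τ → F, ψ (t * ∑ j, w j * y j ^ 2)
      = qchar F (∏ j, w j) * sqSum ψ t ^ Fintype.card τ := by
  have h : ∀ y : τ → F, ψ (t * ∑ j, w j * y j ^ 2) = ∏ j, ψ (t * w j * y j ^ 2) := by
    intro y
    rw [Finset.mul_sum]
    induction (univ : Finset τ) using Finset.induction_on with
    | empty => simp
    | insert a s ha ih =>
      rw [Finset.sum_insert ha, Finset.prod_insert ha, AddChar.map_add_eq_mul, ih, mul_assoc]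
  rw [Finset.sum_congr rfl fun y _ => h y,
    ← Fintype.prod_sum (fun j (x : F) => ψ (t * w j * x ^ 2)), map_prod, ← Finset.card_univ,
    ← Finset.prod_const, ← Finset.prod_mul_distrib]
  refine Finset.prod_congr rfl fun j _ => ?_
  show sqSum ψ (t * w j) = _
  rw [sqSum_eq ψ hψ h2 (mul_ne_zero ht (hw j)), sqSum_eq ψ hψ h2 ht, map_mul]
  ring

/-- The character sum of a nondegenerate quadratic polynomial. -/
lemma sum_nondeg (ψ : AddChar F ℂ) (hψ : ψ.IsPrimitive) (h2 : (2 : F) ≠ 0) (c : F) (l : τ → F)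
    (M : Matrix τ τ F) (hM : Mᵀ = M) (hdet : M.det ≠ 0) {t : F} (ht : t ≠ 0) :
    ∑ z : τ → F, ψ (t * (c + l ⬝ᵥ z + z ⬝ᵥ M *ᵥ z))
      = ψ (t * ((4 * M.det * c - l ⬝ᵥ M.adjugate *ᵥ l) / (4 * M.det)))
        * ((quadraticChar F M.det : ℤ) : ℂ) * sqSum ψ t ^ Fintype.card τ := by
  let := invertibleOfNonzero h2
  obtain ⟨P, w, hP, hw, hMP⟩ := exists_diagonal M hM hdet
  set d := (4 * M.det * c - l ⬝ᵥ M.adjugate *ᵥ l) / (4 * M.det) with hd
  set v := (2 * M.det)⁻¹ • (M.adjugate *ᵥ l) with hv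
  have h4 : (4 : F) ≠ 0 := by
    rw [show (4 : F) = 2 * 2 by norm_num]
    exact mul_ne_zero h2 h2
  have key : ∀ z, c + l ⬝ᵥ z + z ⬝ᵥ M *ᵥ z
      = ∑ j, w j * (P *ᵥ (z + v)) j ^ 2 + d := by
    intro z
    have h := complete_square c l z M hM
    have e : (2 * M.det) • z + M.adjugate *ᵥ l = (2 * M.det) • (z + v) := by
      rw [hv, smul_add, smul_smul, mul_inv_cancel₀ (mul_ne_zero h2 hdet), one_smul]
    rw [e, mulVec_smul, dotProduct_smul, smul_dotProduct, smul_eq_mul, smul_eq_mul] at h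
    have e2 : (z + v) ⬝ᵥ M *ᵥ (z + v) = ∑ j, w j * (P *ᵥ (z + v)) j ^ 2 := by
      conv_lhs => rw [hMP, ← mulVec_mulVec, ← mulVec_mulVec, dotProduct_mulVec, vecMul_transpose]
      exact Finset.sum_congr rfl fun j _ => by rw [mulVec_diagonal]; ring
    rw [← e2, hd, eq_comm, ← eq_sub_iff_add_eq']
    rw [div_eq_iff (mul_ne_zero h4 hdet)]
    refine mul_left_cancel₀ hdet ?_
    linear_combination -h
  simp_rw [key, mul_add, AddChar.map_add_eq_mul, ← Finset.sum_mul]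
  have hbij : Function.Bijective fun z : τ → F => P *ᵥ (z + v) :=
    (Finite.injective_iff_bijective.1 (mulVec_injective_iff_isUnit.2
      ((isUnit_iff_isUnit_det P).2 (isUnit_iff_ne_zero.2 hP)))).comp (Equiv.addRight v).bijective
  rw [hbij.sum_comp fun y => ψ (t * ∑ j, w j * y j ^ 2), sum_weighted ψ hψ h2 w hw ht]
  have hdetM : M.det = P.det ^ 2 * ∏ j, w j := by
    rw [hMP, det_mul, det_mul, det_transpose, det_diagonal]
    ring
  rw [← qchar_int, hdetM, map_mul (qchar F), qchar_sq_one hP, one_mul]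
  ring

end Vale.Agent.P295
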