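import Mathlib

/-!
P295: a rational function `N / (4 D)`, all of whose fibres have at least as many points off the
zeros of `D` as a general fibre, is linear, and then `D` is constant.
-/

namespace Vale.Agent.P295

open Polynomial

/-- Number of solutions of `N = 4 y D` off the zeros of `D`. -/
noncomputable def goodCount (N D : ℂ[X]) (y : ℂ) : ℕ :=
  ((N - C y * (C 4 * D)).roots.toFinset.filter fun x => ¬ D.IsRoot x).card

lemma reduced_fraction (N E : ℂ[X]) (hE : E ≠ 0) :
    ∃ G P R : ℂ[X], G ≠ 0 ∧ N = P * G ∧ E = R * G ∧ IsCoprime P R := by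
  classical
  have hg : EuclideanDomain.gcd N E ≠ 0 := fun h => hE (EuclideanDomain.gcd_eq_zero_iff.1 h).2
  obtain ⟨P, hP⟩ := EuclideanDomain.gcd_dvd_left N E
  obtain ⟨R, hR⟩ := EuclideanDomain.gcd_dvd_right N E
  refine ⟨_, P, R, hg, hP.trans (mul_comm _ _), hR.trans (mul_comm _ _), ?_⟩
  refine ⟨EuclideanDomain.gcdA N E, EuclideanDomain.gcdB N E, mul_left_cancel₀ hg ?_⟩
  have h : EuclideanDomain.gcd N E * P * EuclideanDomain.gcdA N E
      + EuclideanDomain.gcd N E * R * EuclideanDomain.gcdB N E = EuclideanDomain.gcd N E := by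
    rw [← hP, ← hR]
    exact (EuclideanDomain.gcd_eq_gcd_ab N E).symm
  linear_combination h

lemma eval_ne_zero_of_fibre {P R : ℂ[X]} (hco : IsCoprime P R) (x y : ℂ)
    (hx : (P - C y * R).IsRoot x) : R.eval x ≠ 0 := by
  intro hR0
  obtain ⟨u, v, huv⟩ := hco
  have := congrArg (eval x) huv
  simp only [IsRoot, eval_sub, eval_mul, eval_C, hR0, mul_zero, sub_zero] at hx
  simp [hx, hR0] at this

lemma goodCount_eq {N D P R G : ℂ[X]} (hG : G ≠ 0) (hN : N = P * G)
    (hER : C 4 * D = R * G) (y : ℂ) (hQ0 : P - C y * R ≠ 0) :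
    goodCount N D y = ((P - C y * R).roots.toFinset.filter fun x => ¬ D.IsRoot x).card := by
  rw [goodCount, show N - C y * (C 4 * D) = (P - C y * R) * G by rw [hN, hER]; ring]
  refine congrArg Finset.card (Finset.ext fun x => ?_)
  have hDroot : G.eval x = 0 → D.IsRoot x := fun hg => by
    have := congrArg (eval x) hER
    simp only [eval_mul, eval_C, hg, mul_zero] at this
    exact (mul_eq_zero.1 this).resolve_left (by norm_num)
  rw [Finset.mem_filter, Finset.mem_filter, Multiset.mem_toFinset, Multiset.mem_toFinset,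
    mem_roots (mul_ne_zero hQ0 hG), mem_roots hQ0, root_mul]
  exact ⟨fun ⟨h1, h2⟩ => ⟨h1.resolve_right fun hg => h2 (hDroot hg), h2⟩,
    fun ⟨h1, h2⟩ => ⟨Or.inl h1, h2⟩⟩

lemma wronskian_ne_zero {P R : ℂ[X]} (hco : IsCoprime P R) (hR : R ≠ 0)
    (he1 : 1 ≤ max P.natDegree R.natDegree) : derivative P * R - P * derivative R ≠ 0 := by
  intro h0
  have hdvd : R ∣ derivative R := by
    refine (IsCoprime.symm hco).dvd_of_dvd_mul_left ⟨derivative P, ?_⟩
    rw [sub_eq_zero] at h0
    rw [← h0, mul_comm]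
  have hdR : R.natDegree = 0 := by
    by_contra hne0
    have hd0 : derivative R ≠ 0 := fun h1 => hne0 (derivative_eq_zero.1 h1)
    exact absurd (natDegree_le_of_dvd hdvd hd0) (not_le.2 (natDegree_derivative_lt hne0))
  obtain ⟨r, hr⟩ : ∃ r, R = C r := ⟨_, eq_C_of_natDegree_eq_zero hdR⟩
  rw [hr, derivative_C, mul_zero, sub_zero] at h0
  have hdP : P.natDegree = 0 := derivative_eq_zero.1
    ((mul_eq_zero.1 h0).resolve_right (hr ▸ hR))
  omega

lemma wronskian_roots_le {P R : ℂ[X]} (hco : IsCoprime P R) (hR : R ≠ 0)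
    (hW0 : derivative P * R - P * derivative R ≠ 0)
    (hWR : ∀ x, (derivative P * R - P * derivative R).IsRoot x → R.IsRoot x) :
    (derivative P * R - P * derivative R).roots ≤ R.roots := by
  set W := derivative P * R - P * derivative R with hW
  refine Multiset.le_iff_count.2 fun x => ?_
  rw [count_roots, count_roots]
  by_contra hlt
  rw [not_le] at hlt
  have hxW : W.IsRoot x := (rootMultiplicity_pos hW0).1 (by omega)
  have hxR : R.IsRoot x := hWR x hxW
  obtain ⟨R1, hR1, hnd⟩ := exists_eq_pow_rootMultiplicity_mul_and_not_dvd R hR x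
  obtain ⟨k, hk⟩ : ∃ k, R.rootMultiplicity x = k + 1 :=
    ⟨_, (Nat.succ_pred_eq_of_pos ((rootMultiplicity_pos hR).2 hxR)).symm⟩
  rw [hk] at hR1 hlt
  obtain ⟨W1, hW1⟩ : (X - C x) ^ (k + 1) ∣ W := (le_rootMultiplicity_iff hW0).1 hlt.le
  have hder : derivative R = C ((k + 1 : ℕ) : ℂ) * (X - C x) ^ k * R1
      + (X - C x) ^ (k + 1) * derivative R1 := by
    rw [hR1, derivative_mul, derivative_X_sub_C_pow, Nat.add_sub_cancel]
  have h1 : (X - C x) ^ k * ((X - C x) * W1) = (X - C x) ^ k *
      ((X - C x) * (derivative P * R1 - P * derivative R1)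
        - C ((k + 1 : ℕ) : ℂ) * (P * R1)) := by
    have h2 := hW1.symm
    rw [hW, hder] at h2
    conv_rhs at h2 => rw [hR1]
    rw [pow_succ] at h2
    linear_combination h2
  have h2 := congrArg (eval x) (mul_left_cancel₀ (pow_ne_zero _ (X_sub_C_ne_zero x)) h1)
  simp only [eval_mul, eval_sub, eval_X, eval_C, sub_self, zero_mul, zero_sub] at h2
  have hPx : P.eval x ≠ 0 := by
    intro h0
    exact eval_ne_zero_of_fibre hco x 0 (by simp [h0]) hxR
  have hR1x : R1.eval x ≠ 0 := fun h0 => hnd (dvd_iff_isRoot.2 h0)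
  exact mul_ne_zero (Nat.cast_ne_zero.2 (Nat.succ_ne_zero k)) (mul_ne_zero hPx hR1x)
    (neg_eq_zero.1 h2.symm)

lemma wronskian_natDegree {P R : ℂ[X]} {e : ℕ} (hPe : P.natDegree = e) (hRlt : R.natDegree < e)
    (hR : R ≠ 0) : e + R.natDegree - 1 ≤ (derivative P * R - P * derivative R).natDegree := by
  have he1 : 1 ≤ e := by omega
  set W := derivative P * R - P * derivative R with hW
  refine le_natDegree_of_ne_zero ?_
  have hc : W.coeff (e + R.natDegree - 1)
      = ((e : ℂ) - (R.natDegree : ℂ)) * (P.leadingCoeff * R.leadingCoeff) := by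
    have h1 : (derivative P).natDegree ≤ e - 1 :=
      (natDegree_derivative_le P).trans (by rw [hPe])
    have hd1 : (derivative P).coeff (e - 1) = P.leadingCoeff * e := by
      rw [coeff_derivative, leadingCoeff, hPe, Nat.sub_add_cancel he1,
        Nat.cast_sub he1, Nat.cast_one, sub_add_cancel]
    have e1 : (derivative P * R).coeff (e + R.natDegree - 1)
        = P.leadingCoeff * e * R.leadingCoeff := by
      rw [show e + R.natDegree - 1 = e - 1 + R.natDegree by omega,
        coeff_mul_add_eq_of_natDegree_le h1 le_rfl, hd1]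
      rfl
    have e2 : (P * derivative R).coeff (e + R.natDegree - 1)
        = P.leadingCoeff * (R.leadingCoeff * R.natDegree) := by
      by_cases h0 : R.natDegree = 0
      · rw [h0, derivative_of_natDegree_zero h0]
        simp
      · rw [show e + R.natDegree - 1 = e + (R.natDegree - 1) by omega,
          coeff_mul_add_eq_of_natDegree_le hPe.le (natDegree_derivative_le R),
          coeff_derivative, Nat.sub_add_cancel (Nat.pos_of_ne_zero h0),
          Nat.cast_sub (Nat.pos_of_ne_zero h0), Nat.cast_one, sub_add_cancel, leadingCoeff,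
          hPe]
        rfl
    rw [hW, coeff_sub, e1, e2]
    ring
  rw [hc]
  refine mul_ne_zero (sub_ne_zero.2 (Nat.cast_injective.ne (by omega)))
    (mul_ne_zero ?_ (leadingCoeff_ne_zero.2 hR))
  rw [leadingCoeff_ne_zero]
  rintro rfl
  simp at hPe
  omega

lemma card_generic {D P R : ℂ[X]} {y1 : ℂ} (hR : R ≠ 0)
    (hQ0 : P - C y1 * R ≠ 0) (hco : IsCoprime P R)
    (hy1l : ¬ y1 = P.coeff (max P.natDegree R.natDegree) / R.coeff (max P.natDegree R.natDegree))
    (hy1W : ∀ x, (derivative P * R - P * derivative R).IsRoot x ∨ D.IsRoot x →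
      ¬ P.eval x / R.eval x = y1) :
    max P.natDegree R.natDegree
      ≤ ((P - C y1 * R).roots.toFinset.filter fun x => ¬ D.IsRoot x).card := by
  have hval : ∀ x, (P - C y1 * R).IsRoot x → P.eval x / R.eval x = y1 := fun x hx => by
    rw [div_eq_iff (eval_ne_zero_of_fibre hco x y1 hx)]
    simpa [sub_eq_zero] using hx
  set e := max P.natDegree R.natDegree with he
  have hdeg : (P - C y1 * R).natDegree = e := by
    refine le_antisymm ((natDegree_sub_le _ _).trans
      (max_le (le_max_left _ _) ((natDegree_C_mul_le _ _).trans (le_max_right _ _))))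
      (le_natDegree_of_ne_zero ?_)
    rw [coeff_sub, coeff_C_mul]
    intro h0
    by_cases hRe : R.coeff e = 0
    · rw [hRe, mul_zero, sub_zero] at h0
      rcases max_choice P.natDegree R.natDegree with hm | hm
      · rw [he, hm] at h0
        have hP : P = 0 := leadingCoeff_eq_zero.1 h0
        rw [hP, natDegree_zero] at hm
        have hR0 : R.natDegree = 0 := by omega
        rw [he, hP, natDegree_zero, hR0, max_self] at hRe
        exact hR (leadingCoeff_eq_zero.1 (by rw [leadingCoeff, hR0]; exact hRe))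
      · rw [he, hm] at hRe
        exact hR (leadingCoeff_eq_zero.1 hRe)
    · exact hy1l (by rw [eq_div_iff hRe]; exact (sub_eq_zero.1 h0).symm)
  have hnodup : (P - C y1 * R).roots.Nodup := by
    rw [Multiset.nodup_iff_count_le_one]
    intro x
    by_contra hlt
    rw [count_roots, not_le, one_lt_rootMultiplicity_iff_isRoot hQ0] at hlt
    refine hy1W x (Or.inl ?_) (hval x hlt.1)
    obtain ⟨h1, h2⟩ := hlt
    simp only [IsRoot, eval_sub, eval_mul, eval_C, derivative_sub, derivative_C_mul] at h1 h2 ⊢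
    linear_combination (eval x R) * h2 - (eval x (derivative R)) * h1
  rw [Finset.filter_true_of_mem, Multiset.toFinset_card_of_nodup hnodup,
    ← (IsAlgClosed.splits _).natDegree_eq_card_roots, hdeg]
  intro x hx hDx
  exact hy1W x (Or.inr hDx) (hval x ((mem_roots hQ0).1 (Multiset.mem_toFinset.1 hx)))

lemma endgame_core {D P R : ℂ[X]} {e : ℕ} (hco : IsCoprime P R) (hR : R ≠ 0)
    (he : e = max P.natDegree R.natDegree) (he1 : 1 ≤ e)
    (hQ0 : ∀ y, P - C y * R ≠ 0)
    (hall : ∀ y, e ≤ ((P - C y * R).roots.toFinset.filter fun x => ¬ D.IsRoot x).card) :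
    D.natDegree = 0 ∧ R.natDegree = 0 ∧ P.natDegree = 1 := by
  set W := derivative P * R - P * derivative R with hW
  have hW0 : W ≠ 0 := wronskian_ne_zero hco hR (he ▸ he1)
  have hle : ∀ y, (P - C y * R).natDegree ≤ e := fun y => he ▸
    (natDegree_sub_le _ _).trans
      (max_le (le_max_left _ _) ((natDegree_C_mul_le _ _).trans (le_max_right _ _)))
  have hdegall : ∀ y, (P - C y * R).natDegree = e := fun y =>
    le_antisymm (hle y) (((hall y).trans (Finset.card_filter_le _ _)).trans
      ((Multiset.toFinset_card_le _).trans (card_roots' _)))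
  have hnodupall : ∀ y, (P - C y * R).roots.Nodup := fun y =>
    Multiset.toFinset_card_eq_card_iff_nodup.1 (le_antisymm (Multiset.toFinset_card_le _)
      (((card_roots' _).trans (hdegall y).le).trans ((hall y).trans (Finset.card_filter_le _ _))))
  have hRlt : R.natDegree < e := by
    by_contra hge
    have hReq : R.natDegree = e := le_antisymm (he ▸ le_max_right _ _) (by omega)
    have hlc : R.coeff e ≠ 0 := by rw [← hReq]; exact leadingCoeff_ne_zero.2 hR
    have h1 := hdegall (P.coeff e / R.coeff e)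
    have h2 : (P - C (P.coeff e / R.coeff e) * R).coeff e = 0 := by
      rw [coeff_sub, coeff_C_mul, div_mul_cancel₀ _ hlc, sub_self]
    exact leadingCoeff_ne_zero.2 (hQ0 _) (by rw [leadingCoeff, h1]; exact h2)
  have hWR : ∀ x, W.IsRoot x → R.IsRoot x := by
    intro x hx
    by_contra hR0
    set y := P.eval x / R.eval x with hy
    have h1 : (P - C y * R).IsRoot x := by
      simp [hy, div_mul_cancel₀ _ hR0]
    have h2 : (derivative (P - C y * R)).IsRoot x := by
      simp only [IsRoot, hW, eval_sub, eval_mul, eval_C, derivative_sub, derivative_C_mul]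
        at hx ⊢
      rw [hy, div_mul_eq_mul_div, sub_eq_zero, eq_div_iff hR0]
      linear_combination hx
    have h3 := Multiset.nodup_iff_count_le_one.1 (hnodupall y) x
    rw [count_roots] at h3
    exact absurd ((one_lt_rootMultiplicity_iff_isRoot (hQ0 y)).2 ⟨h1, h2⟩) (not_lt.2 h3)
  have hDR : ∀ x, D.IsRoot x → R.IsRoot x := by
    intro x hx
    by_contra hR0
    set y := P.eval x / R.eval x with hy
    have h1 : (P - C y * R).IsRoot x := by simp [hy, div_mul_cancel₀ _ hR0]
    have h2 : ((P - C y * R).roots.toFinset.filter fun x => ¬ D.IsRoot x).card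
        < (P - C y * R).roots.toFinset.card :=
      Finset.card_lt_card (Finset.filter_ssubset.2
        ⟨x, Multiset.mem_toFinset.2 ((mem_roots (hQ0 y)).2 h1), not_not.2 hx⟩)
    have h3 := (Multiset.toFinset_card_le _).trans ((card_roots' _).trans (hdegall y).le)
    have := hall y
    omega
  have hmult : W.roots ≤ R.roots := by
    exact wronskian_roots_le hco hR hW0 hWR
  have hPe : P.natDegree = e := by
    rcases max_choice P.natDegree R.natDegree with hm | hm
    · omega
    · omega
  have hWdeg : e + R.natDegree - 1 ≤ W.natDegree := by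
    exact wronskian_natDegree hPe hRlt hR
  have hbound : W.natDegree ≤ R.natDegree := by
    rw [(IsAlgClosed.splits W).natDegree_eq_card_roots,
      (IsAlgClosed.splits R).natDegree_eq_card_roots]
    exact Multiset.card_le_card hmult
  have he' : e = 1 := by omega
  have hR0 : R.natDegree = 0 := by omega
  have hRc : R = C (R.coeff 0) := eq_C_of_natDegree_eq_zero hR0
  have hr : R.coeff 0 ≠ 0 := fun h0 => hR (by rw [hRc, h0, C_0])
  refine ⟨?_, hR0, hPe.trans he'⟩
  by_contra hd
  obtain ⟨x, hx⟩ := IsAlgClosed.exists_root D fun h0 =>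
    hd (natDegree_eq_of_degree_eq_some h0)
  have := hDR x hx
  rw [hRc, IsRoot, eval_C] at this
  exact hr this

theorem fibre_endgame {N D : ℂ[X]} (hD : D ≠ 0) (Cs : Finset ℂ)
    (hne : ∀ y : ℂ, N - C y * (C 4 * D) ≠ 0)
    (h : ∀ y y1 : ℂ, y1 ∉ Cs → goodCount N D y1 ≤ goodCount N D y) :
    D.natDegree = 0 ∧ ∃ α β : ℂ, α ≠ 0 ∧ N = C 4 * D * (C α * X + C β) := by
  classical
  obtain ⟨G, P, R, hG, hN, hER, hco⟩ := reduced_fraction N (C 4 * D)
    (mul_ne_zero (by simp) hD)
  have hR : R ≠ 0 := by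
    rintro rfl
    exact mul_ne_zero (show (C 4 : ℂ[X]) ≠ 0 by simp) hD (by rw [hER, zero_mul])
  have hQ : ∀ y, N - C y * (C 4 * D) = (P - C y * R) * G := fun y => by rw [hN, hER]; ring
  have hQ0 : ∀ y, P - C y * R ≠ 0 := fun y h0 => hne y (by rw [hQ, h0, zero_mul])
  have hcount := fun y => goodCount_eq hG hN hER y (hQ0 y)
  set e := max P.natDegree R.natDegree with he
  set W := derivative P * R - P * derivative R with hW
  have he1 : 1 ≤ e := by
    by_contra hlt
    have hP0 : P = C (P.coeff 0) := eq_C_of_natDegree_eq_zero (by omega)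
    have hR0 : R = C (R.coeff 0) := eq_C_of_natDegree_eq_zero (by omega)
    refine hQ0 (P.coeff 0 / R.coeff 0) ?_
    have hr : R.coeff 0 ≠ 0 := fun h0 => hR (by rw [hR0, h0, C_0])
    rw [hP0, hR0]
    simp only [coeff_C_zero, ← C_mul, div_mul_cancel₀ _ hr, sub_self]
  have hW0 : W ≠ 0 := by
    exact wronskian_ne_zero hco hR he1
  let avoid : Finset ℂ := Cs ∪
    ((W.roots.toFinset ∪ D.roots.toFinset).image fun x => P.eval x / R.eval x) ∪
      {P.coeff e / R.coeff e}
  obtain ⟨y1, hy1⟩ := Infinite.exists_notMem_finset avoid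
  simp only [avoid, Finset.mem_union, Finset.mem_image, Finset.mem_singleton, not_or,
    not_exists, not_and] at hy1
  obtain ⟨⟨hy1C, hy1W⟩, hy1l⟩ := hy1
  have hgen : e ≤ goodCount N D y1 := by
    rw [hcount]
    refine card_generic hR (hQ0 y1) hco hy1l ?_
    intro x hx hxy
    exact hy1W x (hx.imp (fun h => Multiset.mem_toFinset.2 ((mem_roots hW0).2 h))
      (fun h => Multiset.mem_toFinset.2 ((mem_roots hD).2 h))) hxy
  have hall : ∀ y, e ≤ goodCount N D y := fun y => hgen.trans (h y y1 hy1C)
  obtain ⟨hD0, hR0, hP1⟩ := endgame_core hco hR he he1 hQ0 fun y =>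
    (hall y).trans (hcount y).le
  have hRc : R = C (R.coeff 0) := eq_C_of_natDegree_eq_zero hR0
  have hr : R.coeff 0 ≠ 0 := fun h0 => hR (by rw [hRc, h0, C_0])
  refine ⟨hD0, P.coeff 1 / R.coeff 0, P.coeff 0 / R.coeff 0, ?_, ?_⟩
  · refine div_ne_zero ?_ hr
    have : P.leadingCoeff ≠ 0 := leadingCoeff_ne_zero.2 fun h0 => by
      rw [h0, natDegree_zero] at hP1; omega
    rwa [leadingCoeff, hP1] at this
  · rw [hN, hER]
    conv_lhs => rw [eq_X_add_C_of_natDegree_le_one hP1.le]
    rw [hRc, coeff_C_zero]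
    have e1 : ∀ c : ℂ, (C (R.coeff 0) : ℂ[X]) * C (c / R.coeff 0) = C c := fun c => by
      rw [← C_mul, mul_div_cancel₀ _ hr]
    linear_combination -(G * X) * e1 (P.coeff 1) - G * e1 (P.coeff 0)

end Vale.Agent.P295
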