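import Vale.Agent.P295.Roots
import Vale.Agent.P295.NondegForm
import Vale.Agent.P295.RatCount

/-!
P295: preparations for reducing a stable coordinate `B(x, z)` modulo a maximal ideal.
-/

namespace Vale.Agent.P295

open MvPolynomial Matrix

variable {τ : Type}

/-- A chosen square root. -/
noncomputable def sqrtC (z : ℂ) : ℂ :=
  Classical.choose (IsAlgClosed.exists_pow_nat_eq z (n := 2) two_pos)

lemma sqrtC_sq (z : ℂ) : sqrtC z ^ 2 = z :=
  Classical.choose_spec (IsAlgClosed.exists_pow_nat_eq z (n := 2) two_pos)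

/-- The element of `A` with the same value, if there is one. -/
noncomputable def liftElt (A : Subalgebra ℤ ℂ) (z : ℂ) : A := by
  classical
  exact if h : z ∈ A then ⟨z, h⟩ else 0

lemma liftElt_val (A : Subalgebra ℤ ℂ) {z : ℂ} (h : z ∈ A) : (liftElt A z : ℂ) = z := by
  simp [liftElt, h]

section Residue

variable {A : Subalgebra ℤ ℂ} {F : Type*} [Field F] (φ : A →+* F)

lemma map_liftElt_ne_zero {z : ℂ} (h0 : z ≠ 0) (h1 : z ∈ A) (h2 : z⁻¹ ∈ A) :
    φ (liftElt A z) ≠ 0 :=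
  ((IsUnit.of_mul_eq_one (liftElt A z⁻¹) (Subtype.ext (by
    show (liftElt A z : ℂ) * (liftElt A z⁻¹ : ℂ) = 1
    rw [liftElt_val A h1, liftElt_val A h2, mul_inv_cancel₀ h0]))).map φ).ne_zero

lemma map_liftElt_injOn (S : Set ℂ) (hS : ∀ a ∈ S, a ∈ A)
    (hinv : ∀ a ∈ S, ∀ b ∈ S, (a - b)⁻¹ ∈ A) : S.InjOn fun z => φ (liftElt A z) := by
  intro a ha b hb h
  by_contra hne
  refine map_liftElt_ne_zero φ (sub_ne_zero.2 hne) (sub_mem (hS a ha) (hS b hb))
    (hinv a ha b hb) ?_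
  have : liftElt A (a - b) = liftElt A a - liftElt A b := Subtype.ext (by
    show (liftElt A (a - b) : ℂ) = (liftElt A a : ℂ) - (liftElt A b : ℂ)
    rw [liftElt_val A (sub_mem (hS a ha) (hS b hb)), liftElt_val A (hS a ha),
      liftElt_val A (hS b hb)])
  rw [this, map_sub, sub_eq_zero]
  exact h

lemma qchar_map_eq_one [Fintype F] [DecidableEq F] {z : ℂ} (h0 : z ≠ 0) (h1 : sqrtC z ∈ A)
    (h2 : (sqrtC z)⁻¹ ∈ A) (zA : A) (hz : (zA : ℂ) = z) : qchar F (φ zA) = 1 := by
  have hs : sqrtC z ≠ 0 := fun h => h0 (by rw [← sqrtC_sq z, h, zero_pow two_ne_zero])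
  have : zA = liftElt A (sqrtC z) ^ 2 := Subtype.ext (by
    show (zA : ℂ) = (liftElt A (sqrtC z) : ℂ) ^ 2
    rw [liftElt_val A h1, sqrtC_sq, hz])
  rw [this, map_pow]
  exact qchar_sq_one (map_liftElt_ne_zero φ hs h1 h2)

/-- The roots of a lifted polynomial in the residue field are the reductions of its roots. -/
lemma eval₂_eq_zero_iff [DecidableEq F] (PA : Polynomial A) {p : Polynomial ℂ}
    (hp : PA.map A.val.toRingHom = p) (hp0 : p ≠ 0)
    (hroots : ∀ r ∈ p.roots.toFinset, r ∈ A) (hlc : p.leadingCoeff ∈ A)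
    (hlci : p.leadingCoeff⁻¹ ∈ A) (x : F) :
    PA.eval₂ φ x = 0 ↔ x ∈ p.roots.toFinset.image fun r => φ (liftElt A r) := by
  have hfac : PA = Polynomial.C (⟨p.leadingCoeff, hlc⟩ : A) * ∏ r ∈ p.roots.toFinset.attach,
      (Polynomial.X - Polynomial.C (liftElt A r.1)) ^ p.roots.count r.1 := by
    refine Polynomial.map_injective A.val.toRingHom Subtype.val_injective ?_
    rw [hp, factor_lift A (a := p) ⟨p.leadingCoeff, hlc⟩ rfl (fun r => liftElt A r.1)
      fun r => liftElt_val A (hroots r.1 r.2)]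
  have hlc0 : φ ⟨p.leadingCoeff, hlc⟩ ≠ 0 :=
    ((IsUnit.of_mul_eq_one (⟨p.leadingCoeff⁻¹, hlci⟩ : A) (Subtype.ext
      (mul_inv_cancel₀ (Polynomial.leadingCoeff_ne_zero.2 hp0)))).map φ).ne_zero
  rw [hfac]
  simp only [Polynomial.eval₂_mul, Polynomial.eval₂_C, Polynomial.eval₂_finsetProd,
    Polynomial.eval₂_pow, Polynomial.eval₂_sub, Polynomial.eval₂_X, mul_eq_zero, hlc0, false_or,
    Finset.prod_eq_zero_iff, pow_eq_zero_iff', sub_eq_zero, Finset.mem_image]
  constructor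
  · rintro ⟨r, -, hxr, -⟩
    exact ⟨r.1, r.2, hxr.symm⟩
  · rintro ⟨r, hr, hxr⟩
    exact ⟨⟨r, hr⟩, Finset.mem_attach _ _, hxr.symm,
      (Multiset.count_pos.2 (Multiset.mem_toFinset.1 hr)).ne'⟩

end Residue

lemma char_sum_lift {σ : Type} [Fintype σ] [DecidableEq σ] (A : Subalgebra ℤ ℂ) {F : Type*}
    [Field F] [Fintype F] {m : ℕ} (φ : A →+* F) (ψ : AddChar F ℂ) (hψ : ψ.IsPrimitive)
    (gA : MvPolynomial σ A)
    (e : MvPolynomial (σ ⊕ Fin m) ℂ ≃ₐ[ℂ] MvPolynomial (σ ⊕ Fin m) ℂ) (k : σ ⊕ Fin m)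
    (h1 : ∀ j, ∀ x ∈ (e (X j)).coeffs, x ∈ A) (h2 : ∀ j, ∀ x ∈ (e.symm (X j)).coeffs, x ∈ A)
    (hk : e (rename Sum.inl (map A.val.toRingHom gA)) = X k)
    {t : F} (ht : t ≠ 0) : ∑ p, ψ (t * eval₂ φ p gA) = 0 := by
  classical
  choose TA hTA using fun j => exists_lift_of_coeffs A (e (X j)) (h1 j)
  choose SA hSA using fun j => exists_lift_of_coeffs A (e.symm (X j)) (h2 j)
  have he : ∀ g, e g = bind₁ (fun j => e (X j)) g := fun g =>
    DFunLike.congr_fun (aeval_unique e.toAlgHom) g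
  have hgA : bind₁ TA (rename Sum.inl gA) = X k := by
    apply val_injective A
    rw [map_bind₁, funext hTA, map_rename, map_X, ← he, hk]
  have hSA' : ∀ j, bind₁ TA (SA j) = X j := fun j => by
    apply val_injective A
    rw [map_bind₁, funext hTA, hSA, map_X, ← he, e.apply_symm_apply]
  exact sum_rename_inl φ ψ _ t (char_sum_coordinate φ ψ hψ _ TA SA k hgA hSA' ht)

variable [Fintype τ] [DecidableEq τ]

/-- At a zero of `det M` without translation identity, the fibre is a sum of fewer squares. -/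
lemma squares_of_singular (c : ℂ) (l : τ → ℂ) (M : Matrix τ τ ℂ) (hM : Mᵀ = M)
    (hdet : M.det = 0)
    (hbad : ¬ ∃ (v : τ → ℂ) (α : ℂ), α ≠ 0 ∧ bind₁ (shiftVars v) (quadPoly c l M)
      = rename some (quadPoly c l M) + C α * X none) :
    ∃ (T S : τ → MvPolynomial τ ℂ) (U : Finset τ) (c' : ℂ),
      bind₁ T (quadPoly c l M) = ∑ j ∈ U, X j ^ 2 + C c' ∧ (∀ j, bind₁ T (S j) = X j) ∧
        U.card < Fintype.card τ := by
  have hdeg : (quadPoly c l M).totalDegree ≤ 2 := by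
    have h1 : ∀ (a : ℂ) j, (C a * X j : MvPolynomial τ ℂ).totalDegree ≤ 1 := fun a j =>
      (totalDegree_mul _ _).trans (by simp)
    have h2 : ∀ (a : ℂ) j k, (C a * X j * X k : MvPolynomial τ ℂ).totalDegree ≤ 2 := fun a j k => by
      refine (totalDegree_mul _ _).trans ?_
      have := h1 a j
      simp only [totalDegree_X]
      omega
    refine (totalDegree_add _ _).trans (max_le ((totalDegree_add _ _).trans (max_le (by simp)
      ((totalDegree_finsetSum _ _).trans (Finset.sup_le fun j _ => (h1 _ _).trans one_le_two))))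
      ((totalDegree_finsetSum _ _).trans (Finset.sup_le fun j _ =>
        (totalDegree_finsetSum _ _).trans (Finset.sup_le fun k _ => h2 _ _ _))))
  obtain ⟨T, S, U, c', hT, hS, hU⟩ := (quadratic_normal_form hdeg).resolve_left hbad
  refine ⟨T, S, U, c', hT, hS, (Finset.card_lt_iff_ne_univ U).2 fun hUu => ?_⟩
  obtain ⟨v, hv0, hv⟩ := Matrix.exists_mulVec_eq_zero_iff.2 hdet
  have hid : bind₁ (shiftVars v) (quadPoly c l M)
      = rename some (quadPoly c l M) + C (l ⬝ᵥ v) * X none := by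
    refine MvPolynomial.funext fun z => ?_
    have hev : ∀ w : τ → ℂ, eval w (quadPoly c l M) = c + l ⬝ᵥ w + w ⬝ᵥ M *ᵥ w := fun w =>
      eval₂_quadPoly (RingHom.id ℂ) w c l M
    rw [map_add, eval_rename, map_mul, eval_C, eval_X,
      show eval z (bind₁ (shiftVars v) (quadPoly c l M))
        = eval (fun j => eval z (shiftVars v j)) (quadPoly c l M) from
          eval₂Hom_bind₁ (RingHom.id ℂ) z _ _,
      show (fun j => eval z (shiftVars v j)) = z ∘ some + z none • v by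
        funext j
        simp [shiftVars, mul_comm], hev, hev]
    simp only [dotProduct_add, mulVec_add, mulVec_smul, add_dotProduct, smul_dotProduct,
      dotProduct_smul, hv, smul_zero, dotProduct_zero, smul_eq_mul]
    rw [mulVec_dot M v, hM, hv, dotProduct_zero]
    ring
  by_cases hlv : l ⬝ᵥ v = 0
  · rw [hlv, C_0, zero_mul, add_zero] at hid
    exact hv0 (hU hUu v hid)
  · exact hbad ⟨v, _, hlv, hid⟩

end Vale.Agent.P295
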