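import Vale.Agent.P295.Fibre

/-!
P295: spreading out a stable coordinate with nondegenerate quadratic part.
-/

namespace Vale.Agent.P295

open MvPolynomial Matrix

variable {τ : Type} [Fintype τ] [DecidableEq τ]

/-- The finite set of numbers to adjoin. -/
noncomputable def spreadData {κ : Type} [Fintype κ] (c0 : Polynomial ℂ) (l : τ → Polynomial ℂ)
    (M : Matrix τ τ (Polynomial ℂ))
    (e : MvPolynomial κ ℂ ≃ₐ[ℂ] MvPolynomial κ ℂ)
    (Pts Sq : Finset ℂ) (T S : ℂ → τ → MvPolynomial τ ℂ) (cc : ℂ → ℂ) (v : ℂ → τ → ℂ)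
    (α : ℂ → ℂ) (D P0 P1 : Polynomial ℂ) (y0 y1 : ℂ) : Finset ℂ :=
  c0.coeffs ∪ (Finset.univ.biUnion fun j => (l j).coeffs) ∪
    (Finset.univ.biUnion fun p : τ × τ => (M p.1 p.2).coeffs) ∪
    (Finset.univ.biUnion fun j => (e (X j)).coeffs) ∪
    (Finset.univ.biUnion fun j => (e.symm (X j)).coeffs) ∪
    (Pts ∪ (Pts ×ˢ Pts).image (fun p => (p.1 - p.2)⁻¹)) ∪
    (Sq.biUnion fun r => insert (cc r) ((Finset.univ.biUnion fun j => (T r j).coeffs) ∪
      (Finset.univ.biUnion fun j => (S r j).coeffs) ∪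
      {sqrtC (cc r - y0), (sqrtC (cc r - y0))⁻¹, sqrtC (cc r - y1), (sqrtC (cc r - y1))⁻¹})) ∪
    (Pts.biUnion fun r => Finset.univ.image (v r) ∪
      {α r, (α r)⁻¹, sqrtC (D.eval r), (sqrtC (D.eval r))⁻¹}) ∪
    {D.leadingCoeff, D.leadingCoeff⁻¹, P0.leadingCoeff, P0.leadingCoeff⁻¹, P1.leadingCoeff,
      P1.leadingCoeff⁻¹, y0, y1, (y0 - y1)⁻¹, Complex.I}

lemma poly_lift_of_coeffs (A : Subalgebra ℤ ℂ) (p : Polynomial ℂ) (h : ∀ x ∈ p.coeffs, x ∈ A) :
    ∃ pA : Polynomial A, pA.map A.val.toRingHom = p :=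
  exists_poly_lift A p fun k => by
    by_cases h0 : p.coeff k = 0
    · rw [h0]; exact zero_mem _
    · exact h _ (Polynomial.coeff_mem_coeffs h0)

omit [DecidableEq τ] in
lemma spreadData_mem {κ : Type} [Fintype κ] {c0 : Polynomial ℂ} {l : τ → Polynomial ℂ}
    {M : Matrix τ τ (Polynomial ℂ)} {e : MvPolynomial κ ℂ ≃ₐ[ℂ] MvPolynomial κ ℂ}
    {Pts Sq : Finset ℂ} {T S : ℂ → τ → MvPolynomial τ ℂ} {cc : ℂ → ℂ} {v : ℂ → τ → ℂ}
    {α : ℂ → ℂ} {D P0 P1 : Polynomial ℂ} {y0 y1 : ℂ} {A : Subalgebra ℤ ℂ}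
    (hA : ↑(spreadData c0 l M e Pts Sq T S cc v α D P0 P1 y0 y1) ⊆ (A : Set ℂ)) :
    ((∀ x ∈ c0.coeffs, x ∈ A) ∧ (∀ j, ∀ x ∈ (l j).coeffs, x ∈ A) ∧
      (∀ i j, ∀ x ∈ (M i j).coeffs, x ∈ A) ∧ (∀ j, ∀ x ∈ (e (X j)).coeffs, x ∈ A) ∧
      (∀ j, ∀ x ∈ (e.symm (X j)).coeffs, x ∈ A)) ∧
    (∀ x ∈ Pts ∪ (Pts ×ˢ Pts).image (fun p => (p.1 - p.2)⁻¹), x ∈ A) ∧
    (∀ r ∈ Sq, ∀ x ∈ insert (cc r) ((Finset.univ.biUnion fun j => (T r j).coeffs) ∪
      (Finset.univ.biUnion fun j => (S r j).coeffs) ∪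
      {sqrtC (cc r - y0), (sqrtC (cc r - y0))⁻¹, sqrtC (cc r - y1), (sqrtC (cc r - y1))⁻¹}),
      x ∈ A) ∧
    (∀ r ∈ Pts, ∀ x ∈ Finset.univ.image (v r) ∪
      {α r, (α r)⁻¹, sqrtC (D.eval r), (sqrtC (D.eval r))⁻¹}, x ∈ A) ∧
    (∀ x ∈ ({D.leadingCoeff, D.leadingCoeff⁻¹, P0.leadingCoeff, P0.leadingCoeff⁻¹,
      P1.leadingCoeff, P1.leadingCoeff⁻¹, y0, y1, (y0 - y1)⁻¹, Complex.I} : Finset ℂ), x ∈ A) := by
  have mem : ∀ x ∈ spreadData c0 l M e Pts Sq T S cc v α D P0 P1 y0 y1, x ∈ A := fun x hx =>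
    hA (Finset.mem_coe.2 hx)
  refine ⟨⟨fun x hx => mem _ (Finset.mem_union_left _ (Finset.mem_union_left _ (Finset.mem_union_left _ (Finset.mem_union_left _ (Finset.mem_union_left _ (Finset.mem_union_left _ (Finset.mem_union_left _ (Finset.mem_union_left _ (hx))))))))),
    fun j x hx => mem _ (Finset.mem_union_left _ (Finset.mem_union_left _ (Finset.mem_union_left _ (Finset.mem_union_left _ (Finset.mem_union_left _ (Finset.mem_union_left _ (Finset.mem_union_left _ (Finset.mem_union_right _ (Finset.mem_biUnion.2 ⟨j, Finset.mem_univ _, hx⟩))))))))),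
    fun i j x hx => mem _ (Finset.mem_union_left _ (Finset.mem_union_left _ (Finset.mem_union_left _ (Finset.mem_union_left _ (Finset.mem_union_left _ (Finset.mem_union_left _ (Finset.mem_union_right _ (Finset.mem_biUnion.2 ⟨(i, j), Finset.mem_univ _, hx⟩)))))))),
    fun j x hx => mem _ (Finset.mem_union_left _ (Finset.mem_union_left _ (Finset.mem_union_left _ (Finset.mem_union_left _ (Finset.mem_union_left _ (Finset.mem_union_right _ (Finset.mem_biUnion.2 ⟨j, Finset.mem_univ _, hx⟩))))))),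
    fun j x hx => mem _ (Finset.mem_union_left _ (Finset.mem_union_left _ (Finset.mem_union_left _ (Finset.mem_union_left _ (Finset.mem_union_right _ (Finset.mem_biUnion.2 ⟨j, Finset.mem_univ _, hx⟩))))))⟩,
    fun x hx => mem _ (Finset.mem_union_left _ (Finset.mem_union_left _ (Finset.mem_union_left _ (Finset.mem_union_right _ (hx))))),
    fun r hr x hx => mem _ (Finset.mem_union_left _ (Finset.mem_union_left _ (Finset.mem_union_right _ (Finset.mem_biUnion.2 ⟨r, hr, hx⟩)))),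
    fun r hr x hx => mem _ (Finset.mem_union_left _ (Finset.mem_union_right _ (Finset.mem_biUnion.2 ⟨r, hr, hx⟩))),
    fun x hx => mem _ (Finset.mem_union_right _ (hx))⟩

/-- One comparison of two fibres. -/
lemma goodCount_le_spread {c0 : Polynomial ℂ} {l : τ → Polynomial ℂ}
    {M : Matrix τ τ (Polynomial ℂ)} (hMs : Mᵀ = M) (hdet : M.det ≠ 0) {m : ℕ}
    (hs : IsCoordinate (rename (Sum.inl : Option τ → Option τ ⊕ Fin m)
      (body (quadPoly c0 l M))))
    (hne : ∀ y : ℂ, squareNum c0 l M - Polynomial.C y * (Polynomial.C 4 * M.det) ≠ 0)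
    {T S : ℂ → τ → MvPolynomial τ ℂ} {U : ℂ → Finset τ} {cc : ℂ → ℂ} {v : ℂ → τ → ℂ}
    {α : ℂ → ℂ} {Sq : Finset ℂ} (hSq : Sq ⊆ M.det.roots.toFinset)
    (hnf : ∀ r ∈ Sq, bind₁ (T r) (quadPoly (c0.eval r) (fun j => (l j).eval r)
        (M.map (Polynomial.eval r))) = ∑ j ∈ U r, X j ^ 2 + C (cc r) ∧
      (∀ j, bind₁ (T r) (S r j) = X j) ∧ (U r).card < Fintype.card τ)
    (hva : ∀ r ∈ M.det.roots.toFinset, r ∉ Sq → α r ≠ 0 ∧
      bind₁ (shiftVars (v r)) (quadPoly (c0.eval r) (fun j => (l j).eval r)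
          (M.map (Polynomial.eval r)))
        = rename some (quadPoly (c0.eval r) (fun j => (l j).eval r) (M.map (Polynomial.eval r)))
          + C (α r) * X none)
    {y0 y1 : ℂ} (hy : y0 ≠ y1) (hy1 : y1 ∉ Sq.image cc) :
    goodCount (squareNum c0 l M) M.det y1 ≤ goodCount (squareNum c0 l M) M.det y0 := by
  classical
  set R := M.det.roots.toFinset with hR
  obtain ⟨e, k, hk⟩ := hs
  set P0 := squareNum c0 l M - Polynomial.C y0 * (Polynomial.C 4 * M.det) with hP0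
  set P1 := squareNum c0 l M - Polynomial.C y1 * (Polynomial.C 4 * M.det) with hP1
  set Pts := R ∪ P0.roots.toFinset ∪ P1.roots.toFinset with hPts
  set data := spreadData c0 l M e Pts Sq T S cc v α M.det P0 P1 y0 y1 with hdata
  obtain ⟨A, hA, mI, hmI, hfin, hchar⟩ := exists_residue_field data (2 + 3 * Pts.card)
  obtain ⟨⟨m1, m2, m3, m4, m5⟩, m6, m7, m8, m9⟩ := spreadData_mem hA
  obtain ⟨c0A, hc⟩ := poly_lift_of_coeffs A c0 m1
  choose lA hl using fun j => poly_lift_of_coeffs A (l j) (m2 j)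
  choose MA hM using fun i j => poly_lift_of_coeffs A (M i j) (m3 i j)
  let := Ideal.Quotient.field mI
  let := Fintype.ofFinite (A ⧸ mI)
  have h2 : (2 : A ⧸ mI) ≠ 0 := by
    simpa using hchar 2 two_pos (by omega)
  have hq : 3 * Pts.card < Fintype.card (A ⧸ mI) := by
    have := Nat.cast_card_eq_zero (R := A ⧸ mI)
    by_contra hlt
    exact hchar _ Fintype.card_pos (by omega) this
  have hψ := AddChar.FiniteField.primitiveChar_to_Complex_isPrimitive (A ⧸ mI)
  have hsum : ∀ t : A ⧸ mI, t ≠ 0 → ∑ x : A ⧸ mI, ∑ z : τ → A ⧸ mI,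
      AddChar.FiniteField.primitiveChar_to_Complex (A ⧸ mI)
        (t * (Polynomial.eval₂RingHom (Ideal.Quotient.mk mI) x c0A
          + (Polynomial.eval₂RingHom (Ideal.Quotient.mk mI) x ∘ lA) ⬝ᵥ z
          + z ⬝ᵥ (Matrix.of MA).map (Polynomial.eval₂RingHom (Ideal.Quotient.mk mI) x) *ᵥ z))
        = 0 := by
    intro t ht
    have hkey : e (rename Sum.inl (map A.val.toRingHom (body (quadPoly c0A lA (Matrix.of MA)))))
        = X k := by
      rw [map_body, map_quadPoly,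
        show quadPoly _ (Polynomial.mapRingHom A.val.toRingHom ∘ lA) _ = quadPoly c0 l M by
          congr 1
          · exact funext hl
          · exact Matrix.ext hM]
      exact hk
    have h := char_sum_lift A (Ideal.Quotient.mk mI) _ hψ
      (body (quadPoly c0A lA (Matrix.of MA))) e k m4 m5 hkey ht
    rw [sum_pairs] at h
    simp only [eval₂_body, eval₂_quadPoly, Option.elim] at h
    exact h
  refine goodCount_le_of_lift (Ideal.Quotient.mk mI) _ hψ h2 hMs hdet hc hl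
    (MA := Matrix.of MA) hM hsum T S U cc Sq hSq ?_ ?_ hy ?_
    (m9 _ (by simp)) (m9 _ (by simp)) (m9 _ (by simp)) (m9 _ (by simp)) ?_ hne Pts ?_ ?_ ?_
    (fun a ha => m6 a (Finset.mem_union_left _ ha)) ?_ ?_ ?_
    ⟨m9 _ (by simp), m9 _ (by simp)⟩ hq
  · intro r hr
    obtain ⟨h1, h2', h3⟩ := hnf r hr
    refine ⟨h1, h2', h3, fun j x hx => m7 r hr x ?_, fun j x hx => m7 r hr x ?_,
      m7 r hr _ (Finset.mem_insert_self _ _)⟩ <;>
      simp only [Finset.mem_insert, Finset.mem_union, Finset.mem_biUnion]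
    · exact Or.inr (Or.inl (Or.inl ⟨j, Finset.mem_univ _, hx⟩))
    · exact Or.inr (Or.inl (Or.inr ⟨j, Finset.mem_univ _, hx⟩))
  · intro r hr hrS
    obtain ⟨h1, h2'⟩ := hva r hr hrS
    have hrP : r ∈ Pts := Finset.mem_union_left _ (Finset.mem_union_left _ hr)
    exact ⟨v r, α r, h1, h2', fun j => m8 r hrP _ (by simp), m8 r hrP _ (by simp),
      m8 r hrP _ (by simp)⟩
  · intro r hr h
    exact hy1 (Finset.mem_image.2 ⟨r, hr, h⟩)
  · intro r hr y' hy'
    rcases hy' with rfl | rfl <;> exact ⟨m7 r hr _ (by simp), m7 r hr _ (by simp)⟩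
  · exact Finset.subset_union_left.trans Finset.subset_union_left
  · exact Finset.subset_union_right.trans Finset.subset_union_left
  · exact Finset.subset_union_right
  · intro a ha b hb
    exact m6 _ (Finset.mem_union_right _
      (Finset.mem_image.2 ⟨(a, b), Finset.mem_product.2 ⟨ha, hb⟩, rfl⟩))
  · intro a ha
    exact ⟨m8 a ha _ (by simp), m8 a ha _ (by simp)⟩
  · intro y' hy'
    rcases hy' with rfl | rfl <;>
      exact ⟨m9 _ (by simp [hP0, hP1]), m9 _ (by simp [hP0, hP1])⟩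

/-- For a stable coordinate `B(x, z)` with nondegenerate quadratic part, general fibres of
`N / (4 D)` are the smallest. -/
theorem exists_bad_values {c0 : Polynomial ℂ} {l : τ → Polynomial ℂ}
    {M : Matrix τ τ (Polynomial ℂ)} (hMs : Mᵀ = M) (hdet : M.det ≠ 0) {m : ℕ}
    (hs : IsCoordinate (rename (Sum.inl : Option τ → Option τ ⊕ Fin m)
      (body (quadPoly c0 l M))))
    (hne : ∀ y : ℂ, squareNum c0 l M - Polynomial.C y * (Polynomial.C 4 * M.det) ≠ 0) :
    ∃ Cs : Finset ℂ, ∀ y y1 : ℂ, y1 ∉ Cs →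
      goodCount (squareNum c0 l M) M.det y1 ≤ goodCount (squareNum c0 l M) M.det y := by
  classical
  set Br : ℂ → MvPolynomial τ ℂ := fun r =>
    quadPoly (c0.eval r) (fun j => (l j).eval r) (M.map (Polynomial.eval r)) with hBr
  let Good : ℂ → Prop := fun r => ∃ (v : τ → ℂ) (α : ℂ), α ≠ 0 ∧
    bind₁ (shiftVars v) (Br r) = rename some (Br r) + C α * X none
  set R := M.det.roots.toFinset with hR
  have hnf : ∀ r, ∃ (T S : τ → MvPolynomial τ ℂ) (U : Finset τ) (c : ℂ),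
      r ∈ R → ¬ Good r → bind₁ T (Br r) = ∑ j ∈ U, X j ^ 2 + C c ∧
        (∀ j, bind₁ T (S j) = X j) ∧ U.card < Fintype.card τ := by
    intro r
    by_cases h : r ∈ R ∧ ¬ Good r
    · have hd : (M.map (Polynomial.eval r)).det = 0 := by
        rw [show M.map (Polynomial.eval r) = (Polynomial.evalRingHom r).mapMatrix M from rfl,
          ← RingHom.map_det]
        exact (Polynomial.mem_roots hdet).1 (Multiset.mem_toFinset.1 h.1)
      obtain ⟨T, S, U, c, h'⟩ := squares_of_singular _ _ _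
        (by rw [← transpose_map, hMs]) hd h.2
      exact ⟨T, S, U, c, fun _ _ => h'⟩
    · exact ⟨0, 0, ∅, 0, fun h1 h2 => absurd ⟨h1, h2⟩ h⟩
  choose T S U cc hnf using hnf
  have hgood : ∀ r, ∃ (v : τ → ℂ) (α : ℂ), Good r → α ≠ 0 ∧
      bind₁ (shiftVars v) (Br r) = rename some (Br r) + C α * X none := by
    intro r
    by_cases h : Good r
    · obtain ⟨v, α, h'⟩ := h
      exact ⟨v, α, fun _ => h'⟩
    · exact ⟨0, 0, fun h' => absurd h' h⟩
  choose v α hva using hgood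
  set Sq := R.filter fun r => ¬ Good r with hSq
  refine ⟨Sq.image cc, fun y0 y1 hy1 => ?_⟩
  rcases eq_or_ne y0 y1 with rfl | hy
  · exact le_rfl
  refine goodCount_le_spread (T := T) (S := S) (U := U) (v := v) (α := α) hMs hdet hs hne
    (Finset.filter_subset _ _) (fun r hr => ?_)
    (fun r hr hrS => ?_) hy hy1
  · obtain ⟨hrR, hrG⟩ := Finset.mem_filter.1 hr
    exact hnf r hrR hrG
  · refine hva r ?_
    by_contra h
    exact hrS (Finset.mem_filter.2 ⟨hr, h⟩)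

end Vale.Agent.P295
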