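import Vale.Agent.P295.CharSum

/-!
P295: counting solutions off the bad fibres from vanishing character sums over a finite field.
-/

namespace Vale.Agent.P295

open Finset

variable {F : Type*} [Field F] [Fintype F] [DecidableEq F]

/-- The quadratic character with complex values. -/
noncomputable def qchar (F : Type*) [Field F] [Fintype F] [DecidableEq F] : MulChar F ℂ :=
  (quadraticChar F).ringHomComp (Int.castRingHom ℂ)

lemma qchar_sq_one {a : F} (ha : a ≠ 0) : qchar F (a ^ 2) = 1 := by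
  simp [qchar, MulChar.ringHomComp_apply, quadraticChar_sq_one' ha]

lemma qchar_mul_self {a : F} (ha : a ≠ 0) : qchar F a * qchar F a = 1 := by
  rw [← map_mul, ← sq, qchar_sq_one ha]

lemma qchar_int (a : F) : qchar F a = ((quadraticChar F a : ℤ) : ℂ) := by
  simp [qchar, MulChar.ringHomComp_apply]

omit [Fintype F] [DecidableEq F] in
lemma two_ne_zero_ringChar (h2 : (2 : F) ≠ 0) : ringChar F ≠ 2 := fun h => h2 (by
  have := ringChar.Nat.cast_ringChar (R := F)
  rwa [h, Nat.cast_ofNat] at this)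

lemma qchar_ne_one (h2 : (2 : F) ≠ 0) : qchar F ≠ 1 :=
  (MulChar.ringHomComp_ne_one_iff Int.cast_injective).2
    (quadraticChar_ne_one (two_ne_zero_ringChar h2))

/-- The square sum as a Gauss sum. -/
lemma sqSum_eq (ψ : AddChar F ℂ) (hψ : ψ.IsPrimitive) (h2 : (2 : F) ≠ 0) {t : F} (ht : t ≠ 0) :
    sqSum ψ t = qchar F t * gaussSum (qchar F) ψ := by
  have h1 : sqSum ψ t = ∑ a : F, (qchar F a + 1) * ψ (t * a) := by
    rw [sqSum, ← Finset.sum_fiberwise univ (fun x => x ^ 2) (fun x => ψ (t * x ^ 2))]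
    refine Finset.sum_congr rfl fun a _ => ?_
    rw [Finset.sum_congr rfl (fun x hx => by rw [(Finset.mem_filter.1 hx).2]), Finset.sum_const,
      nsmul_eq_mul, qchar_int]
    have := quadraticChar_card_sqrts (two_ne_zero_ringChar h2) a
    rw [show ({x | x ^ 2 = a} : Set F).toFinset = univ.filter (fun x => x ^ 2 = a) by ext; simp]
      at this
    rw [show ((univ.filter fun x : F => x ^ 2 = a).card : ℂ)
      = ((((univ.filter fun x : F => x ^ 2 = a).card : ℕ) : ℤ) : ℂ) from (Int.cast_natCast _).symm,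
      this]
    push_cast
    ring
  have h3 : ∑ a : F, ψ (t * a) = 0 := by
    simp_rw [mul_comm t]
    rw [AddChar.sum_mulShift t hψ, if_neg ht, Nat.cast_zero]
  have h4 := gaussSum_mulShift (qchar F) ψ (Units.mk0 t ht)
  rw [Units.val_mk0] at h4
  rw [h1]
  simp only [add_mul, one_mul, Finset.sum_add_distrib, h3, add_zero]
  rw [show ∑ a, qchar F a * ψ (t * a) = gaussSum (qchar F) (ψ.mulShift t) from rfl, ← h4,
    ← mul_assoc, qchar_mul_self ht, one_mul]

lemma gauss_sq (ψ : AddChar F ℂ) (hψ : ψ.IsPrimitive) (h2 : (2 : F) ≠ 0)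
    (hi : ∃ i : F, i ^ 2 = -1) : gaussSum (qchar F) ψ ^ 2 = Fintype.card F := by
  obtain ⟨i, hi⟩ := hi
  have hi0 : i ≠ 0 := by rintro rfl; simp at hi
  rw [gaussSum_sq (qchar_ne_one h2) ((quadraticChar_isQuadratic F).comp _) hψ, ← hi,
    qchar_sq_one hi0, one_mul]

/-- The twisted transform of a family of values indexed by the nonzero scalars. -/
noncomputable def twist (ψ : AddChar F ℂ) (u : ℕ) (Z : F → ℂ) (y : F) : ℂ :=
  ∑ t ∈ univ.erase 0, sqSum ψ t ^ u * Z t * ψ (-(t * y))

lemma sum_erase_char (ψ : AddChar F ℂ) (hψ : ψ.IsPrimitive) (w : F) :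
    ∑ t ∈ univ.erase (0 : F), ψ (t * w) = (if w = 0 then (Fintype.card F : ℂ) else 0) - 1 := by
  rw [Finset.sum_erase_eq_sub (mem_univ _), AddChar.sum_mulShift w hψ, zero_mul,
    AddChar.map_zero_eq_one]
  split_ifs <;> simp

lemma sum_qchar_char (ψ : AddChar F ℂ) (h2 : (2 : F) ≠ 0) (w : F) :
    ∑ t ∈ univ.erase (0 : F), qchar F t * ψ (t * w) = qchar F w * gaussSum (qchar F) ψ := by
  rw [Finset.sum_erase_eq_sub (mem_univ _), MulChar.map_zero, zero_mul, sub_zero]
  by_cases hw : w = 0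
  · subst hw
    rw [MulChar.map_zero, zero_mul]
    simp [MulChar.sum_eq_zero_of_ne_one (qchar_ne_one h2)]
  · have h4 := gaussSum_mulShift (qchar F) ψ (Units.mk0 w hw)
    rw [Units.val_mk0] at h4
    rw [← h4, ← mul_assoc, qchar_mul_self hw, one_mul]
    exact Finset.sum_congr rfl fun t _ => by rw [mul_comm t w]; rfl

/-- The transform of a fibre in normal form. -/
lemma twist_eval (ψ : AddChar F ℂ) (hψ : ψ.IsPrimitive) (h2 : (2 : F) ≠ 0)
    (hi : ∃ i : F, i ^ 2 = -1) {u r k : ℕ} {Z : F → ℂ} {c : F} {a : ℂ}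
    (hZ : ∀ t, t ≠ 0 → Z t = ψ (t * c) * a * sqSum ψ t ^ r * (Fintype.card F : ℂ) ^ k) (y : F) :
    (∀ p, u + r = 2 * p → twist ψ u Z y = a * (Fintype.card F : ℂ) ^ (k + p) *
        ((if c = y then (Fintype.card F : ℂ) else 0) - 1)) ∧
    (∀ p, u + r = 2 * p + 1 → twist ψ u Z y = a * (Fintype.card F : ℂ) ^ (k + p + 1) *
        qchar F (c - y)) := by
  have hterm : ∀ t, t ≠ 0 → sqSum ψ t ^ u * Z t * ψ (-(t * y))
      = a * (Fintype.card F : ℂ) ^ k * (sqSum ψ t ^ (u + r) * ψ (t * (c - y))) := by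
    intro t ht
    rw [hZ t ht, mul_sub, sub_eq_add_neg, AddChar.map_add_eq_mul, pow_add]
    ring
  have hg := gauss_sq ψ hψ h2 hi
  have hpow : ∀ p, ∀ t : F, t ≠ 0 → sqSum ψ t ^ (2 * p) = (Fintype.card F : ℂ) ^ p := by
    intro p t ht
    rw [pow_mul, sqSum_eq ψ hψ h2 ht, mul_pow, hg, sq, qchar_mul_self ht, one_mul]
  refine ⟨fun p hp => ?_, fun p hp => ?_⟩
  · rw [twist, Finset.sum_congr rfl fun t ht => by
      rw [hterm t (ne_of_mem_erase ht), hp, hpow p t (ne_of_mem_erase ht)],
      ← Finset.mul_sum, ← Finset.mul_sum, sum_erase_char ψ hψ]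
    simp only [sub_eq_zero]
    ring
  · rw [twist, Finset.sum_congr rfl fun t ht => by
      rw [hterm t (ne_of_mem_erase ht), hp, pow_succ, hpow p t (ne_of_mem_erase ht),
        sqSum_eq ψ hψ h2 (ne_of_mem_erase ht)],
      ← Finset.mul_sum]
    have : ∀ t, (Fintype.card F : ℂ) ^ p * (qchar F t * gaussSum (qchar F) ψ) * ψ (t * (c - y))
        = (Fintype.card F : ℂ) ^ p * gaussSum (qchar F) ψ * (qchar F t * ψ (t * (c - y))) :=
      fun t => by ring
    simp_rw [this]
    rw [← Finset.mul_sum, sum_qchar_char ψ h2]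
    linear_combination (a * (Fintype.card F : ℂ) ^ (k + p) * qchar F (c - y)) * hg

/-- The correction attached to a degenerate fibre of corank `m`. -/
def corr (q : ℤ) (m : ℕ) : ℤ := if Even m then q ^ (m / 2) else -q ^ (m / 2)

lemma dvd_corr (q : ℤ) {m : ℕ} (hm : 1 ≤ m) : q ∣ corr q m + if m = 1 then 1 else 0 := by
  by_cases h1 : m = 1
  · subst h1
    simp [corr]
  · rw [if_neg h1, add_zero, corr]
    have : q ∣ q ^ (m / 2) := dvd_pow_self q (by omega)
    split_ifs
    · exact this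
    · exact dvd_neg.2 this

/-- If, off the bad points, every fibre is a nondegenerate form and the character sums vanish, a
fibre over `y0` has at least as many points as one over a general `y1`. -/
theorem card_fibre_le (ψ : AddChar F ℂ) (hψ : ψ.IsPrimitive) (h2 : (2 : F) ≠ 0)
    (hi : ∃ i : F, i ^ 2 = -1) {u : ℕ} (Bad Sq : Finset F) (hSq : Sq ⊆ Bad)
    (Z : F → F → ℂ) (dd c : F → F) (ε : F → ℤ) (r : F → ℕ) {y0 y1 : F}
    (hsum : ∀ t, t ≠ 0 → ∑ x, Z x t = 0)
    (hgood : ∀ x, x ∉ Bad → ∀ t, t ≠ 0 → Z x t = ψ (t * dd x) * (ε x : ℂ) * sqSum ψ t ^ u)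
    (hsq : ∀ x ∈ Sq, r x < u ∧ ∀ t, t ≠ 0 →
      Z x t = ψ (t * c x) * sqSum ψ t ^ r x * (Fintype.card F : ℂ) ^ (u - r x))
    (hzero : ∀ x ∈ Bad, x ∉ Sq → ∀ t, t ≠ 0 → Z x t = 0)
    (hy : y0 ≠ y1)
    (hc1 : ∀ x ∈ Sq, qchar F (c x - y1) = 1)
    (hc0 : ∀ x ∈ Sq, c x ≠ y0 → qchar F (c x - y0) = 1)
    (hε : ∀ x, x ∉ Bad → dd x = y0 ∨ dd x = y1 → ε x = 1)
    (hq : (univ.filter fun x => x ∉ Bad ∧ dd x = y0).card
      + (univ.filter fun x => x ∉ Bad ∧ dd x = y1).card + Bad.card < Fintype.card F) :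
    (univ.filter fun x => x ∉ Bad ∧ dd x = y1).card
      ≤ (univ.filter fun x => x ∉ Bad ∧ dd x = y0).card := by
  set q : ℤ := (Fintype.card F : ℤ) with hqdef
  have hqC : ((q : ℤ) : ℂ) = (Fintype.card F : ℂ) := by simp [q]
  let w : F → ℤ := fun x =>
    if x ∈ Bad then (if x ∈ Sq ∧ c x = y0 then corr q (u - r x) else 0)
    else (if dd x = y0 then 1 else 0) - (if dd x = y1 then 1 else 0)
  have hdiff : ∀ x, twist ψ u (Z x) y0 - twist ψ u (Z x) y1
      = (Fintype.card F : ℂ) ^ (u + 1) * (w x : ℂ) := by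
    intro x
    by_cases hx : x ∈ Bad
    · by_cases hxs : x ∈ Sq
      · obtain ⟨hr, hZ⟩ := hsq x hxs
        have hZ' : ∀ t, t ≠ 0 → Z x t
            = ψ (t * c x) * 1 * sqSum ψ t ^ r x * (Fintype.card F : ℂ) ^ (u - r x) := fun t ht => by
          rw [hZ t ht, mul_one]
        have hne1 : c x ≠ y1 := fun h => by
          have := hc1 x hxs
          rw [h, sub_self, MulChar.map_zero] at this
          exact zero_ne_one this
        simp only [w, if_pos hx, hxs, true_and]
        obtain ⟨h, hh⟩ : ∃ h, u - r x = 2 * h ∨ u - r x = 2 * h + 1 := ⟨(u - r x) / 2, by omega⟩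
        rcases hh with hm | hm
        · have hp : u + r x = 2 * (r x + h) := by omega
          rw [(twist_eval ψ hψ h2 hi hZ' y0).1 _ hp, (twist_eval ψ hψ h2 hi hZ' y1).1 _ hp,
            if_neg hne1]
          by_cases hc : c x = y0
          · rw [if_pos hc, if_pos hc, corr, if_pos ⟨h, by omega⟩, show (u - r x) / 2 = h by omega]
            push_cast
            rw [hqC, ← show u + h = u - r x + (r x + h) by omega]
            ring
          · rw [if_neg hc, if_neg hc]
            simp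
        · have hp : u + r x = 2 * (r x + h) + 1 := by omega
          rw [(twist_eval ψ hψ h2 hi hZ' y0).2 _ hp, (twist_eval ψ hψ h2 hi hZ' y1).2 _ hp,
            hc1 x hxs]
          by_cases hc : c x = y0
          · rw [if_pos hc, hc, sub_self, MulChar.map_zero, corr,
              if_neg (by rw [Nat.not_even_iff_odd]; exact ⟨h, by omega⟩),
              show (u - r x) / 2 = h by omega]
            push_cast
            rw [hqC, ← show u + h + 1 = u - r x + (r x + h) + 1 by omega]
            ring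
          · rw [if_neg hc, hc0 x hxs hc]
            simp
      · simp only [w, if_pos hx, hxs, false_and, if_false, Int.cast_zero, mul_zero]
        have h0 : ∀ y, twist ψ u (Z x) y = 0 := fun y => Finset.sum_eq_zero fun t ht => by
          rw [hzero x hx hxs t (ne_of_mem_erase ht), mul_zero, zero_mul]
        rw [h0, h0, sub_zero]
    · have hZ' : ∀ t, t ≠ 0 → Z x t
          = ψ (t * dd x) * (ε x : ℂ) * sqSum ψ t ^ u * (Fintype.card F : ℂ) ^ 0 := fun t ht => by
        rw [hgood x hx t ht, pow_zero, mul_one]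
      rw [(twist_eval ψ hψ h2 hi hZ' y0).1 u (by omega),
        (twist_eval ψ hψ h2 hi hZ' y1).1 u (by omega)]
      simp only [w, if_neg hx]
      by_cases e0 : dd x = y0
      · rw [hε x hx (Or.inl e0), if_pos e0, if_pos e0, if_neg (e0 ▸ hy), if_neg (e0 ▸ hy)]
        push_cast
        ring
      · by_cases e1 : dd x = y1
        · rw [hε x hx (Or.inr e1), if_neg e0, if_neg e0, if_pos e1, if_pos e1]
          push_cast
          ring
        · rw [if_neg e0, if_neg e1, if_neg e0, if_neg e1]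
          simp
  have htot : ∀ y, ∑ x, twist ψ u (Z x) y = 0 := by
    intro y
    simp only [twist]
    rw [Finset.sum_comm]
    refine Finset.sum_eq_zero fun t ht => ?_
    rw [← Finset.sum_mul, ← Finset.mul_sum, hsum t (ne_of_mem_erase ht), mul_zero, zero_mul]
  have hw0 : ∑ x, w x = 0 := by
    have h := congrArg₂ (· - ·) (htot y0) (htot y1)
    simp only [← Finset.sum_sub_distrib, hdiff, ← Finset.mul_sum, sub_zero] at h
    have := (mul_eq_zero.1 h).resolve_left
      (pow_ne_zero _ (Nat.cast_ne_zero.2 Fintype.card_ne_zero))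
    exact_mod_cast this
  set one := Sq.filter fun x => c x = y0 ∧ u - r x = 1 with hone
  have hsplit : ∑ x, w x
      = ((univ.filter fun x => x ∉ Bad ∧ dd x = y0).card : ℤ)
        - (univ.filter fun x => x ∉ Bad ∧ dd x = y1).card
        + ∑ x ∈ Sq, if c x = y0 then corr q (u - r x) else 0 := by
    have hb : ∀ x, w x = (if x ∉ Bad ∧ dd x = y0 then (1 : ℤ) else 0)
        - (if x ∉ Bad ∧ dd x = y1 then 1 else 0)
        + (if x ∈ Sq then (if c x = y0 then corr q (u - r x) else 0) else 0) := by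
      intro x
      by_cases hx : x ∈ Bad
      · simp [w, hx, ite_and]
      · have : x ∉ Sq := fun h => hx (hSq h)
        simp [w, hx, this]
    simp only [hb, Finset.sum_add_distrib, Finset.sum_sub_distrib, Finset.sum_boole,
      Finset.sum_ite_mem, univ_inter]
  have hdvd : q ∣ (∑ x ∈ Sq, if c x = y0 then corr q (u - r x) else 0) + (one.card : ℤ) := by
    rw [hone, ← Finset.sum_boole, ← Finset.sum_add_distrib]
    refine Finset.dvd_sum fun x hx => ?_
    by_cases hc : c x = y0
    · simp only [hc, true_and, if_true]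
      exact dvd_corr q (by have := (hsq x hx).1; omega)
    · simp [hc]
  have hone_le : one.card ≤ Bad.card :=
    (Finset.card_filter_le _ _).trans (Finset.card_le_card hSq)
  rw [hsplit] at hw0
  have hdvd2 : q ∣ ((univ.filter fun x => x ∉ Bad ∧ dd x = y0).card : ℤ)
      - (univ.filter fun x => x ∉ Bad ∧ dd x = y1).card - one.card := by
    obtain ⟨z, hz⟩ := hdvd
    exact ⟨-z, by linear_combination hw0 - hz⟩
  have hzero' := Int.eq_zero_of_abs_lt_dvd hdvd2 (by rw [abs_lt]; omega)
  omega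

end Vale.Agent.P295
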