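import Mathlib

/-!
P295: `a Y + c0 + c1 Z + c2 Z^2` is a coordinate over `K` when, modulo `a`, `c1` is a unit and
`c2` is nilpotent.
-/

namespace Vale.Agent.P295

open Polynomial

variable {K : Type*} [CommRing K]

/-- A quadratic polynomial with unit linear and nilpotent quadratic term has a compositional
inverse. -/
lemma exists_comp_inverse {c0 c1 c2 : K} (h1 : IsUnit c1) (h2 : IsNilpotent c2) :
    ∃ q : K[X], (C c0 + C c1 * X + C c2 * X ^ 2).comp q = X ∧
      q.comp (C c0 + C c1 * X + C c2 * X ^ 2) = X := by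
  set F : K[X] := C c0 + C c1 * X + C c2 * X ^ 2 with hF
  obtain ⟨u, rfl⟩ := h1
  have hn : IsNilpotent (C c2 : K[X]) := h2.map C
  let x0 : K[X] := C (↑u⁻¹ : K) * (X - C c0)
  let P : (K[X])[X] := Polynomial.C (C c0 - X) + Polynomial.C (C (u : K)) * X
    + Polynomial.C (C c2) * X ^ 2
  have hP : ∀ z : K[X], aeval z P = F.comp z - X := by
    intro z
    simp only [P, hF, map_add, map_sub, map_mul, aeval_C, aeval_X, aeval_X_pow, add_comp, mul_comp,
      C_comp, X_comp, pow_comp, Algebra.algebraMap_self, RingHom.id_apply]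
    ring
  have hu : (C (u : K) * C (↑u⁻¹ : K) : K[X]) = 1 := by
    rw [← C_mul, Units.mul_inv, C_1]
  have e0 : aeval x0 P = C c2 * x0 ^ 2 := by
    rw [hP, hF]
    simp only [add_comp, mul_comp, C_comp, X_comp, pow_comp, x0]
    linear_combination (X - C c0) * hu
  have e1 : aeval x0 (derivative P) = C (u : K) + C c2 * (2 * x0) := by
    simp only [P, derivative_C, derivative_C_mul_X, derivative_C_mul_X_pow,
      map_add, map_mul, zero_add, aeval_C, aeval_X_pow, Algebra.algebraMap_self, RingHom.id_apply]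
    push_cast
    ring
  obtain ⟨q, ⟨-, hq⟩, -⟩ := existsUnique_nilpotent_sub_and_aeval_eq_zero (P := P) (x := x0)
    (by rw [e0]; exact (Commute.all _ _).isNilpotent_mul_right hn)
    (by
      rw [e1]
      exact IsNilpotent.isUnit_add_left_of_commute
        ((Commute.all _ _).isNilpotent_mul_right hn) (u.isUnit.map C) (Commute.all _ _))
  rw [hP, sub_eq_zero] at hq
  refine ⟨q, hq, ?_⟩
  have h : F.comp (q.comp F) = F := by rw [← comp_assoc, hq, X_comp]
  have hz : (q.comp F - X) * (C (u : K) + C c2 * (q.comp F + X)) = 0 := by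
    rw [hF] at h ⊢
    simp only [add_comp, mul_comp, C_comp, X_comp, pow_comp] at h
    linear_combination h
  have hunit : IsUnit (C (u : K) + C c2 * (q.comp F + X)) :=
    IsNilpotent.isUnit_add_left_of_commute
      ((Commute.all _ _).isNilpotent_mul_right hn) (u.isUnit.map C) (Commute.all _ _)
  exact sub_eq_zero.1 (hunit.mul_left_eq_zero.1 hz)

/-- The coordinate lemma. -/
theorem exists_algEquiv_linear [IsDomain K] {a c0 c1 c2 : K} (ha : a ≠ 0)
    (h1 : IsUnit (Ideal.Quotient.mk (Ideal.span {a}) c1))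
    (h2 : IsNilpotent (Ideal.Quotient.mk (Ideal.span {a}) c2)) :
    ∃ e : MvPolynomial (Fin 2) K ≃ₐ[K] MvPolynomial (Fin 2) K,
      e (MvPolynomial.C a * MvPolynomial.X 0 + (MvPolynomial.C c0
        + MvPolynomial.C c1 * MvPolynomial.X 1
        + MvPolynomial.C c2 * MvPolynomial.X 1 ^ 2)) = MvPolynomial.X 0 := by
  set π := Ideal.Quotient.mk (Ideal.span {a}) with hπ
  obtain ⟨qb, hq1, hq2⟩ := exists_comp_inverse (c0 := π c0) h1 h2
  obtain ⟨Q, rfl⟩ := Polynomial.map_surjective π Ideal.Quotient.mk_surjective qb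
  set F : K[X] := C c0 + C c1 * X + C c2 * X ^ 2 with hF
  have hFm : F.map π = C (π c0) + C (π c1) * X + C (π c2) * X ^ 2 := by simp [hF]
  have dvd_of : ∀ p : K[X], p.map π = X → C a ∣ p - X := by
    intro p hp
    rw [C_dvd_iff_dvd_coeff]
    intro i
    rw [← Ideal.mem_span_singleton, ← Ideal.Quotient.eq_zero_iff_mem, ← hπ, ← Polynomial.coeff_map,
      Polynomial.map_sub, hp, Polynomial.map_X, sub_self, coeff_zero]
  obtain ⟨A1, hA1⟩ := dvd_of (F.comp Q) (by rw [Polynomial.map_comp, hFm]; exact hq1)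
  obtain ⟨A2, hA2⟩ := dvd_of (Q.comp F) (by rw [Polynomial.map_comp, hFm]; exact hq2)
  set Y : MvPolynomial (Fin 2) K := MvPolynomial.X 0 with hY
  set Z : MvPolynomial (Fin 2) K := MvPolynomial.X 1 with hZ
  set α : MvPolynomial (Fin 2) K := MvPolynomial.C a with hα
  have hα0 : α ≠ 0 := by simpa [hα] using ha
  set f : MvPolynomial (Fin 2) K := α * Y + aeval Z F with hf
  have hdvd : ∀ (G : K[X]) (u v : MvPolynomial (Fin 2) K),
      u - v ∣ aeval u G - aeval v G := fun G u v => by
    simpa [aeval_def, eval_map] using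
      sub_dvd_eval_sub u v (G.map (algebraMap K (MvPolynomial (Fin 2) K)))
  have hU : α ∣ Z - aeval f Q := by
    have h3 : aeval (aeval Z F) Q - Z = α * aeval Z A2 := by
      have := congrArg (aeval Z) hA2
      simpa [aeval_comp, hα] using this
    obtain ⟨t, ht⟩ := hdvd Q f (aeval Z F)
    have hft : f - aeval Z F = α * Y := by rw [hf]; ring
    exact ⟨-aeval Z A2 - Y * t, by linear_combination -h3 - ht - t * hft⟩
  obtain ⟨U, hU⟩ := hU
  set w : MvPolynomial (Fin 2) K := aeval Y Q + α * Z with hw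
  have hW : α ∣ Y - aeval w F := by
    have h3 : aeval (aeval Y Q) F - Y = α * aeval Y A1 := by
      have := congrArg (aeval Y) hA1
      simpa [aeval_comp, hα] using this
    obtain ⟨t, ht⟩ := hdvd F w (aeval Y Q)
    have hwt : w - aeval Y Q = α * Z := by rw [hw]; ring
    exact ⟨-aeval Y A1 - Z * t, by linear_combination -h3 - ht - t * hwt⟩
  obtain ⟨W, hW⟩ := hW
  let θ : MvPolynomial (Fin 2) K →ₐ[K] MvPolynomial (Fin 2) K := MvPolynomial.aeval ![f, U]
  let η : MvPolynomial (Fin 2) K →ₐ[K] MvPolynomial (Fin 2) K := MvPolynomial.aeval ![W, w]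
  have θY : θ Y = f := by simp [θ, hY]
  have θZ : θ Z = U := by simp [θ, hZ]
  have ηY : η Y = W := by simp [η, hY]
  have ηZ : η Z = w := by simp [η, hZ]
  have θα : θ α = α := by simp [θ, hα]
  have ηα : η α = α := by simp [η, hα]
  have ηf : η f = Y := by
    rw [hf, map_add, map_mul, ηα, ηY, ← aeval_algHom_apply, ηZ, ← hW]
    ring
  have θη : θ.comp η = AlgHom.id K (MvPolynomial (Fin 2) K) := by
    have hθw : θ w = Z := by
      rw [hw, map_add, map_mul, θα, θZ, ← aeval_algHom_apply, θY, ← hU]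
      ring
    refine MvPolynomial.algHom_ext fun i => ?_
    fin_cases i
    · show θ (η Y) = Y
      have := congrArg θ hW
      rw [map_sub, map_mul, θα, ← aeval_algHom_apply, θY, hθw, hf] at this
      rw [ηY]
      exact mul_left_cancel₀ hα0 (by linear_combination -this)
    · show θ (η Z) = Z
      rw [ηZ, hθw]
  have ηθ : η.comp θ = AlgHom.id K (MvPolynomial (Fin 2) K) := by
    refine MvPolynomial.algHom_ext fun i => ?_
    fin_cases i
    · show η (θ Y) = Y
      rw [θY, ηf]
    · show η (θ Z) = Z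
      have := congrArg η hU
      rw [map_sub, map_mul, ηα, ← aeval_algHom_apply, ηf, ηZ, hw] at this
      rw [θZ]
      exact mul_left_cancel₀ hα0 (by linear_combination -this)
  refine ⟨AlgEquiv.ofAlgHom η θ ηθ θη, ?_⟩
  show η _ = Y
  convert ηf using 2
  simp [hf, hF, hα, hY, hZ]

end Vale.Agent.P295
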