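import Mathlib

/-!
# Locally nilpotent derivations and the slice theorem

Commuting locally nilpotent derivations `D i` with a system of slices `Q i` make the algebra a
polynomial ring in the slices over the common kernel.
-/

namespace Vale.Agent.P295

open MvPolynomial

section General

variable {R B : Type*} [CommRing R] [CommRing B] [Algebra R B]

/-- A derivation is locally nilpotent if each element is killed by one of its iterates. -/
def IsLND (D : Derivation R B B) : Prop := ∀ b, ∃ n : ℕ, D^[n] b = 0

theorem iterate_zero_of_le (D : Derivation R B B) {b : B} {n m : ℕ} (h : D^[n] b = 0)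
    (hnm : n ≤ m) : D^[m] b = 0 := by
  obtain ⟨k, rfl⟩ := Nat.exists_eq_add_of_le hnm
  rw [Nat.add_comm, Function.iterate_add_apply, h, iterate_map_zero]

theorem iterate_mul_zero (D : Derivation R B B) : ∀ (N n m : ℕ) (a b : B),
    D^[n] a = 0 → D^[m] b = 0 → n + m ≤ N + 1 → D^[N] (a * b) = 0 := by
  intro N
  induction N with
  | zero =>
    intro n m a b ha hb h
    rcases Nat.eq_zero_or_pos n with rfl | hn
    · simp only [Function.iterate_zero_apply] at ha
      simp [ha]
    · obtain rfl : m = 0 := by omega
      simp only [Function.iterate_zero_apply] at hb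
      simp [hb]
  | succ N ih =>
    intro n m a b ha hb h
    rcases Nat.eq_zero_or_pos n with rfl | hn
    · simp only [Function.iterate_zero_apply] at ha
      simp [ha, iterate_map_zero]
    rcases Nat.eq_zero_or_pos m with rfl | hm
    · simp only [Function.iterate_zero_apply] at hb
      simp [hb, iterate_map_zero]
    rw [Function.iterate_succ_apply, D.leibniz, iterate_map_add, smul_eq_mul, smul_eq_mul]
    obtain ⟨n, rfl⟩ : ∃ k, n = k + 1 := ⟨n - 1, by omega⟩
    obtain ⟨m, rfl⟩ : ∃ k, m = k + 1 := ⟨m - 1, by omega⟩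
    rw [ih (n + 1) m a (D b) ha (by rwa [← Function.iterate_succ_apply]) (by omega),
      ih (m + 1) n b (D a) hb (by rwa [← Function.iterate_succ_apply]) (by omega), add_zero]

/-- The elements killed by some iterate form a subalgebra. -/
def nilSub (D : Derivation R B B) : Subalgebra R B where
  carrier := {b | ∃ n : ℕ, D^[n] b = 0}
  mul_mem' := by
    rintro a b ⟨n, ha⟩ ⟨m, hb⟩
    exact ⟨n + m, iterate_mul_zero D _ n m a b ha hb (Nat.le_succ _)⟩
  add_mem' := by
    rintro a b ⟨n, ha⟩ ⟨m, hb⟩
    exact ⟨max n m, by rw [iterate_map_add, iterate_zero_of_le D ha (le_max_left _ _),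
      iterate_zero_of_le D hb (le_max_right _ _), add_zero]⟩
  algebraMap_mem' r := ⟨1, by simp⟩

/-- It is enough to check local nilpotence on generators. -/
theorem isLND_of_adjoin (D : Derivation R B B) {s : Set B} (hs : Algebra.adjoin R s = ⊤)
    (h : ∀ b ∈ s, ∃ n : ℕ, D^[n] b = 0) : IsLND D := fun b =>
  (show Algebra.adjoin R s ≤ nilSub D from Algebra.adjoin_le h) (hs ▸ trivial)

/-- The common kernel of a family of derivations. -/
def kerAll {ι : Type*} (D : ι → Derivation R B B) : Subalgebra R B where
  carrier := {b | ∀ i, D i b = 0}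
  mul_mem' := by
    intro a b ha hb i
    simp [ha i, hb i]
  add_mem' := by
    intro a b ha hb i
    simp [ha i, hb i]
  algebraMap_mem' r i := by simp

theorem mem_kerAll {ι : Type*} {D : ι → Derivation R B B} {b : B} :
    b ∈ kerAll D ↔ ∀ i, D i b = 0 := Iff.rfl

theorem iterate_mul_const (D : Derivation R B B) {c : B} (hc : D c = 0) (n : ℕ) (x : B) :
    D^[n] (c * x) = c * D^[n] x := by
  induction n generalizing x with
  | zero => rfl
  | succ n ih => rw [Function.iterate_succ_apply, Function.iterate_succ_apply,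
      D.leibniz, hc, smul_zero, add_zero, smul_eq_mul, ih]

theorem iterate_slice_pow (D : Derivation R B B) {Q : B} (hQ : D Q = 1) (n k : ℕ) :
    D^[k] (Q ^ n) = (n.descFactorial k : B) * Q ^ (n - k) := by
  induction k with
  | zero => simp
  | succ k ih =>
    rw [Function.iterate_succ_apply', ih, D.leibniz, D.map_natCast, smul_zero, add_zero,
      D.leibniz_pow, hQ, smul_eq_mul, nsmul_eq_mul, smul_eq_mul, mul_one, ← mul_assoc,
      ← Nat.cast_mul, mul_comm (n.descFactorial k), Nat.descFactorial_succ, Nat.sub_sub]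

theorem iterate_comm (D E : Derivation R B B) (h : ∀ b, D (E b) = E (D b)) (n : ℕ) (b : B) :
    D (E^[n] b) = E^[n] (D b) := by
  induction n generalizing b with
  | zero => rfl
  | succ n ih => rw [Function.iterate_succ_apply, Function.iterate_succ_apply, ih, h]

theorem iterate_smul (D : Derivation R B B) (q : R) (n : ℕ) (b : B) :
    D^[n] (q • b) = q • D^[n] b := by
  induction n generalizing b with
  | zero => rfl
  | succ n ih => rw [Function.iterate_succ_apply, Function.iterate_succ_apply, D.map_smul, ih]

end General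

section Slice

variable {R B : Type*} [CommRing R] [Algebra ℚ R] [CommRing B] [Algebra R B]
variable {ι : Type*} (D : ι → Derivation R B B) (Q : ι → B)

/-- The evaluation at the slices. -/
noncomputable def sliceHom : MvPolynomial ι (kerAll D) →ₐ[R] B :=
  (MvPolynomial.aeval Q : MvPolynomial ι (kerAll D) →ₐ[kerAll D] B).restrictScalars R

theorem mul_nat_eq_zero (R : Type*) [CommRing R] [Algebra ℚ R] [Algebra R B] {a : B} {k : ℕ} (h : a * ((k : B) + 1) = 0) : a = 0 := by
  have hk : ((k : B) + 1) * algebraMap R B (algebraMap ℚ R ((k + 1 : ℚ)⁻¹)) = 1 := by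
    have e : ((k : B) + 1) = algebraMap R B (algebraMap ℚ R (k + 1 : ℚ)) := by simp
    rw [e, ← map_mul, ← map_mul, mul_inv_cancel₀ (Nat.cast_add_one_ne_zero k), map_one, map_one]
  calc a = a * (((k : B) + 1) * algebraMap R B (algebraMap ℚ R ((k + 1 : ℚ)⁻¹))) := by
        rw [hk, mul_one]
    _ = 0 := by rw [← mul_assoc, h, zero_mul]

theorem slice_surjective [Finite ι] (hlnd : ∀ i, IsLND (D i))
    (hcomm : ∀ i j b, D i (D j b) = D j (D i b)) (hself : ∀ i, D i (Q i) = 1)
    (hother : ∀ i j, i ≠ j → D i (Q j) = 0) : Function.Surjective (sliceHom D Q) := by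
  classical
  have := Fintype.ofFinite ι
  suffices h : ∀ (J : Finset ι) (b : B), (∀ j ∉ J, D j b = 0) → b ∈ (sliceHom D Q).range from
    fun b => h Finset.univ b fun j hj => absurd (Finset.mem_univ j) hj
  intro J
  induction J using Finset.induction with
  | empty => exact fun b hb => ⟨C ⟨b, fun i => hb i (Finset.notMem_empty i)⟩, by simp [sliceHom]⟩
  | insert i J hiJ ih =>
    suffices h : ∀ (n : ℕ) (b : B), (∀ j ∉ insert i J, D j b = 0) → (D i)^[n] b = 0 →
        b ∈ (sliceHom D Q).range from fun b hb => (hlnd i b).elim fun n hn => h n b hb hn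
    intro n
    induction n with
    | zero => exact fun b _ hn => by simp only [Function.iterate_zero_apply] at hn; simp [hn]
    | succ n ihn =>
      intro b hb hn
      set c := (D i)^[n] b
      have hci : D i c = 0 := by rw [← Function.iterate_succ_apply' (D i) n b]; exact hn
      have hcj : ∀ j ∉ J, D j c = 0 := fun j hj => by
        by_cases hji : j = i
        · exact hji ▸ hci
        · rw [iterate_comm (D j) (D i) (hcomm j i) n b,
            hb j (by simp [hji, hj]), iterate_map_zero]
      set q : R := algebraMap ℚ R ((n.factorial : ℚ)⁻¹)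
      have hq : q • (n.factorial : B) = 1 := by
        have e : (n.factorial : B) = algebraMap R B (algebraMap ℚ R (n.factorial : ℚ)) := by simp
        rw [Algebra.smul_def, e, ← map_mul, ← map_mul,
          inv_mul_cancel₀ (Nat.cast_ne_zero.2 (Nat.factorial_ne_zero n)), map_one, map_one]
      have hQmem : Q i ∈ (sliceHom D Q).range := ⟨X i, by simp [sliceHom]⟩
      have hsub : b - q • (c * Q i ^ n) ∈ (sliceHom D Q).range := by
        refine ihn _ (fun j hj => ?_) ?_
        · have hji : j ≠ i := fun e => hj (by simp [e])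
          rw [map_sub, hb j hj, Derivation.map_smul, Derivation.leibniz, Derivation.leibniz_pow,
            hother j i hji, hcj j (fun h => hj (Finset.mem_insert_of_mem h))]
          simp
        · rw [iterate_map_sub, iterate_smul, iterate_mul_const _ hci, iterate_slice_pow _ (hself i)]
          simp [Nat.descFactorial_self, ← mul_smul_comm, hq, c]
      have := add_mem hsub (Subalgebra.smul_mem _ (mul_mem (ih c hcj) (pow_mem hQmem n)) q)
      rwa [sub_add_cancel] at this

theorem deriv_sliceHom [DecidableEq ι] (hself : ∀ i, D i (Q i) = 1)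
    (hother : ∀ i j, i ≠ j → D i (Q j) = 0) (i : ι) (p : MvPolynomial ι (kerAll D)) :
    D i (sliceHom D Q p) = sliceHom D Q (pderiv i p) := by
  induction p using MvPolynomial.induction_on with
  | C a => simpa [sliceHom] using a.2 i
  | add p q hp hq => simp [hp, hq]
  | mul_X p j hp =>
    rw [pderiv_mul, map_add, map_mul (sliceHom D Q), map_mul (sliceHom D Q),
      map_mul (sliceHom D Q), Derivation.leibniz, hp]
    by_cases hij : i = j
    · subst hij
      simp [sliceHom, hself]
      ring
    · simp [sliceHom, hother i j hij, pderiv_X_of_ne (Ne.symm hij)]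
      ring

theorem slice_injective (hself : ∀ i, D i (Q i) = 1)
    (hother : ∀ i j, i ≠ j → D i (Q j) = 0) : Function.Injective (sliceHom D Q) := by
  classical
  rw [injective_iff_map_eq_zero]
  suffices h : ∀ (N : ℕ) (p : MvPolynomial ι (kerAll D)), (∀ m ∈ p.support, m.degree < N) →
      sliceHom D Q p = 0 → p = 0 from fun p hp =>
    h (p.support.sup (fun m => m.degree) + 1) p
      (fun m hm => Nat.lt_succ_of_le (Finset.le_sup (f := fun m => m.degree) hm)) hp
  intro N
  induction N with
  | zero =>
    intro p hp _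
    exact support_eq_empty.1 (Finset.eq_empty_of_forall_notMem fun m hm => Nat.not_lt_zero _ (hp m hm))
  | succ N ih =>
    intro p hp hz
    have hd : ∀ i, pderiv i p = 0 := fun i => by
      refine ih _ (fun m hm => ?_) (by rw [← deriv_sliceHom D Q hself hother, hz, map_zero])
      rw [mem_support_iff, coeff_pderiv] at hm
      have := hp _ (mem_support_iff.2 (left_ne_zero_of_mul hm))
      rw [map_add, Finsupp.degree_single] at this
      omega
    have hC : p = C (coeff 0 p) := by
      ext m : 1
      by_cases hm : m = 0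
      · simp [hm]
      obtain ⟨i, hi⟩ : ∃ i, m i ≠ 0 := by
        by_contra hc
        push Not at hc
        exact hm (Finsupp.ext hc)
      have h1 := congrArg (coeff (m - Finsupp.single i 1)) (hd i)
      rw [coeff_pderiv, coeff_zero, tsub_add_cancel_of_le
        (Finsupp.single_le_iff.2 (Nat.one_le_iff_ne_zero.2 hi))] at h1
      rw [coeff_C, if_neg (Ne.symm hm)]
      have h2 := congrArg ((kerAll D).val) h1
      simp only [map_mul, map_add, map_natCast, map_one, map_zero] at h2
      exact Subtype.ext (mul_nat_eq_zero R h2)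
    rw [hC] at hz ⊢
    have h0 : ((coeff 0 p : kerAll D) : B) = 0 := by simpa [sliceHom] using hz
    rw [show coeff 0 p = 0 from Subtype.ext h0, map_zero]

/-- The slice theorem. -/
noncomputable def sliceEquiv [Finite ι] (hlnd : ∀ i, IsLND (D i))
    (hcomm : ∀ i j b, D i (D j b) = D j (D i b)) (hself : ∀ i, D i (Q i) = 1)
    (hother : ∀ i j, i ≠ j → D i (Q j) = 0) : MvPolynomial ι (kerAll D) ≃ₐ[R] B :=
  AlgEquiv.ofBijective (sliceHom D Q)
    ⟨slice_injective D Q hself hother, slice_surjective D Q hlnd hcomm hself hother⟩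

theorem sliceEquiv_C [Finite ι] (hlnd : ∀ i, IsLND (D i))
    (hcomm : ∀ i j b, D i (D j b) = D j (D i b)) (hself : ∀ i, D i (Q i) = 1)
    (hother : ∀ i j, i ≠ j → D i (Q j) = 0) (a : kerAll D) :
    sliceEquiv D Q hlnd hcomm hself hother (C a) = a := by
  simp [sliceEquiv, sliceHom]

theorem sliceEquiv_X [Finite ι] (hlnd : ∀ i, IsLND (D i))
    (hcomm : ∀ i j b, D i (D j b) = D j (D i b)) (hself : ∀ i, D i (Q i) = 1)
    (hother : ∀ i j, i ≠ j → D i (Q j) = 0) (i : ι) :
    sliceEquiv D Q hlnd hcomm hself hother (X i) = Q i := by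
  simp [sliceEquiv, sliceHom]

/-- If the common kernel is a polynomial ring then so is the algebra, with the slices added. -/
theorem exists_equiv_of_kerAll [Finite ι] (hlnd : ∀ i, IsLND (D i))
    (hcomm : ∀ i j b, D i (D j b) = D j (D i b)) (hself : ∀ i, D i (Q i) = 1)
    (hother : ∀ i j, i ≠ j → D i (Q j) = 0) {κ : Type*}
    (e : MvPolynomial κ R ≃ₐ[R] kerAll D) :
    ∃ φ : MvPolynomial (ι ⊕ κ) R ≃ₐ[R] B,
      (∀ i, φ (X (Sum.inl i)) = Q i) ∧ ∀ k, φ (X (Sum.inr k)) = e (X k) := by
  refine ⟨((sumAlgEquiv R ι κ).trans (mapAlgEquiv ι e)).trans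
    (sliceEquiv D Q hlnd hcomm hself hother), fun i => ?_, fun k => ?_⟩
  · simp [sliceEquiv, sliceHom]
  · simp [sliceEquiv, sliceHom]

end Slice

section Coordinate

variable {R B : Type*} [CommRing R] [CommRing B] [Algebra R B] {σ : Type*}

theorem isLND_pderiv [DecidableEq σ] (i : σ) : IsLND (pderiv (R := R) i) := by
  refine isLND_of_adjoin _ (MvPolynomial.adjoin_range_X (R := R)) ?_
  rintro _ ⟨j, rfl⟩
  refine ⟨2, ?_⟩
  by_cases h : j = i
  · subst h; simp
  · simp [pderiv_X_of_ne h]

/-- A derivation moved along an algebra isomorphism. -/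
noncomputable def conjDeriv {B' : Type*} [CommRing B'] [Algebra R B'] (φ : B ≃ₐ[R] B')
    (D : Derivation R B B) : Derivation R B' B' :=
  Derivation.mk' ((φ.toLinearMap.comp D.toLinearMap).comp φ.symm.toLinearMap) fun a b => by
    simp [map_add]

theorem conjDeriv_apply {B' : Type*} [CommRing B'] [Algebra R B'] (φ : B ≃ₐ[R] B')
    (D : Derivation R B B) (b : B') : conjDeriv φ D b = φ (D (φ.symm b)) := rfl

theorem isLND_conjDeriv {B' : Type*} [CommRing B'] [Algebra R B'] (φ : B ≃ₐ[R] B')
    {D : Derivation R B B} (hD : IsLND D) : IsLND (conjDeriv φ D) := by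
  intro b
  obtain ⟨n, hn⟩ := hD (φ.symm b)
  refine ⟨n, ?_⟩
  have h : ∀ k, (conjDeriv φ D)^[k] b = φ (D^[k] (φ.symm b)) := fun k => by
    induction k with
    | zero => simp
    | succ k ih => rw [Function.iterate_succ_apply', ih, conjDeriv_apply, φ.symm_apply_apply,
        Function.iterate_succ_apply']
  rw [h, hn, map_zero]

/-- A polynomial coordinate system gives commuting locally nilpotent derivations with the
variables as slices. -/
theorem exists_lnd_of_coordinates [DecidableEq σ] (φ : MvPolynomial σ R ≃ₐ[R] B) :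
    ∃ E : σ → Derivation R B B, (∀ i, IsLND (E i)) ∧ (∀ i j b, E i (E j b) = E j (E i b)) ∧
      (∀ i, E i (φ (X i)) = 1) ∧ ∀ i j, i ≠ j → E i (φ (X j)) = 0 := by
  refine ⟨fun i => conjDeriv φ (pderiv i), fun i => isLND_conjDeriv φ (isLND_pderiv i),
    fun i j b => ?_, fun i => by simp [conjDeriv_apply], fun i j h => ?_⟩
  · simp only [conjDeriv_apply, AlgEquiv.symm_apply_apply]
    congr 1
    generalize φ.symm b = p
    ext m : 1
    simp only [coeff_pderiv]
    by_cases h : i = j
    · subst h; rfl
    · simp [Finsupp.single_apply, h, Ne.symm h, add_right_comm]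
      ring
  · simp [conjDeriv_apply, pderiv_X_of_ne (Ne.symm h)]

end Coordinate

end Vale.Agent.P295
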