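import Mathlib

/-!
P295: unimodular vectors over a principal ideal domain, and unimodular symmetric matrices over
`ℂ[T]`, which are congruent to constant ones (a theorem of Harder).
-/

namespace Vale.Agent.P295

open Matrix

variable {τ : Type} [Fintype τ] [DecidableEq τ]

section PID

variable {R : Type} [CommRing R] [IsDomain R] [IsPrincipalIdealRing R]

omit [DecidableEq τ] in
/-- A nonzero vector is a nonzero multiple of a unimodular one. -/
lemma exists_unimodular (v : τ → R) (hv : v ≠ 0) :
    ∃ (g : R) (w φ : τ → R), g ≠ 0 ∧ v = g • w ∧ φ ⬝ᵥ w = 1 := by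
  obtain ⟨l, hl⟩ := Function.ne_iff.1 hv
  set I : Ideal R := Ideal.span (Set.range v) with hI
  set g := Submodule.IsPrincipal.generator I with hg
  have hmem : ∀ k, g ∣ v k := fun k =>
    (Submodule.IsPrincipal.mem_iff_generator_dvd I).1 (Ideal.subset_span ⟨k, rfl⟩)
  choose w hw using hmem
  have hg0 : g ≠ 0 := fun h => hl (by rw [hw l, h, zero_mul]; rfl)
  obtain ⟨φ, hφ⟩ := (Ideal.mem_span_range_iff_exists_fun (v := v) (x := g)).1
    (Submodule.IsPrincipal.generator_mem I)
  refine ⟨g, w, φ, hg0, funext hw, mul_left_cancel₀ hg0 ?_⟩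
  conv_rhs => rw [mul_one, ← hφ]
  rw [dotProduct, Finset.mul_sum]
  exact Finset.sum_congr rfl fun k _ => by rw [hw k]; ring

/-- A unimodular vector is a column of an invertible matrix whose other columns lie in the
kernel of a chosen functional. -/
lemma exists_completion (w φ : τ → R) (h : φ ⬝ᵥ w = 1) :
    ∃ (P : Matrix τ τ R) (l0 : τ), IsUnit P.det ∧ (fun k => P k l0) = w ∧
      ∀ l, l ≠ l0 → φ ⬝ᵥ (fun k => P k l) = 0 := by
  let f : (τ → R) →ₗ[R] R :=
    { toFun := fun y => φ ⬝ᵥ y
      map_add' := fun y z => dotProduct_add φ y z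
      map_smul' := fun c y => dotProduct_smul c φ y }
  obtain ⟨k, ⟨bK⟩⟩ := Submodule.nonempty_basis_of_pid (Pi.basisFun R τ) (LinearMap.ker f)
  let e : (R × LinearMap.ker f) ≃ₗ[R] (τ → R) :=
    LinearEquiv.ofLinearMap
      ((LinearMap.id.smulRight w).coprod (LinearMap.ker f).subtype)
      (f.prod ((LinearMap.id - f.smulRight w).codRestrict (LinearMap.ker f) fun y => by
        simp [LinearMap.mem_ker, f, h, dotProduct_sub]))
      (by
        ext y l
        simp)
      (by
        refine LinearMap.ext fun p => ?_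
        have hp : φ ⬝ᵥ (p.2 : τ → R) = 0 := p.2.2
        have h1 : φ ⬝ᵥ (p.1 • w + (p.2 : τ → R)) = p.1 := by
          rw [dotProduct_add, dotProduct_smul, h, hp, smul_eq_mul, mul_one, add_zero]
        refine Prod.ext ?_ (Subtype.ext ?_)
        · exact h1
        · show p.1 • w + (p.2 : τ → R) - (φ ⬝ᵥ (p.1 • w + (p.2 : τ → R))) • w = p.2
          rw [h1]
          abel)
  let b0 : Module.Basis (Unit ⊕ Fin k) R (τ → R) :=
    ((Module.Basis.singleton Unit R).prod bK).map e
  let idx := b0.indexEquiv (Pi.basisFun R τ)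
  let b : Module.Basis τ R (τ → R) := b0.reindex idx
  have hb : ∀ y, b (idx y) = b0 y := fun y => by simp [b]
  have hw : b (idx (Sum.inl ())) = w := by
    rw [hb]
    simp [b0, e]
  have hker : ∀ l, l ≠ idx (Sum.inl ()) → φ ⬝ᵥ b l = 0 := by
    intro l hl
    obtain ⟨y, rfl⟩ := idx.surjective l
    rcases y with u | j
    · exact absurd rfl hl
    · rw [hb, show b0 (Sum.inr j) = (bK j : τ → R) by simp [b0, e]]
      exact (bK j).2
  refine ⟨(Pi.basisFun R τ).toMatrix b, idx (Sum.inl ()), ?_, ?_, fun l hl => ?_⟩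
  · rw [← Module.Basis.det_apply]
    exact (Pi.basisFun R τ).isUnit_det b
  · funext k'
    simp [Module.Basis.toMatrix_apply, hw]
  · rw [← hker l hl]
    congr 1

end PID

section Tsen

open MvPolynomial

variable {σ : Type} [Fintype σ] [DecidableEq σ]

/-- Setting the variables in `S` to zero. -/
noncomputable def kill (S : Finset σ) : MvPolynomial σ ℂ →ₐ[ℂ] MvPolynomial σ ℂ :=
  aeval fun i => if i ∈ S then 0 else X i

omit [Fintype σ] in
lemma card_le_height_kill [Finite σ] (S : Finset σ) :
    (S.card : ℕ∞) ≤ (RingHom.ker (kill S)).height := by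
  induction S using Finset.induction_on with
  | empty => simp
  | insert a S ha ih =>
    have := RingHom.ker_isPrime (kill S)
    have := RingHom.ker_isPrime (kill (insert a S))
    rw [Finset.card_insert_of_notMem ha, Nat.cast_add, Nat.cast_one]
    refine le_trans (add_le_add ih le_rfl) (Ideal.height_add_one_le_of_lt_of_isPrime ?_)
    have hcomp : kill (insert a S) = (kill {a}).comp (kill S) := by
      refine algHom_ext fun i => ?_
      by_cases h1 : i = a
      · subst h1
        simp [kill, ha]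
      · by_cases h2 : i ∈ S <;> simp [kill, h1, h2]
    refine lt_of_le_of_ne (fun p hp => ?_) fun heq => ?_
    · rw [RingHom.mem_ker] at hp ⊢
      rw [hcomp, AlgHom.comp_apply, hp, map_zero]
    · have h1 : (X a : MvPolynomial σ ℂ) ∈ RingHom.ker (kill (insert a S)) := by
        simp [RingHom.mem_ker, kill]
      rw [← heq] at h1
      simp [RingHom.mem_ker, kill, ha, X_ne_zero] at h1

/-- Fewer polynomials without constant term than variables have a nonzero common zero. -/
lemma exists_common_zero {k : ℕ} (g : Fin k → MvPolynomial σ ℂ) (h0 : ∀ j, eval 0 (g j) = 0)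
    (hk : k < Fintype.card σ) : ∃ z : σ → ℂ, z ≠ 0 ∧ ∀ j, eval z (g j) = 0 := by
  classical
  by_contra hne
  push Not at hne
  set I : Ideal (MvPolynomial σ ℂ) := Ideal.span (Set.range g) with hI
  set m : Ideal (MvPolynomial σ ℂ) := RingHom.ker (eval (0 : σ → ℂ)) with hm
  have hzero : zeroLocus ℂ I = {(0 : σ → ℂ)} := by
    ext z
    rw [mem_zeroLocus_iff, Set.mem_singleton_iff]
    constructor
    · intro hz
      by_contra hz0
      obtain ⟨j, hj⟩ := hne z hz0
      exact hj (by simpa [aeval_eq_eval] using hz (g j) (Ideal.subset_span ⟨j, rfl⟩))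
    · rintro rfl p hp
      induction hp using Submodule.span_induction with
      | mem p hp => obtain ⟨j, rfl⟩ := hp; simpa [aeval_eq_eval] using h0 j
      | zero => simp
      | add p q _ _ hp hq => rw [map_add, hp, hq, add_zero]
      | smul a p _ hp => rw [smul_eq_mul, map_mul, hp, mul_zero]
  have hrad : I.radical = m := by
    rw [← vanishingIdeal_zeroLocus_eq_radical (K := ℂ), hzero]
    ext p
    simp [hm, RingHom.mem_ker, mem_vanishingIdeal_iff, aeval_eq_eval]
  have hmp : m.IsPrime := RingHom.ker_isPrime _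
  have hmin : m ∈ I.minimalPrimes := by
    refine ⟨⟨hmp, hrad ▸ Ideal.le_radical⟩, fun q hq _ => ?_⟩
    rw [← hrad]
    exact hq.1.radical_le_iff.2 hq.2
  have h1 := Ideal.height_le_card_of_mem_minimalPrimes_span (Set.finite_range g) hmin
  have h2 : (Fintype.card σ : ℕ∞) ≤ m.height := by
    refine le_trans (card_le_height_kill Finset.univ) (Ideal.height_mono fun p hp => ?_)
    rw [RingHom.mem_ker] at hp ⊢
    have h3 : ∀ p, kill (Finset.univ : Finset σ) p = C (eval 0 p) := by
      intro p
      induction p using MvPolynomial.induction_on with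
      | C c => simp [kill]
      | add p q hp hq => simp only [map_add, hp, hq]
      | mul_X p i hp => simp [kill]
    rwa [h3, C_eq_zero] at hp
  have h4 : (Set.range g).ncard ≤ k := by
    rw [← Set.image_univ]
    refine (Set.ncard_image_le Set.finite_univ).trans ?_
    simp
  have h5 : (Fintype.card σ : ℕ∞) ≤ (k : ℕ∞) :=
    le_trans h2 (le_trans h1 (by exact_mod_cast h4))
  have : Fintype.card σ ≤ k := by exact_mod_cast h5
  omega

/-- A quadratic form in at least three variables over `ℂ[T]` has a nonzero zero. -/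
lemma exists_isotropic_three (M : Matrix τ τ (Polynomial ℂ)) (h3 : 3 ≤ Fintype.card τ) :
    ∃ v : τ → Polynomial ℂ, v ≠ 0 ∧ v ⬝ᵥ M *ᵥ v = 0 := by
  classical
  set k := Finset.univ.sup (fun p : τ × τ => (M p.1 p.2).natDegree) with hk
  let V : τ → Polynomial (MvPolynomial (τ × Fin (k + 1)) ℂ) := fun l =>
    ∑ j : Fin (k + 1), Polynomial.C (X (l, j)) * Polynomial.X ^ (j : ℕ)
  let q : Polynomial (MvPolynomial (τ × Fin (k + 1)) ℂ) :=
    V ⬝ᵥ M.map (Polynomial.mapRingHom (C : ℂ →+* _)) *ᵥ V
  have hev : ∀ z : τ × Fin (k + 1) → ℂ, q.map (eval z) =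
      (fun l => ∑ j : Fin (k + 1), Polynomial.C (z (l, j)) * Polynomial.X ^ (j : ℕ)) ⬝ᵥ M *ᵥ
        (fun l => ∑ j : Fin (k + 1), Polynomial.C (z (l, j)) * Polynomial.X ^ (j : ℕ)) := by
    intro z
    have hM : ∀ p : Polynomial ℂ,
        Polynomial.map (eval z) (Polynomial.map (C : ℂ →+* _) p) = p := by
      intro p
      rw [Polynomial.map_map]
      have : (eval z).comp (C : ℂ →+* MvPolynomial (τ × Fin (k + 1)) ℂ) = RingHom.id ℂ :=
        RingHom.ext fun c => eval_C c
      rw [this, Polynomial.map_id]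
    show Polynomial.mapRingHom (eval z) q = _
    simp only [q, dotProduct, mulVec, map_sum, map_mul, Matrix.map_apply, V, map_pow,
      Polynomial.coe_mapRingHom, Polynomial.map_C, Polynomial.map_X, eval_X, hM]
  have hdeg : ∀ (z : τ × Fin (k + 1) → ℂ) (n : ℕ), 3 * k < n → (q.map (eval z)).coeff n = 0 := by
    intro z n hn
    rw [hev z]
    refine Polynomial.coeff_eq_zero_of_natDegree_lt (lt_of_le_of_lt ?_ hn)
    have hV : ∀ l, (∑ j : Fin (k + 1),
        Polynomial.C (z (l, j)) * Polynomial.X ^ (j : ℕ)).natDegree ≤ k := fun l =>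
      Polynomial.natDegree_sum_le_of_forall_le _ _ fun j _ =>
        (Polynomial.natDegree_C_mul_X_pow_le _ _).trans (Nat.le_of_lt_succ j.2)
    refine Polynomial.natDegree_sum_le_of_forall_le _ _ fun l _ => ?_
    refine Polynomial.natDegree_mul_le.trans ?_
    have h2 : ((M *ᵥ fun l => ∑ j : Fin (k + 1),
        Polynomial.C (z (l, j)) * Polynomial.X ^ (j : ℕ)) l).natDegree ≤ 2 * k := by
      refine Polynomial.natDegree_sum_le_of_forall_le _ _ fun l' _ => ?_
      refine Polynomial.natDegree_mul_le.trans ?_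
      have := Finset.le_sup (f := fun p : τ × τ => (M p.1 p.2).natDegree)
        (Finset.mem_univ (l, l'))
      have := hV l'
      simp only [← hk] at *
      omega
    have := hV l
    simp only [] at *
    omega
  obtain ⟨z, hz0, hz⟩ := exists_common_zero (σ := τ × Fin (k + 1))
    (fun n : Fin (3 * k + 1) => q.coeff n) (fun n => by
      rw [← Polynomial.coeff_map, hev]
      simp)
    (by
      rw [Fintype.card_prod, Fintype.card_fin]
      nlinarith)
  refine ⟨fun l => ∑ j : Fin (k + 1), Polynomial.C (z (l, j)) * Polynomial.X ^ (j : ℕ), ?_, ?_⟩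
  · intro h0
    refine hz0 (funext fun p => ?_)
    have := congrArg (fun r : Polynomial ℂ => r.coeff (p.2 : ℕ)) (congrFun h0 p.1)
    simpa [Polynomial.coeff_C_mul, Polynomial.coeff_X_pow, Fin.val_inj, Finset.sum_ite_eq]
      using this
  · rw [← hev z]
    refine Polynomial.ext fun n => ?_
    rw [Polynomial.coeff_zero]
    by_cases hn : 3 * k < n
    · exact hdeg z n hn
    · rw [Polynomial.coeff_map]
      exact hz ⟨n, by omega⟩

end Tsen

section Harder

omit [DecidableEq τ] in
lemma dot_symm {R : Type} [CommRing R] {M : Matrix τ τ R} (hM : Mᵀ = M) (x y : τ → R) :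
    x ⬝ᵥ M *ᵥ y = y ⬝ᵥ M *ᵥ x := by
  conv_rhs => rw [dotProduct_comm, ← hM, mulVec_transpose, ← dotProduct_mulVec]

/-- A unimodular symmetric matrix in at least two variables has a nonzero isotropic vector. -/
lemma exists_isotropic (M : Matrix τ τ (Polynomial ℂ)) (hM : Mᵀ = M) (hdet : IsUnit M.det)
    (h2 : 2 ≤ Fintype.card τ) : ∃ v : τ → Polynomial ℂ, v ≠ 0 ∧ v ⬝ᵥ M *ᵥ v = 0 := by
  rcases eq_or_lt_of_le h2 with h | h
  · let e : τ ≃ Fin 2 := (Fintype.equivFin τ).trans (finCongr h.symm)
    set N := M.submatrix e.symm e.symm with hN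
    obtain ⟨δ, -, hδ⟩ := Polynomial.isUnit_iff.1 hdet
    have hdN : N.det = Polynomial.C δ := by rw [hN, det_submatrix_equiv_self, hδ]
    rw [det_fin_two] at hdN
    obtain ⟨s, hs⟩ := IsAlgClosed.exists_eq_mul_self (-δ)
    have h10 : N 1 0 = N 0 1 := congrFun (congrFun hM (e.symm 0)) (e.symm 1)
    have key : ∀ w : Fin 2 → Polynomial ℂ,
        (w ∘ e) ⬝ᵥ M *ᵥ (w ∘ e) = w ⬝ᵥ N *ᵥ w := by
      intro w
      have : N *ᵥ w = (M *ᵥ (w ∘ e)) ∘ e.symm := by
        rw [hN, submatrix_mulVec_equiv]
        simp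
      rw [this, ← comp_equiv_symm_dotProduct]
      congr 1
    rw [h10] at hdN
    have hs' : Polynomial.C (-δ) = Polynomial.C s * Polynomial.C s := by
      rw [← Polynomial.C_mul, hs]
    rw [Polynomial.C_neg] at hs'
    by_cases hA : N 0 0 = 0
    · refine ⟨(![1, 0] : Fin 2 → Polynomial ℂ) ∘ e, fun h0 => ?_, ?_⟩
      · have := congrFun h0 (e.symm 0)
        simp at this
      · rw [key]
        simp [dotProduct, mulVec, Fin.sum_univ_two, hA]
    · refine ⟨(![Polynomial.C s - N 0 1, N 0 0] : Fin 2 → Polynomial ℂ) ∘ e, fun h0 => hA ?_, ?_⟩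
      · have := congrFun h0 (e.symm 1)
        simpa using this
      · rw [key]
        simp only [dotProduct, mulVec, Fin.sum_univ_two, Matrix.cons_val_zero, Matrix.cons_val_one,
          h10]
        linear_combination (N 0 0) * hdN - (N 0 0) * hs'
  · exact exists_isotropic_three M h

/-- A unimodular symmetric matrix takes a unit value. -/
lemma exists_unit_value (M : Matrix τ τ (Polynomial ℂ)) (hM : Mᵀ = M) (hdet : IsUnit M.det)
    (h2 : 2 ≤ Fintype.card τ) :
    ∃ a : τ → Polynomial ℂ, a ⬝ᵥ M *ᵥ a = 2 := by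
  obtain ⟨v, hv0, hv⟩ := exists_isotropic M hM hdet h2
  obtain ⟨g, w, φ, hg, rfl, hφ⟩ := exists_unimodular v hv0
  have hw : w ⬝ᵥ M *ᵥ w = 0 := by
    rw [mulVec_smul, dotProduct_smul, smul_dotProduct, smul_eq_mul, smul_eq_mul] at hv
    exact ((mul_eq_zero.1 ((mul_eq_zero.1 hv).resolve_left hg)).resolve_left hg)
  set u := M⁻¹ *ᵥ φ with hu
  have hwu : w ⬝ᵥ M *ᵥ u = 1 := by
    rw [hu, mulVec_mulVec, mul_nonsing_inv _ hdet, one_mulVec, dotProduct_comm, hφ]
  set c : Polynomial ℂ := Polynomial.C (1 / 2) * (u ⬝ᵥ M *ᵥ u) with hc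
  refine ⟨(1 - c) • w + u, ?_⟩
  simp only [mulVec_add, mulVec_smul, dotProduct_add, add_dotProduct, dotProduct_smul,
    smul_dotProduct, hw, hwu, dot_symm hM u w, smul_eq_mul]
  rw [hc]
  have h12 : Polynomial.C (1 / 2 : ℂ) * 2 = 1 := by
    rw [show (2 : Polynomial ℂ) = Polynomial.C 2 from (Polynomial.C_ofNat 2).symm,
      ← Polynomial.C_mul]
    norm_num
  linear_combination -(u ⬝ᵥ M *ᵥ u) * h12

theorem exists_congr_const_aux : ∀ (n : ℕ) (τ : Type) [Fintype τ] [DecidableEq τ],
    Fintype.card τ = n → ∀ M : Matrix τ τ (Polynomial ℂ), Mᵀ = M → IsUnit M.det →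
      ∃ (P : Matrix τ τ (Polynomial ℂ)) (M0 : Matrix τ τ ℂ), IsUnit P.det ∧
        Pᵀ * M * P = M0.map Polynomial.C := by
  intro n
  induction n with
  | zero =>
    intro τ _ _ hn M _ _
    have := Fintype.card_eq_zero_iff.1 hn
    exact ⟨1, 0, by simp, Matrix.ext fun i => isEmptyElim i⟩
  | succ n ih =>
    intro τ _ _ hn M hM hdet
    rcases Nat.eq_zero_or_pos n with hn0 | hn0
    · subst hn0
      have : Unique τ := (Fintype.equivOfCardEq (hn.trans Fintype.card_unit.symm)).unique
      refine ⟨1, Matrix.of fun _ _ => (M default default).coeff 0, by simp, ?_⟩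
      rw [det_unique, Polynomial.isUnit_iff] at hdet
      obtain ⟨δ, -, hδ⟩ := hdet
      refine Matrix.ext fun i j => ?_
      rw [Unique.eq_default i, Unique.eq_default j]
      simp [← hδ]
    obtain ⟨a, ha⟩ := exists_unit_value M hM hdet (by omega)
    set φ : τ → Polynomial ℂ := Polynomial.C (1 / 2 : ℂ) • (M *ᵥ a) with hφ
    have h12 : Polynomial.C (1 / 2 : ℂ) * 2 = 1 := by
      rw [show (2 : Polynomial ℂ) = Polynomial.C 2 from (Polynomial.C_ofNat 2).symm,
        ← Polynomial.C_mul]
      norm_num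
    have hφa : φ ⬝ᵥ a = 1 := by
      rw [hφ, smul_dotProduct, dotProduct_comm, ha, smul_eq_mul, h12]
    obtain ⟨P, l0, hP, hPa, hPk⟩ := exists_completion a φ hφa
    let e : τ ≃ Unit ⊕ {l // l ≠ l0} :=
      { toFun := fun l => if h : l = l0 then Sum.inl () else Sum.inr ⟨l, h⟩
        invFun := fun y => y.elim (fun _ => l0) Subtype.val
        left_inv := fun l => by by_cases h : l = l0 <;> simp [h]
        right_inv := fun y => by rcases y with u | ⟨l, h⟩ <;> simp [*] }
    set N := (Pᵀ * M * P).submatrix e.symm e.symm with hN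
    have hNsym : Nᵀ = N := by
      rw [hN, transpose_submatrix, transpose_mul, transpose_mul, transpose_transpose, hM,
        Matrix.mul_assoc]
    have hentry : ∀ i j, (Pᵀ * M * P) i j = (fun k => P k i) ⬝ᵥ M *ᵥ fun k => P k j := fun i j =>
      by
        simp only [Matrix.mul_apply, dotProduct, mulVec, transpose_apply, Finset.sum_mul,
          Finset.mul_sum]
        rw [Finset.sum_comm]
        simp [mul_assoc]
    have hrow : ∀ l : {l // l ≠ l0}, N (Sum.inl ()) (Sum.inr l) = 0 := fun l => by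
      have h0 := hPk l l.2
      rw [hφ, smul_dotProduct, smul_eq_mul] at h0
      have h1 : (M *ᵥ a) ⬝ᵥ (fun k => P k l) = 0 :=
        (mul_eq_zero.1 h0).resolve_left (by simp)
      show (Pᵀ * M * P) l0 l = 0
      rw [hentry, hPa, dot_symm hM, dotProduct_comm, h1]
    have hN00 : N (Sum.inl ()) (Sum.inl ()) = 2 := by
      show (Pᵀ * M * P) l0 l0 = 2
      rw [hentry, hPa, ha]
    set M1 := N.toBlocks₂₂ with hM1
    have hblock : N = fromBlocks (Matrix.of fun _ _ => 2) 0 0 M1 := by
      conv_lhs => rw [← fromBlocks_toBlocks N]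
      rw [fromBlocks_inj]
      refine ⟨?_, ?_, ?_, rfl⟩
      · exact Matrix.ext fun u u' => hN00
      · exact Matrix.ext fun u l => hrow l
      · refine Matrix.ext fun l u => ?_
        show N (Sum.inr l) (Sum.inl ()) = 0
        rw [← hNsym, transpose_apply]
        exact hrow l
    have hM1sym : M1ᵀ = M1 := by
      refine Matrix.ext fun i j => ?_
      exact congrFun (congrFun hNsym (Sum.inr i)) (Sum.inr j)
    have hdet1 : IsUnit M1.det := by
      have hd : IsUnit N.det := by
        rw [hN, det_submatrix_equiv_self, det_mul, det_mul, det_transpose]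
        exact (hP.mul hdet).mul hP
      rw [hblock, det_fromBlocks_zero₁₂] at hd
      exact isUnit_of_mul_isUnit_right hd
    have hcard : Fintype.card {l // l ≠ l0} = n := by
      simp [hn]
    obtain ⟨P1, M0, hP1, hM0⟩ := ih {l // l ≠ l0} hcard M1 hM1sym hdet1
    refine ⟨P * (fromBlocks 1 0 0 P1).submatrix e e,
      (fromBlocks (Matrix.of fun _ _ => (2 : ℂ)) 0 0 M0).submatrix e e, ?_, ?_⟩
    · rw [det_mul, det_submatrix_equiv_self, det_fromBlocks_zero₁₂, det_one, one_mul]
      exact hP.mul hP1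
    · have hPP : Pᵀ * M * P = N.submatrix e e := by
        rw [hN, submatrix_submatrix]
        simp
      rw [transpose_mul, transpose_submatrix, Matrix.mul_assoc _ _ M, Matrix.mul_assoc,
        Matrix.mul_assoc, ← Matrix.mul_assoc M, ← Matrix.mul_assoc (Pᵀ),
        ← Matrix.mul_assoc (Pᵀ) M P, hPP, hblock, ← Matrix.mul_assoc,
        submatrix_mul_equiv, submatrix_mul_equiv, fromBlocks_transpose, fromBlocks_multiply,
        fromBlocks_multiply]
      refine Matrix.ext fun i j => ?_
      rcases h1 : e i with u | l <;> rcases h2 : e j with u' | l' <;>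
        simp [h1, h2, hM0, Polynomial.C_ofNat]

/-- Unimodular symmetric matrices over `ℂ[T]` are congruent to constant ones. -/
theorem exists_congr_const (M : Matrix τ τ (Polynomial ℂ)) (hM : Mᵀ = M) (hdet : IsUnit M.det) :
    ∃ (P : Matrix τ τ (Polynomial ℂ)) (M0 : Matrix τ τ ℂ), IsUnit P.det ∧
      Pᵀ * M * P = M0.map Polynomial.C :=
  exists_congr_const_aux _ τ rfl M hM hdet

end Harder

end Vale.Agent.P295
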