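import Vale.Agent.P295.FibreSpread
import Vale.Agent.P295.Unimodular
import Vale.Agent.P295.Construct

/-!
P295: a stable coordinate of degree at most two in `z` with nondegenerate quadratic part is a
coordinate.
-/

namespace Vale.Agent.P295

open MvPolynomial Matrix

variable {τ : Type} [Fintype τ] [DecidableEq τ]

/-- `N / (4 D)` is not constant. -/
lemma squareNum_ne {c0 : Polynomial ℂ} {l : τ → Polynomial ℂ}
    {M : Matrix τ τ (Polynomial ℂ)} (hMs : Mᵀ = M) (hdet : M.det ≠ 0) {m : ℕ}
    (hs : IsCoordinate (rename (Sum.inl : Option τ → Option τ ⊕ Fin m)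
      (body (quadPoly c0 l M)))) (y : ℂ) :
    squareNum c0 l M - Polynomial.C y * (Polynomial.C 4 * M.det) ≠ 0 := by
  intro h0
  rw [sub_eq_zero] at h0
  obtain ⟨x0, hx0⟩ := Infinite.exists_notMem_finset M.det.roots.toFinset
  have hD0 : M.det.eval x0 ≠ 0 := fun h =>
    hx0 (Multiset.mem_toFinset.2 ((Polynomial.mem_roots hdet).2 h))
  set g : MvPolynomial τ (Polynomial ℂ) →+* MvPolynomial (Option τ) ℂ := body with hg
  set φ : Polynomial ℂ →+* MvPolynomial (Option τ) ℂ := g.comp C with hφ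
  set z : τ → MvPolynomial (Option τ) ℂ := fun j => X (some j) with hz
  set D := φ M.det with hD
  set w : τ → MvPolynomial (Option τ) ℂ := (2 * D) • z + (M.map φ).adjugate *ᵥ (φ ∘ l) with hw
  set f := body (quadPoly c0 l M) with hf
  have hfe : f = φ c0 + (φ ∘ l) ⬝ᵥ z + z ⬝ᵥ M.map φ *ᵥ z := by
    rw [hf, ← eval₂_quadPoly φ z c0 l M]
    refine DFunLike.congr_fun (g := eval₂Hom φ z) (MvPolynomial.ringHom_ext (fun p => ?_)
      fun j => ?_) _
    · simp [hφ, hg]
    · simp [hz, body]
  have key : 4 * D * D * (f - C y) = w ⬝ᵥ M.map φ *ᵥ w := by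
    have h := complete_square (φ c0) (φ ∘ l) z (M.map φ) (by rw [← transpose_map, hMs])
    have hN : squareNum (φ c0) (φ ∘ l) (M.map φ) = φ (Polynomial.C y * (Polynomial.C 4 * M.det)) :=
      by rw [← map_squareNum, h0]
    have hdm : (M.map φ).det = D := (φ.map_det M).symm
    have hCy : φ (Polynomial.C y) = C y := by simp [hφ, hg, body]
    simp only [squareNum, hdm, map_mul, map_ofNat, hCy, ← hfe] at h hN
    rw [← hw] at h
    linear_combination h + D * hN
  let p : Option τ → ℂ := fun o => o.elim x0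
    fun j => -(2 * M.det.eval x0)⁻¹ * ((M.map (Polynomial.eval x0)).adjugate *ᵥ
      fun k => (l k).eval x0) j
  have hev : ∀ q : Polynomial ℂ, eval p (φ q) = q.eval x0 := by
    intro q
    show eval₂ (RingHom.id ℂ) p (body (C q)) = _
    rw [eval₂_body, eval₂_C]
    rfl
  have hw0 : ∀ j, eval p (w j) = 0 := by
    intro j
    have hmap : eval p (((M.map φ).adjugate *ᵥ (φ ∘ l)) j)
        = ((M.map (Polynomial.eval x0)).adjugate *ᵥ fun k => (l k).eval x0) j := by
      have e1 : ((M.map φ).adjugate).map (eval p) = (M.map (Polynomial.eval x0)).adjugate := by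
        rw [show ((M.map φ).adjugate).map (eval p) = (eval p).mapMatrix (M.map φ).adjugate
          from rfl, RingHom.map_adjugate]
        congr 1
        exact Matrix.ext fun a b => hev _
      have e2 : (eval p) ∘ (φ ∘ l) = fun k => (l k).eval x0 := funext fun k => hev _
      rw [RingHom.map_mulVec, e1, e2]
    simp only [hw, Pi.add_apply, Pi.smul_apply, smul_eq_mul, map_add, map_mul, map_ofNat, hmap,
      hD, hev, hz, eval_X]
    simp only [p, Option.elim]
    field_simp
    ring
  have hquad : ∀ i, eval p (pderiv i (w ⬝ᵥ M.map φ *ᵥ w)) = 0 ∧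
      eval p (w ⬝ᵥ M.map φ *ᵥ w) = 0 := by
    intro i
    simp only [dotProduct, mulVec, map_sum, pderiv_mul, map_add, map_mul, Finset.mul_sum]
    constructor <;> simp [hw0]
  obtain ⟨e, k, hk⟩ := hs
  obtain ⟨j, hj⟩ := exists_pderiv_ne_zero e hk (Sum.elim p fun _ => 0)
  rcases j with i | i
  · refine hj ?_
    rw [pderiv_rename Sum.inl_injective, eval_rename]
    show eval p (pderiv i f) = 0
    have h1 := congrArg (eval p) key
    rw [(hquad i).2, map_mul, map_mul, map_mul, map_ofNat, hev] at h1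
    have hf0 : eval p (f - C y) = 0 := (mul_eq_zero.1 h1).resolve_left
      (mul_ne_zero (mul_ne_zero (by norm_num) hD0) hD0)
    have h2 := congrArg (fun q => eval p (pderiv i q)) key
    simp only [(hquad i).1, pderiv_mul, map_add, map_mul, hf0, mul_zero, zero_add, map_sub,
      pderiv_C, sub_zero, map_ofNat, hD, hev] at h2
    exact (mul_eq_zero.1 h2).resolve_left
      (mul_ne_zero (mul_ne_zero (by norm_num) hD0) hD0)
  · refine hj ?_
    have hnot : Sum.inr i ∉ (rename (Sum.inl : Option τ → Option τ ⊕ Fin m) f).vars := fun hmem => by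
      obtain ⟨x, -, hx⟩ := Finset.mem_image.1 (vars_rename _ _ hmem)
      cases hx
    rw [pderiv_eq_zero_of_notMem_vars hnot, map_zero]

/-- The nondegenerate case. -/
theorem isCoordinate_nondeg {c0 : Polynomial ℂ} {l : τ → Polynomial ℂ}
    {M : Matrix τ τ (Polynomial ℂ)} (hMs : Mᵀ = M) (hdet : M.det ≠ 0) {m : ℕ}
    (hs : IsCoordinate (rename (Sum.inl : Option τ → Option τ ⊕ Fin m)
      (body (quadPoly c0 l M)))) :
    IsCoordinate (body (quadPoly c0 l M)) := by
  have hne := squareNum_ne hMs hdet hs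
  obtain ⟨Cs, hCs⟩ := exists_bad_values hMs hdet hs hne
  obtain ⟨hdeg, α, β, hα, hN⟩ := fibre_endgame hdet Cs hne hCs
  obtain ⟨δ, hδ⟩ : ∃ δ, M.det = Polynomial.C δ := ⟨_, Polynomial.eq_C_of_natDegree_eq_zero hdeg⟩
  have hδ0 : δ ≠ 0 := fun h => hdet (by rw [hδ, h, Polynomial.C_0])
  have hunit : IsUnit M.det := by
    rw [hδ]
    exact Polynomial.isUnit_C.2 (isUnit_iff_ne_zero.2 hδ0)
  obtain ⟨P, M0, hP, hPM⟩ := exists_congr_const M hMs hunit
  set k : Polynomial ℂ := Polynomial.C (-(1 / (2 * δ))) with hk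
  set s : τ → Polynomial ℂ := k • (M.adjugate *ᵥ l) with hs'
  have hk2 : (1 : Polynomial ℂ) + 2 * (k * M.det) = 0 := by
    rw [hk, hδ, show (2 : Polynomial ℂ) = Polynomial.C 2 from (Polynomial.C_ofNat 2).symm,
      ← Polynomial.C_mul, ← Polynomial.C_mul, ← Polynomial.C_1, ← Polynomial.C_add]
    convert Polynomial.C_0 using 2
    field_simp
    ring
  have hMs' : M *ᵥ s = (k * M.det) • l := by
    rw [hs', mulVec_smul, mulVec_mulVec, mul_adjugate, smul_mulVec, one_mulVec, smul_smul]
  have hl : l + (2 : Polynomial ℂ) • (M *ᵥ s) = 0 := by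
    rw [hMs', smul_smul]
    conv_lhs => arg 1; rw [← one_smul (Polynomial ℂ) l]
    rw [← add_smul, hk2, zero_smul]
  have hc : c0 + l ⬝ᵥ s + s ⬝ᵥ M *ᵥ s = Polynomial.C α * Polynomial.X + Polynomial.C β := by
    have h4 : (Polynomial.C 4 * M.det : Polynomial ℂ) ≠ 0 :=
      mul_ne_zero (by simp) hdet
    refine mul_left_cancel₀ h4 ?_
    rw [← hN, squareNum, hMs', hs']
    simp only [dotProduct_smul, smul_dotProduct, smul_eq_mul, dotProduct_comm (M.adjugate *ᵥ l) l,
      show (Polynomial.C 4 : Polynomial ℂ) = 4 from Polynomial.C_ofNat 4]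
    linear_combination (l ⬝ᵥ M.adjugate *ᵥ l) * (2 * k * M.det + 1) * hk2
  refine isCoordinate_of_map (affEquiv P s hP) ?_
  show IsCoordinate (bodyAut (affSub P s) (body (quadPoly c0 l M)))
  rw [bodyAut_body, affSub_quadPoly _ _ _ _ hMs, hl, mulVec_zero, hc, hPM]
  refine isCoordinate_of_pderiv_eq_C (i := none) hα ?_
  simp [quadPoly, body]

end Vale.Agent.P295
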