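import Vale.Agent.P295.Defs

/-!
# Stable coordinates of degree at most two
-/

open MvPolynomial

namespace Vale.Agent.P295

variable {σ τ : Type*}

lemma pderiv_aeval [Fintype σ] (h : σ → MvPolynomial τ ℂ) (i : τ) (g : MvPolynomial σ ℂ) :
    pderiv i (aeval h g) = ∑ j, aeval h (pderiv j g) * pderiv i (h j) := by
  classical
  induction g using MvPolynomial.induction_on with
  | C a => simp
  | add p q hp hq =>
    rw [map_add, map_add, hp, hq, ← Finset.sum_add_distrib]
    exact Finset.sum_congr rfl fun j _ => by rw [map_add, map_add, add_mul]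
  | mul_X p k hp =>
    rw [map_mul, aeval_X, pderiv_mul, hp, Finset.sum_mul]
    have hj : ∀ j, aeval h (pderiv j (p * X k)) * pderiv i (h j)
        = aeval h (pderiv j p) * pderiv i (h j) * h k
          + if j = k then aeval h p * pderiv i (h k) else 0 := fun j => by
      rw [pderiv_mul, map_add, map_mul, map_mul, aeval_X]
      by_cases hjk : j = k
      · subst hjk
        rw [pderiv_X_self, map_one, if_pos rfl]
        ring
      · rw [pderiv_X_of_ne (Ne.symm hjk), map_zero, if_neg hjk]
        ring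
    simp only [hj, Finset.sum_add_distrib, Finset.sum_ite_eq', Finset.mem_univ, if_true]

lemma exists_pderiv_ne_zero [Finite σ] {g : MvPolynomial σ ℂ}
    (e : MvPolynomial σ ℂ ≃ₐ[ℂ] MvPolynomial σ ℂ) {i : σ} (he : e g = X i) (p : σ → ℂ) :
    ∃ j, eval p (pderiv j g) ≠ 0 := by
  have := Fintype.ofFinite σ
  by_contra hc
  push Not at hc
  set q : σ → ℂ := fun j => eval p (e.symm (X j)) with hq
  have hcomp : ∀ u : MvPolynomial σ ℂ, eval q u = eval p (e.symm u) := fun u => by
    have : (aeval q : MvPolynomial σ ℂ →ₐ[ℂ] ℂ) = (aeval p).comp e.symm.toAlgHom :=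
      algHom_ext fun j => by simp [hq, aeval_eq_eval]
    simpa [aeval_eq_eval] using DFunLike.congr_fun this u
  have he' : aeval (fun j => e (X j)) g = e g :=
    (DFunLike.congr_fun (aeval_unique e.toAlgHom) g).symm
  have h1 : eval q (pderiv i (e g)) = 1 := by simp [he]
  rw [← he', pderiv_aeval, map_sum] at h1
  refine one_ne_zero (h1.symm.trans (Finset.sum_eq_zero fun j _ => ?_))
  have hu : aeval (fun j => e (X j)) (pderiv j g) = e (pderiv j g) :=
    (DFunLike.congr_fun (aeval_unique e.toAlgHom) _).symm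
  rw [map_mul, hu, hcomp, e.symm_apply_apply, hc j, zero_mul]

lemma eq_C_of_pderiv_eq_zero {g : MvPolynomial σ ℂ} (h : ∀ i, pderiv i g = 0) :
    g = C (coeff 0 g) := by
  classical
  ext m
  rw [coeff_C]
  split_ifs with hm
  · subst hm
    rfl
  · obtain ⟨i, hi⟩ : ∃ i, m i ≠ 0 := by
      by_contra hc
      push Not at hc
      exact hm (Finsupp.ext fun i => (hc i).symm)
    have h1 := congr_arg (coeff (m - Finsupp.single i 1)) (h i)
    rw [coeff_pderiv, coeff_zero, tsub_add_cancel_of_le (Finsupp.single_le_iff.2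
      (Nat.one_le_iff_ne_zero.2 hi))] at h1
    rcases mul_eq_zero.1 h1 with h2 | h2
    · exact h2
    · exact absurd h2 (Nat.cast_add_one_ne_zero _)

lemma pderiv_comm (i j : σ) (g : MvPolynomial σ ℂ) :
    pderiv i (pderiv j g) = pderiv j (pderiv i g) := by
  classical
  ext m
  simp only [coeff_pderiv, Finsupp.add_apply]
  rw [add_right_comm m (Finsupp.single i 1)]
  by_cases hij : i = j
  · subst hij
    ring
  · simp [Finsupp.single_eq_of_ne hij, Finsupp.single_eq_of_ne (Ne.symm hij)]
    ring

lemma pderiv_three {g : MvPolynomial σ ℂ} (hg : g.totalDegree ≤ 2) (i j k : σ) :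
    pderiv i (pderiv j (pderiv k g)) = 0 := by
  classical
  ext m
  rw [coeff_pderiv, coeff_pderiv, coeff_pderiv, coeff_zero]
  rw [coeff_eq_zero_of_totalDegree_lt (lt_of_le_of_lt hg ?_)]
  · ring
  · simp only [← Finsupp.degree_apply, map_add, Finsupp.degree_single]
    omega

/-- A polynomial with constant nonzero derivative in one variable is a coordinate. -/
lemma isCoordinate_of_pderiv_eq_C {σ : Type} {f : MvPolynomial σ ℂ} {i : σ} {a : ℂ} (ha : a ≠ 0)
    (h : pderiv i f = C a) : IsCoordinate f := by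
  classical
  set r := f - C a * X i with hr
  have hri : pderiv i r = 0 := by simp [hr, h]
  have hvars : i ∉ r.vars := by
    intro hi
    obtain ⟨d, hd, hid⟩ := (mem_vars_iff_mem_support _).1 hi
    have h1 := congr_arg (coeff (d - Finsupp.single i 1)) hri
    rw [coeff_pderiv, coeff_zero, tsub_add_cancel_of_le (Finsupp.single_le_iff.2
      (Nat.one_le_iff_ne_zero.2 (Finsupp.mem_support_iff.1 hid)))] at h1
    rcases mul_eq_zero.1 h1 with h2 | h2
    · exact mem_support_iff.1 hd h2
    · exact absurd h2 (Nat.cast_add_one_ne_zero _)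
  let T : MvPolynomial σ ℂ →ₐ[ℂ] MvPolynomial σ ℂ :=
    aeval (Function.update X i (C a⁻¹ * (X i - r)))
  let S : MvPolynomial σ ℂ →ₐ[ℂ] MvPolynomial σ ℂ := aeval (Function.update X i f)
  have fixr : ∀ u : MvPolynomial σ ℂ, aeval (Function.update X i u) r = r := fun u => by
    conv_rhs => rw [← aeval_X_left_apply r]
    exact eval₂Hom_congr' rfl (fun j hj _ => Function.update_of_ne
      (ne_of_mem_of_not_mem hj hvars) _ _) rfl
  have hf : f = C a * X i + r := by rw [hr]; ring
  have hTr : T r = r := fixr _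
  have hSr : S r = r := fixr _
  have hTX : T (X i) = C a⁻¹ * (X i - r) := by simp [T]
  have hSX : S (X i) = f := by simp [S]
  have e1 : C a * C a⁻¹ = (1 : MvPolynomial σ ℂ) := by rw [← C_mul, mul_inv_cancel₀ ha, C_1]
  have hT : T f = X i := by
    rw [hf, map_add, map_mul, hTX, hTr, T.commutes' a |> fun h => (show T (C a) = C a from h),
      ← mul_assoc, e1]
    ring
  refine ⟨AlgEquiv.ofAlgHom T S (algHom_ext fun j => ?_) (algHom_ext fun j => ?_), i, hT⟩
  · by_cases hj : j = i
    · subst hj
      simp [hSX, hT]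
    · simp [T, S, hj]
  · by_cases hj : j = i
    · subst hj
      rw [AlgHom.comp_apply, hTX, map_mul, map_sub, hSX, hSr,
        show S (C a⁻¹) = C a⁻¹ from S.commutes' a⁻¹, hf, AlgHom.id_apply]
      rw [add_sub_cancel_right, ← mul_assoc, mul_comm (C a⁻¹) (C a), e1, one_mul]
    · simp [T, S, hj]

/-- Stable coordinates of degree at most two are coordinates. -/
theorem isCoordinate_of_stable {n : ℕ} {f : MvPolynomial (Fin n) ℂ}
    (hs : IsStableCoordinate f) (hd : f.totalDegree ≤ 2) : IsCoordinate f := by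
  classical
  obtain ⟨m, -, e, k, hk⟩ := hs
  set Q : Matrix (Fin n) (Fin n) ℂ := fun j l => coeff 0 (pderiv l (pderiv j f))
  set c : Fin n → ℂ := fun j => coeff 0 (pderiv j f)
  have h2 : ∀ j l, pderiv l (pderiv j f) = C (Q j l) := fun j l =>
    eq_C_of_pderiv_eq_zero fun i => pderiv_three hd i l j
  have hsym : ∀ j l, Q j l = Q l j := fun j l => by
    simp only [Q, pderiv_comm l j]
  have h1 : ∀ j, pderiv j f = C (c j) + ∑ l, C (Q j l) * X l := fun j => by
    have hz := eq_C_of_pderiv_eq_zero (g := pderiv j f - ∑ l, C (Q j l) * X l) fun i => by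
      rw [map_sub, h2, map_sum, Finset.sum_eq_single i]
      · simp
      · intro l _ hl
        simp [pderiv_X_of_ne hl]
      · simp
    simp only [coeff_sub, coeff_sum, coeff_C_mul, coeff_zero_X, mul_zero, Finset.sum_const_zero,
      sub_zero] at hz
    exact eq_add_of_sub_eq hz
  have hgrad : ∀ p : Fin n → ℂ, ∃ j, c j + Q.mulVec p j ≠ 0 := fun p => by
    obtain ⟨j, hj⟩ := exists_pderiv_ne_zero e hk (Sum.elim p fun _ => 0)
    rcases j with j | j
    · refine ⟨j, fun h0 => hj ?_⟩
      rw [pderiv_rename Sum.inl_injective, eval_rename, h1]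
      simpa [Matrix.mulVec, dotProduct] using h0
    · refine absurd ?_ hj
      have hnot : Sum.inr j ∉ (rename (Sum.inl : Fin n → Fin n ⊕ Fin m) f).vars := fun hmem => by
        obtain ⟨x, -, hx⟩ := Finset.mem_image.1 (vars_rename _ _ hmem)
        cases hx
      rw [pderiv_eq_zero_of_notMem_vars hnot, map_zero]
  have hnr : -c ∉ LinearMap.range Q.mulVecLin := by
    rintro ⟨p, hp⟩
    obtain ⟨j, hj⟩ := hgrad p
    exact hj (by rw [show Q.mulVec p = -c from hp]; simp)
  obtain ⟨φ, hφc, hφQ⟩ := Submodule.exists_dual_map_eq_bot_of_notMem hnr inferInstance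
  set v : Fin n → ℂ := fun j => φ (Pi.single j 1) with hv
  have hφ : ∀ x : Fin n → ℂ, φ x = ∑ j, x j * v j := fun x => by
    conv_lhs => rw [pi_eq_sum_univ' x, map_sum]
    exact Finset.sum_congr rfl fun j _ => by simp [hv]
  set α := ∑ j, c j * v j with hα
  have hα0 : α ≠ 0 := fun h0 => hφc (by rw [map_neg, hφ, ← hα, h0, neg_zero])
  have hQv : ∀ l, ∑ j, v j * Q j l = 0 := fun l => by
    have h3 : φ (Q.mulVecLin (Pi.single l 1)) = 0 := by
      have : φ (Q.mulVecLin (Pi.single l 1)) ∈ (LinearMap.range Q.mulVecLin).map φ :=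
        Submodule.mem_map_of_mem (LinearMap.mem_range_self _ _)
      rwa [hφQ, Submodule.mem_bot] at this
    rw [hφ] at h3
    simpa [mul_comm] using h3
  obtain ⟨i, hi⟩ : ∃ i, v i ≠ 0 := by
    by_contra hc
    push Not at hc
    exact hα0 (by simp [hα, hc])
  have hdir : ∑ j, C (v j) * pderiv j f = C α := by
    simp only [h1, mul_add, Finset.sum_add_distrib, Finset.mul_sum, ← mul_assoc, ← C_mul]
    rw [Finset.sum_comm]
    simp only [← Finset.sum_mul, ← map_sum, hQv, map_zero, zero_mul, Finset.sum_const_zero,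
      add_zero, hα]
    simp [map_sum, mul_comm]
  let w : Fin n → ℂ := fun j => v j / v i
  have hwi : w i = 1 := div_self hi
  let hL : Fin n → MvPolynomial (Fin n) ℂ :=
    fun j => if j = i then X i else X j + C (w j) * X i
  let hM : Fin n → MvPolynomial (Fin n) ℂ :=
    fun j => if j = i then X i else X j - C (w j) * X i
  let L : MvPolynomial (Fin n) ℂ ≃ₐ[ℂ] MvPolynomial (Fin n) ℂ :=
    AlgEquiv.ofAlgHom (aeval hL) (aeval hM)
      (algHom_ext fun j => by by_cases hj : j = i <;> simp [hL, hM, hj])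
      (algHom_ext fun j => by by_cases hj : j = i <;> simp [hL, hM, hj])
  have hderiv : pderiv i (L f) = C (α / v i) := by
    show pderiv i (aeval hL f) = _
    rw [pderiv_aeval]
    have hLd : ∀ j, pderiv i (hL j) = C (w j) := fun j => by
      by_cases hj : j = i
      · subst hj; simp [hL, hwi]
      · simp [hL, hj, pderiv_X_of_ne hj]
    calc ∑ j, aeval hL (pderiv j f) * pderiv i (hL j)
        = C (v i)⁻¹ * aeval hL (∑ j, C (v j) * pderiv j f) := by
          rw [map_sum, Finset.mul_sum]
          refine Finset.sum_congr rfl fun j _ => ?_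
          rw [map_mul, hLd, aeval_C, MvPolynomial.algebraMap_eq,
            show w j = (v i)⁻¹ * v j from div_eq_inv_mul _ _, C_mul]
          ring
      _ = _ := by
          rw [hdir, aeval_C, MvPolynomial.algebraMap_eq, ← C_mul, inv_mul_eq_div]
  obtain ⟨e', i', he'⟩ := isCoordinate_of_pderiv_eq_C (div_ne_zero hα0 hi) hderiv
  exact ⟨L.trans e', i', he'⟩

end Vale.Agent.P295
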